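import Vale.Agent.P176.XCone
import Mathlib.Algebra.Algebra.Subalgebra.Lattice
import Mathlib.Algebra.Module.Projective
import Mathlib.LinearAlgebra.Isomorphisms

/-!
The finite-dimensional algebra and its indecomposable projective modules.
-/

namespace Vale.Agent.P176

open MvPolynomial

/-- The ambient space of the regular representation. -/
abbrev Amb (k : Type) [Field k] := (Fin 5 → Pol k) × (Fin 5 → Pol k × Pol k)

variable {k : Type} [Field k]

/-- Placing a polynomial at a vertex of the first part. -/
noncomputable def bIn (v : Fin 5) : Pol k →ₗ[k] Amb k :=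
  (LinearMap.single k (fun _ => Pol k) v).prod 0

/-- Placing a pair at a vertex of the second part. -/
noncomputable def xIn (v : Fin 5) : Pol k × Pol k →ₗ[k] Amb k :=
  LinearMap.prod (0 : Pol k × Pol k →ₗ[k] Fin 5 → Pol k)
    (LinearMap.single k (fun _ => Pol k × Pol k) v)

/-- First part at a vertex. -/
noncomputable def bOut (v : Fin 5) : Amb k →ₗ[k] Pol k :=
  LinearMap.proj v ∘ₗ LinearMap.fst k (Fin 5 → Pol k) (Fin 5 → Pol k × Pol k)

/-- Second part at a vertex. -/
noncomputable def xOut (v : Fin 5) : Amb k →ₗ[k] Pol k × Pol k :=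
  LinearMap.proj v ∘ₗ LinearMap.snd k (Fin 5 → Pol k) (Fin 5 → Pol k × Pol k)

lemma bOut_bIn (v w : Fin 5) (p : Pol k) : bOut v (bIn w p) = if v = w then p else 0 := by
  simp [bOut, bIn, Pi.single_apply]

lemma bOut_xIn (v w : Fin 5) (p : Pol k × Pol k) : bOut v (xIn w p) = 0 := by
  simp [bOut, xIn]

lemma xOut_bIn (v w : Fin 5) (p : Pol k) : xOut v (bIn w p) = 0 := by
  simp [xOut, bIn]

lemma xOut_xIn (v w : Fin 5) (p : Pol k × Pol k) :
    xOut v (xIn w p) = if v = w then p else 0 := by
  simp [xOut, xIn, Pi.single_apply]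

lemma amb_ext {x y : Amb k} (h1 : ∀ v, bOut v x = bOut v y) (h2 : ∀ v, xOut v x = xOut v y) :
    x = y := Prod.ext (funext h1) (funext h2)

/-- Reduction of one polynomial into the first slot of a pair, substituting `N ↦ -A`. -/
noncomputable def piW (k : Type) [Field k] (w : Fin 2) : Pol k →ₗ[k] Pol k × Pol k :=
  (MvPolynomial.basisMonomials (Fin 5) k).constr k fun m =>
    ((-opA k) ^ (m 3))
      ((![(mon k (m 0) (m 1) (m 2) 0 (m 4), 0), (0, mon k (m 0) (m 1) (m 2) 0 (m 4))]
        : Fin 2 → Pol k × Pol k) w)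

/-- Placing a polynomial in one slot of a pair. -/
noncomputable def inW (k : Type) [Field k] (w : Fin 2) : Pol k →ₗ[k] Pol k × Pol k :=
  (![LinearMap.inl k (Pol k) (Pol k), LinearMap.inr k (Pol k) (Pol k)]
    : Fin 2 → Pol k →ₗ[k] Pol k × Pol k) w

lemma piW_mon (w : Fin 2) (a b c d g : ℕ) :
    piW k w (mon k a b c d g) = ((-opA k) ^ d) (inW k w (mon k a b c 0 g)) := by
  let m : Fin 5 →₀ ℕ := Finsupp.equivFunOnFinite.symm ![a, b, c, d, g]
  have h := (MvPolynomial.basisMonomials (Fin 5) k).constr_basis k
    (fun m => ((-opA k) ^ (m 3))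
      ((![(mon k (m 0) (m 1) (m 2) 0 (m 4), 0), (0, mon k (m 0) (m 1) (m 2) 0 (m 4))]
        : Fin 2 → Pol k × Pol k) w)) m
  rw [mon_eq_monomial]
  simp only [MvPolynomial.coe_basisMonomials] at h
  refine h.trans ?_
  have e0 : m 0 = a := rfl
  have e1 : m 1 = b := rfl
  have e2 : m 2 = c := rfl
  have e3 : m 3 = d := rfl
  have e4 : m 4 = g := rfl
  rw [e0, e1, e2, e3, e4]
  fin_cases w <;> rfl

lemma piW_Nf (w : Fin 2) {p : Pol k} (hp : p ∈ Nf k) : piW k w p = inW k w p := by
  have : Nf k ≤ LinearMap.ker (piW k w - inW k w) := by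
    refine Nf_ind fun a b c g => ?_
    rw [LinearMap.mem_ker, LinearMap.sub_apply, piW_mon, pow_zero, Module.End.one_apply, sub_self]
  simpa [sub_eq_zero] using this hp

lemma piW_X3 (w : Fin 2) (p : Pol k) : piW k w (X 3 * p) = -opA k (piW k w p) := by
  suffices piW k w ∘ₗ mX 3 = (-opA k) ∘ₗ piW k w from LinearMap.congr_fun this p
  refine polExt fun a b c d g => ?_
  simp only [LinearMap.comp_apply, mX_apply]
  rw [show (X 3 : Pol k) * mon k a b c d g = mon k a b c (d + 1) g by unfold mon; ring,
    piW_mon, piW_mon, pow_succ', Module.End.mul_apply]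

/-- Right multiplication on pairs by the variable with the given index. -/
noncomputable def xR (k : Type) [Field k] (i : Fin 5) : Module.End k (Pol k × Pol k) :=
  if i = 3 then -opA k else dup k (rmul k i)

lemma piW_rmul (w : Fin 2) (i : Fin 5) (p : Pol k) :
    piW k w (rmul k i p) = xR k i (piW k w p) := by
  by_cases hi : i = 3
  · subst hi
    rw [rmul_X3, xR, if_pos rfl, mX_apply, piW_X3]
    rfl
  rw [xR, if_neg hi]
  suffices piW k w ∘ₗ rmul k i = dup k (rmul k i) ∘ₗ piW k w from LinearMap.congr_fun this p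
  refine polExt fun a b c d g => ?_
  simp only [LinearMap.comp_apply]
  induction d with
  | zero =>
    rw [piW_mon, pow_zero, Module.End.one_apply,
      piW_Nf w (rmul_Nf hi (mon_mem_Nf a b c g))]
    fin_cases w
    · exact Prod.ext rfl (map_zero (rmul k i)).symm
    · exact Prod.ext (map_zero (rmul k i)).symm rfl
  | succ d ih =>
    have hc : rmul k i (X 3 * mon k a b c d g) = X 3 * rmul k i (mon k a b c d g) := by
      have h2 : Commute (rmul k 3) (rmul k i) := by
        fin_cases i
        · exact (rightRep k).ne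
        · exact (rightRep k).nh
        · exact (rightRep k).nf
        · exact Commute.refl _
        · exact (rightRep k).zn.symm
      have h3 := LinearMap.congr_fun h2.eq (mon k a b c d g)
      rw [Module.End.mul_apply, Module.End.mul_apply, rmul_X3, mX_apply, mX_apply] at h3
      exact h3.symm
    rw [show mon k a b c (d + 1) g = X 3 * mon k a b c d g by unfold mon; ring, hc, piW_X3, ih,
      piW_X3, map_neg]
    have h := LinearMap.congr_fun (opA_comm (k := k) i).eq (piW k w (mon k a b c d g))
    rw [Module.End.mul_apply, Module.End.mul_apply] at h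
    rw [h]

/-- Index of the generators. -/
inductive Gen : Type
  | proj (v : Fin 5)
  | arrow (i : Fin 5) (v : Fin 4)
  | back (v : Fin 4) (w : Fin 2)

/-- The generating operators. -/
noncomputable def genMap (k : Type) [Field k] : Gen → Module.End k (Amb k)
  | .proj v => bIn v ∘ₗ bOut v + xIn v ∘ₗ xOut v
  | .arrow i v => bIn v.succ ∘ₗ op k i ∘ₗ bOut v.castSucc
      + xIn v.succ ∘ₗ deltaOp k i ∘ₗ xOut v.castSucc
  | .back v w => xIn v.castSucc ∘ₗ piW k w ∘ₗ bOut v.succ

/-- The algebra: generated by the operators above. -/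
noncomputable abbrev Talg (k : Type) [Field k] : Subalgebra k (Module.End k (Amb k)) :=
  Algebra.adjoin k (Set.range (genMap k))

/-- The algebra, as a type. -/
def TT (k : Type) [Field k] : Type := ↥(Talg k)

noncomputable instance : Ring (TT k) := inferInstanceAs (Ring ↥(Talg k))

noncomputable instance : Algebra k (TT k) := inferInstanceAs (Algebra k ↥(Talg k))

noncomputable instance : Module (TT k) (Amb k) := inferInstanceAs (Module ↥(Talg k) (Amb k))

instance : IsScalarTower k (TT k) (Amb k) := inferInstanceAs (IsScalarTower k ↥(Talg k) (Amb k))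

/-- A generator as an element of the algebra. -/
noncomputable def gT (s : Gen) : TT k :=
  (⟨genMap k s, Algebra.subset_adjoin ⟨s, rfl⟩⟩ : ↥(Talg k))

lemma gT_smul (s : Gen) (x : Amb k) : gT (k := k) s • x = genMap k s x := rfl

lemma algInd {P : TT k → Prop} (hg : ∀ s, P (gT s)) (hc : ∀ c : k, P (algebraMap k _ c))
    (ha : ∀ s t, P s → P t → P (s + t)) (hm : ∀ s t, P s → P t → P (s * t)) (t : TT k) : P t := by
  obtain ⟨t, ht⟩ : ↥(Talg k) := t
  induction ht using Algebra.adjoin_induction with
  | mem x hx => obtain ⟨s, rfl⟩ := hx; exact hg s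
  | algebraMap r => exact hc r
  | add x y hx hy px py => exact ha ⟨x, hx⟩ ⟨y, hy⟩ px py
  | mul x y hx hy px py => exact hm ⟨x, hx⟩ ⟨y, hy⟩ px py

/-- A linear map commuting with the generators is linear over the algebra. -/
noncomputable def toT {A B : Type*} [AddCommGroup A] [AddCommGroup B] [Module (TT k) A]
    [Module (TT k) B] [Module k A] [Module k B] [IsScalarTower k (TT k) A]
    [IsScalarTower k (TT k) B] (f : A →ₗ[k] B)
    (h : ∀ s a, f (gT (k := k) s • a) = gT (k := k) s • f a) : A →ₗ[TT k] B where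
  toFun := f
  map_add' := f.map_add
  map_smul' t a := by
    revert a
    induction t using algInd with
    | hg s => exact h s
    | hc c => intro a; simp [IsScalarTower.algebraMap_smul]
    | ha s t hs ht => intro a; simp only [RingHom.id_apply] at hs ht ⊢; simp [add_smul, hs, ht]
    | hm s t hs ht => intro a; simp only [RingHom.id_apply] at hs ht ⊢; rw [mul_smul, hs, ht, mul_smul]

lemma toT_apply {A B : Type*} [AddCommGroup A] [AddCommGroup B] [Module (TT k) A]
    [Module (TT k) B] [Module k A] [Module k B] [IsScalarTower k (TT k) A]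
    [IsScalarTower k (TT k) B] (f : A →ₗ[k] B)
    (h : ∀ s a, f (gT (k := k) s • a) = gT (k := k) s • f a) (a : A) : toT f h a = f a := rfl

lemma bOut_proj (v w : Fin 5) (x : Amb k) :
    bOut v (genMap k (.proj w) x) = if v = w then bOut w x else 0 := by
  simp [genMap, bOut_bIn, bOut_xIn]

lemma xOut_proj (v w : Fin 5) (x : Amb k) :
    xOut v (genMap k (.proj w) x) = if v = w then xOut w x else 0 := by
  simp [genMap, xOut_bIn, xOut_xIn]

lemma bOut_arrow (v : Fin 5) (i : Fin 5) (w : Fin 4) (x : Amb k) :
    bOut v (genMap k (.arrow i w) x) = if v = w.succ then op k i (bOut w.castSucc x) else 0 := by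
  simp [genMap, bOut_bIn, bOut_xIn]

lemma xOut_arrow (v : Fin 5) (i : Fin 5) (w : Fin 4) (x : Amb k) :
    xOut v (genMap k (.arrow i w) x)
      = if v = w.succ then deltaOp k i (xOut w.castSucc x) else 0 := by
  simp [genMap, xOut_bIn, xOut_xIn]

lemma bOut_back (v : Fin 5) (u : Fin 4) (w : Fin 2) (x : Amb k) :
    bOut v (genMap k (.back u w) x) = 0 := by
  simp [genMap, bOut_xIn]

lemma xOut_back (v : Fin 5) (u : Fin 4) (w : Fin 2) (x : Amb k) :
    xOut v (genMap k (.back u w) x) = if v = u.castSucc then piW k w (bOut u.succ x) else 0 := by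
  simp [genMap, xOut_xIn]

/-- A pair of operators commuting with the generators. -/
noncomputable def diagT (φ : Module.End k (Pol k)) (ψ : Module.End k (Pol k × Pol k))
    (h1 : ∀ i p, φ (op k i p) = op k i (φ p))
    (h2 : ∀ i q, ψ (deltaOp k i q) = deltaOp k i (ψ q))
    (h3 : ∀ w p, piW k w (φ p) = ψ (piW k w p)) : Amb k →ₗ[TT k] Amb k :=
  toT ((φ.compLeft (Fin 5)).prodMap (ψ.compLeft (Fin 5))) (by
    intro s x
    rw [gT_smul, gT_smul]
    have eb : ∀ v y, bOut v ((φ.compLeft (Fin 5)).prodMap (ψ.compLeft (Fin 5)) y)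
        = φ (bOut v y) := fun _ _ => rfl
    have ex : ∀ v y, xOut v ((φ.compLeft (Fin 5)).prodMap (ψ.compLeft (Fin 5)) y)
        = ψ (xOut v y) := fun _ _ => rfl
    refine amb_ext (fun v => ?_) (fun v => ?_) <;> cases s <;>
      simp only [eb, ex, bOut_proj, xOut_proj, bOut_arrow, xOut_arrow, bOut_back, xOut_back] <;>
      first
      | exact map_zero _
      | (split_ifs <;>
          first
          | exact map_zero _
          | rfl
          | exact h1 _ _
          | exact h2 _ _
          | exact h3 _ _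
          | exact (h3 _ _).symm))

lemma deltaOp_dup (i j : Fin 5) (q : Pol k × Pol k) :
    dup k (rmul k j) (deltaOp k i q) = deltaOp k i (dup k (rmul k j) q) := by
  have c : ∀ (l : Fin 5) (p : Pol k), rmul k j (op k l p) = op k l (rmul k j p) :=
    fun l p => LinearMap.congr_fun (rmul_op j l) p
  have hA := LinearMap.congr_fun (opA_comm (k := k) j).eq q
  fin_cases i
  · show (rmul k j (op k 0 q.1 + 0), rmul k j (op k 4 q.1 + op k 0 q.2))
      = (op k 0 (rmul k j q.1) + 0, op k 4 (rmul k j q.1) + op k 0 (rmul k j q.2))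
    simp [c]
  · show (rmul k j (op k 1 q.1 + op k 4 q.1), rmul k j (op k 1 q.2 - op k 4 q.2))
      = (op k 1 (rmul k j q.1) + op k 4 (rmul k j q.1),
          op k 1 (rmul k j q.2) - op k 4 (rmul k j q.2))
    simp [c]
  · show (rmul k j (op k 2 q.1 + op k 4 q.2), rmul k j (0 + op k 2 q.2))
      = (op k 2 (rmul k j q.1) + op k 4 (rmul k j q.2), 0 + op k 2 (rmul k j q.2))
    simp [c]
  · show dup k (rmul k j) (-opA k q - dup k (op k 4) q)
      = -opA k (dup k (rmul k j) q) - dup k (op k 4) (dup k (rmul k j) q)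
    have hz : dup k (rmul k j) (dup k (op k 4) q) = dup k (op k 4) (dup k (rmul k j) q) :=
      Prod.ext (c 4 q.1) (c 4 q.2)
    rw [map_sub, map_neg, hz]
    exact congrArg (fun y => -y - _) hA.symm
  · exact Prod.ext (c 4 q.1) (c 4 q.2)

lemma xR_delta (i j : Fin 5) (q : Pol k × Pol k) :
    xR k j (deltaOp k i q) = deltaOp k i (xR k j q) := by
  by_cases hj : j = 3
  · subst hj
    rw [xR, if_pos rfl]
    by_cases hi : i = 3
    · subst hi
      have h := LinearMap.congr_fun (opA_delta (k := k) 4 (by decide)).eq q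
      show -opA k (-opA k q - deltaOp k 4 q) = -opA k (-opA k q) - deltaOp k 4 (-opA k q)
      rw [map_sub, map_neg, map_neg]
      simp only [Module.End.mul_apply] at h
      rw [h]
      abel
    · have h := LinearMap.congr_fun (opA_delta (k := k) i hi).eq q
      show -opA k (deltaOp k i q) = deltaOp k i (-opA k q)
      rw [map_neg]
      exact congrArg Neg.neg h
  · rw [xR, if_neg hj]
    exact deltaOp_dup i j q

/-- Right multiplication by a variable, as a module map. -/
noncomputable def RT (j : Fin 5) : Amb k →ₗ[TT k] Amb k :=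
  diagT (rmul k j) (xR k j) (fun i p => LinearMap.congr_fun (rmul_op j i) p)
    (fun i q => xR_delta i j q) (fun w p => piW_rmul w j p)

lemma RT_b (v j : Fin 5) (x : Amb k) : bOut v (RT j x) = rmul k j (bOut v x) := rfl

lemma RT_x (v j : Fin 5) (x : Amb k) : xOut v (RT j x) = xR k j (xOut v x) := rfl

/-- Right multiplication by an element of the bimodule. -/
noncomputable def RY (y : Pol k × Pol k) : Amb k →ₗ[TT k] Amb k :=
  toT ((0 : Amb k →ₗ[k] Fin 5 → Pol k).prod
      ((((deltaRep k).rho).flip y).compLeft (Fin 5) ∘ₗ LinearMap.fst k _ _)) (by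
    intro s x
    rw [gT_smul, gT_smul]
    set L := (0 : Amb k →ₗ[k] Fin 5 → Pol k).prod
      ((((deltaRep k).rho).flip y).compLeft (Fin 5) ∘ₗ LinearMap.fst k _ _)
    have eb : ∀ v z, bOut v (L z) = 0 := fun _ _ => rfl
    have ex : ∀ v z, xOut v (L z) = (deltaRep k).rho (bOut v z) y := fun _ _ => rfl
    have key : ∀ i p, (deltaRep k).rho (op k i p) y = deltaOp k i ((deltaRep k).rho p y) := by
      intro i p
      rw [op, GRep.rho_op]
      fin_cases i <;> rfl
    refine amb_ext (fun v => ?_) (fun v => ?_) <;> cases s <;>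
      simp only [eb, ex, bOut_proj, xOut_proj, bOut_arrow, xOut_arrow, bOut_back, xOut_back,
        map_zero, LinearMap.zero_apply, ite_self] <;>
      (split_ifs <;> simp [key]))

lemma RY_b (v : Fin 5) (y : Pol k × Pol k) (x : Amb k) : bOut v (RY y x) = 0 := rfl

lemma RY_x (v : Fin 5) (y : Pol k × Pol k) (x : Amb k) :
    xOut v (RY y x) = (deltaRep k).rho (bOut v x) y := rfl

/-- The cyclic vector at a vertex. -/
noncomputable def uvec (c : Fin 5) : Amb k := bIn c 1

lemma RY_uvec (c : Fin 5) (y : Pol k × Pol k) : RY y (uvec c) = xIn c y := by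
  refine amb_ext (fun v => ?_) (fun v => ?_)
  · rw [RY_b, bOut_xIn]
  · rw [RY_x, uvec, bOut_bIn, xOut_xIn]
    split_ifs <;> simp [GRep.rho_one]

lemma RT_bIn (c j : Fin 5) (p : Pol k) : RT j (bIn c p) = bIn c (rmul k j p) := by
  refine amb_ext (fun v => ?_) (fun v => ?_)
  · rw [RT_b, bOut_bIn, bOut_bIn]; split_ifs <;> simp
  · rw [RT_x, xOut_bIn, xOut_bIn, map_zero]

lemma proj_uvec (c : Fin 5) : genMap k (.proj c) (uvec c) = uvec c := by
  refine amb_ext (fun v => ?_) (fun v => ?_)
  · rw [bOut_proj, uvec, bOut_bIn, bOut_bIn, if_pos rfl]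
  · rw [xOut_proj, uvec, xOut_bIn, xOut_bIn]; split_ifs <;> rfl

lemma kill_proj {t : TT k} {c : Fin 5} (h : t • uvec (k := k) c = 0) (x : Amb k) :
    t • genMap k (.proj c) x = 0 := by
  have key : ∀ (R : Amb k →ₗ[TT k] Amb k), t • R (uvec (k := k) c) = 0 := by
    intro R; rw [← map_smul, h, map_zero]
  have hb : ∀ p, t • bIn (k := k) c p = 0 := by
    have hS : ∀ a b e d g, ∃ R : Amb k →ₗ[TT k] Amb k,
        R (uvec (k := k) c) = bIn c (mon k a b e d g) := by
      intro a b e d g
      induction g with
      | succ g ih =>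
        obtain ⟨R, hR⟩ := ih
        refine ⟨RT 4 ∘ₗ R, ?_⟩
        rw [LinearMap.comp_apply, hR, RT_bIn, rmul_X4]
        congr 1; simp [mX_apply, mon]; ring
      | zero =>
        induction d with
        | succ d ih =>
          obtain ⟨R, hR⟩ := ih
          refine ⟨RT 3 ∘ₗ R, ?_⟩
          rw [LinearMap.comp_apply, hR, RT_bIn, rmul_X3]
          congr 1; simp [mX_apply, mon]; ring
        | zero =>
          induction e with
          | succ e ih =>
            obtain ⟨R, hR⟩ := ih
            exact ⟨RT 2 ∘ₗ R, by rw [LinearMap.comp_apply, hR, RT_bIn, rmul_mon2]⟩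
          | zero =>
            induction b with
            | succ b ih =>
              obtain ⟨R, hR⟩ := ih
              exact ⟨RT 1 ∘ₗ R, by rw [LinearMap.comp_apply, hR, RT_bIn, rmul_mon1]⟩
            | zero =>
              induction a with
              | succ a ih =>
                obtain ⟨R, hR⟩ := ih
                exact ⟨RT 0 ∘ₗ R, by rw [LinearMap.comp_apply, hR, RT_bIn, rmul_mon0]⟩
              | zero => exact ⟨LinearMap.id, by simp [uvec, mon]⟩
    have h2 : (Algebra.lsmul k k (Amb k) t ∘ₗ bIn (k := k) c) = 0 := by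
      refine polExt fun a b e d g => ?_
      obtain ⟨R, hR⟩ := hS a b e d g
      show t • bIn c (mon k a b e d g) = 0
      rw [← hR]; exact key R
    exact fun p => LinearMap.congr_fun h2 p
  have hx : ∀ q, t • xIn (k := k) c q = 0 := fun q => by rw [← RY_uvec c q]; exact key _
  have : genMap k (.proj c) x = bIn c (bOut c x) + xIn c (xOut c x) := rfl
  rw [this, smul_add, hb, hx, add_zero]

lemma sum_proj (x : Amb k) : ∑ c, genMap k (.proj c) x = x := by
  refine amb_ext (fun v => ?_) (fun v => ?_)
  · simp [map_sum, bOut_proj]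
  · simp [map_sum, xOut_proj]

lemma smul_eq_zero_of_uvec {t : TT k} (h : ∀ c, t • uvec (k := k) c = 0) : t = 0 := by
  refine Subtype.ext (LinearMap.ext fun x => ?_)
  show t • x = 0
  rw [← sum_proj x, Finset.smul_sum]
  exact Finset.sum_eq_zero fun c _ => kill_proj (h c) x

/-- The projective module at a vertex. -/
noncomputable abbrev colMod (k : Type) [Field k] (c : Fin 5) : Submodule (TT k) (Amb k) :=
  LinearMap.range (LinearMap.toSpanSingleton (TT k) (Amb k) (uvec c))

lemma mem_colMod {c : Fin 5} {x : Amb k} : x ∈ colMod k c ↔ ∃ t : TT k, t • uvec c = x :=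
  LinearMap.mem_range

lemma uvec_mem (c : Fin 5) : uvec c ∈ colMod k c := mem_colMod.2 ⟨1, one_smul _ _⟩

lemma mul_proj_eq_zero {t : TT k} {c : Fin 5} (h : t • uvec (k := k) c = 0) :
    t * gT (k := k) (Gen.proj c) = 0 := by
  apply Subtype.ext
  apply LinearMap.ext
  intro x
  exact kill_proj h x

lemma proj_smul_uvec (t : TT k) (c : Fin 5) :
    (t * gT (k := k) (Gen.proj c)) • uvec (k := k) c = t • uvec c := by
  rw [mul_smul, gT_smul, proj_uvec]

/-- The map from the algebra onto a column. -/
noncomputable def colProj (k : Type) [Field k] (c : Fin 5) : TT k →ₗ[TT k] colMod k c :=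
  (LinearMap.toSpanSingleton (TT k) (Amb k) (uvec c)).rangeRestrict

lemma colProj_val (c : Fin 5) (t : TT k) :
    ((colProj k c t : colMod k c) : Amb k) = t • uvec c := by
  rw [colProj, LinearMap.codRestrict_apply, LinearMap.toSpanSingleton_apply]

lemma colProj_eq {c : Fin 5} {a b : TT k} (h : colProj k c a = colProj k c b) :
    a * gT (k := k) (Gen.proj c) = b * gT (k := k) (Gen.proj c) := by
  rw [← sub_eq_zero, ← sub_mul]
  apply mul_proj_eq_zero
  rw [sub_smul, sub_eq_zero, ← colProj_val, ← colProj_val, h]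

/-- The splitting of a column into the algebra. -/
noncomputable def colSplit (k : Type) [Field k] (c : Fin 5) : colMod k c →ₗ[TT k] TT k :=
  have hp : Function.Surjective (colProj k c) := LinearMap.surjective_rangeRestrict _
  { toFun := fun y => Classical.choose (hp y) * gT (Gen.proj c)
    map_add' := fun y z => by
      rw [← add_mul]
      apply colProj_eq
      rw [map_add, Classical.choose_spec (hp y), Classical.choose_spec (hp z),
        Classical.choose_spec (hp (y + z))]
    map_smul' := fun r y => by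
      rw [RingHom.id_apply, smul_eq_mul, ← mul_assoc]
      apply colProj_eq
      rw [← smul_eq_mul, map_smul, Classical.choose_spec (hp y),
        Classical.choose_spec (hp (r • y))] }

instance colMod_projective (c : Fin 5) : Module.Projective (TT k) (colMod k c) := by
  refine Module.Projective.of_split (M := TT k) (colSplit k c) (colProj k c) ?_
  apply LinearMap.ext
  intro y
  apply Subtype.ext
  have hy : colProj k c (Classical.choose (LinearMap.surjective_rangeRestrict
      (LinearMap.toSpanSingleton (TT k) (Amb k) (uvec c)) y)) = y :=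
    Classical.choose_spec (LinearMap.surjective_rangeRestrict
      (LinearMap.toSpanSingleton (TT k) (Amb k) (uvec c)) y)
  conv_rhs => rw [LinearMap.id_apply, ← hy, colProj_val]
  rw [LinearMap.comp_apply, colProj_val]
  exact proj_smul_uvec _ c

end Vale.Agent.P176
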