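import Vale.Agent.P176.Algebra

/-!
Explicit description of the columns, and finiteness of the algebra.
-/

namespace Vale.Agent.P176

open MvPolynomial

variable {k : Type} [Field k]

/-- N-free homogeneous polynomials. -/
noncomputable abbrev PN (k : Type) [Field k] (i : ℤ) : Submodule k (Pol k) := Pd k i ⊓ Nf k

/-- Degree in the first part of column c at vertex v. -/
def bdeg (c v : Fin 5) : ℤ := ((v : ℕ) : ℤ) - ((c : ℕ) : ℤ)

/-- The degree conditions defining column c. -/
def InCol (k : Type) [Field k] (c : Fin 5) (x : Amb k) : Prop :=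
  ∀ v, bOut v x ∈ Pd k (bdeg c v) ∧ (xOut v x).1 ∈ PN k (bdeg c v + 1) ∧
    (xOut v x).2 ∈ PN k (bdeg c v + 1)

lemma InCol.zero (c : Fin 5) : InCol k c 0 := fun v => by
  simp only [map_zero, Prod.fst_zero, Prod.snd_zero]
  exact ⟨zero_mem _, zero_mem _, zero_mem _⟩

lemma InCol.add {c : Fin 5} {x y : Amb k} (hx : InCol k c x) (hy : InCol k c y) :
    InCol k c (x + y) := fun v => by
  obtain ⟨a, b, d⟩ := hx v
  obtain ⟨a', b', d'⟩ := hy v
  simp only [map_add, Prod.fst_add, Prod.snd_add]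
  exact ⟨add_mem a a', add_mem b b', add_mem d d'⟩

lemma InCol.smul {c : Fin 5} {x : Amb k} (hx : InCol k c x) (r : k) : InCol k c (r • x) :=
  fun v => by
  obtain ⟨a, b, d⟩ := hx v
  simp only [map_smul, Prod.smul_fst, Prod.smul_snd]
  exact ⟨Submodule.smul_mem _ _ a, Submodule.smul_mem _ _ b, Submodule.smul_mem _ _ d⟩

lemma PN_op {i : ℤ} {j : Fin 5} (hj : j ≠ 3) {p : Pol k} (hp : p ∈ PN k i) :
    op k j p ∈ PN k (i + 1) := ⟨shift_op j i _ hp.1, op_Nf hj hp.2⟩

lemma deltaOp_mem {i : ℤ} (j : Fin 5) {q : Pol k × Pol k} (h1 : q.1 ∈ PN k i) (h2 : q.2 ∈ PN k i) :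
    (deltaOp k j q).1 ∈ PN k (i + 1) ∧ (deltaOp k j q).2 ∈ PN k (i + 1) := by
  have a : ∀ l : Fin 5, l ≠ 3 → op k l q.1 ∈ PN k (i + 1) := fun l hl => PN_op hl h1
  have b : ∀ l : Fin 5, l ≠ 3 → op k l q.2 ∈ PN k (i + 1) := fun l hl => PN_op hl h2
  fin_cases j
  · exact ⟨add_mem (a 0 (by decide)) (zero_mem _), add_mem (a 4 (by decide)) (b 0 (by decide))⟩
  · exact ⟨add_mem (a 1 (by decide)) (a 4 (by decide)), sub_mem (b 1 (by decide)) (b 4 (by decide))⟩
  · exact ⟨add_mem (a 2 (by decide)) (b 4 (by decide)), add_mem (zero_mem _) (b 2 (by decide))⟩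
  · exact ⟨sub_mem (neg_mem (opA_mem h1 h2).1) (a 4 (by decide)),
      sub_mem (neg_mem (opA_mem h1 h2).2) (b 4 (by decide))⟩
  · exact ⟨a 4 (by decide), b 4 (by decide)⟩

lemma piW_mem {i : ℤ} (w : Fin 2) {p : Pol k} (hp : p ∈ Pd k i) :
    (piW k w p).1 ∈ PN k i ∧ (piW k w p).2 ∈ PN k i := by
  suffices H : Pd k i ≤ ((PN k i).prod (PN k i)).comap (piW k w) by
    exact Submodule.mem_prod.1 (Submodule.mem_comap.1 (H hp))
  refine Pd_ind fun a b c d g h => ?_
  rw [Submodule.mem_comap, piW_mon, Submodule.mem_prod]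
  clear hp
  subst h
  induction d with
  | zero =>
    have hm : mon k a b c 0 g ∈ PN k ((a : ℤ) + b + c + ((0 : ℕ) : ℤ) + g) :=
      ⟨mon_mem_Pd a b c 0 g, mon_mem_Nf a b c g⟩
    rw [pow_zero, Module.End.one_apply]
    fin_cases w
    · exact ⟨hm, zero_mem _⟩
    · exact ⟨zero_mem _, hm⟩
  | succ d ih =>
    rw [pow_succ', Module.End.mul_apply]
    have := opA_mem ih.1 ih.2
    rw [show ((a : ℤ) + b + c + ((d + 1 : ℕ) : ℤ) + g)
      = ((a : ℤ) + b + c + (d : ℕ) + g) + 1 by push_cast; ring]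
    exact ⟨neg_mem this.1, neg_mem this.2⟩

lemma InCol.gen {c : Fin 5} {x : Amb k} (hx : InCol k c x) (s : Gen) :
    InCol k c (genMap k s x) := by
  intro v
  cases s with
  | proj w =>
    rw [bOut_proj, xOut_proj]
    split_ifs with h
    · subst h; exact hx v
    · exact ⟨zero_mem _, zero_mem _, zero_mem _⟩
  | arrow i w =>
    rw [bOut_arrow, xOut_arrow]
    split_ifs with h
    · subst h
      obtain ⟨a, b, d⟩ := hx w.castSucc
      have e : bdeg c w.succ = bdeg c w.castSucc + 1 := by simp [bdeg]; ring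
      rw [e]
      exact ⟨shift_op i _ _ a, deltaOp_mem i b d⟩
    · exact ⟨zero_mem _, zero_mem _, zero_mem _⟩
  | back u w =>
    rw [bOut_back, xOut_back]
    split_ifs with h
    · subst h
      have a := (hx u.succ).1
      have e : bdeg c u.succ = bdeg c u.castSucc + 1 := by simp [bdeg]; ring
      rw [e] at a
      exact ⟨zero_mem _, piW_mem w a⟩
    · exact ⟨zero_mem _, zero_mem _, zero_mem _⟩

lemma InCol.tsmul {c : Fin 5} {x : Amb k} (hx : InCol k c x) (t : TT k) :
    InCol k c (t • x) := by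
  revert x
  induction t using algInd with
  | hg s => intro x hx; exact hx.gen s
  | hc r => intro x hx; rw [IsScalarTower.algebraMap_smul]; exact hx.smul r
  | ha s t hs ht => intro x hx; rw [add_smul]; exact (hs hx).add (ht hx)
  | hm s t hs ht => intro x hx; rw [mul_smul]; exact hs (ht hx)

lemma InCol.uvec (c : Fin 5) : InCol k c (uvec c) := by
  intro v
  rw [P176.uvec, bOut_bIn, xOut_bIn]
  refine ⟨?_, zero_mem _, zero_mem _⟩
  split_ifs with h
  · subst h
    simpa [bdeg, mon] using mon_mem_Pd (k := k) 0 0 0 0 0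
  · exact zero_mem _

lemma inCol_of_mem {c : Fin 5} {x : Amb k} (h : x ∈ colMod k c) : InCol k c x := by
  obtain ⟨t, rfl⟩ := mem_colMod.1 h
  exact (InCol.uvec c).tsmul t

lemma exists_peel {N : ℕ} {a b c d g : ℕ} (h : a + b + c + d + g = N + 1) :
    ∃ (i : Fin 5) (a' b' c' d' g' : ℕ), a' + b' + c' + d' + g' = N ∧ (d = 0 → i ≠ 3 ∧ d' = 0) ∧
      op k i (mon k a' b' c' d' g') = mon k a b c d g := by
  rcases a with _ | a
  · rcases b with _ | b
    · rcases c with _ | c
      · rcases d with _ | d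
        · rcases g with _ | g
          · omega
          · exact ⟨4, 0, 0, 0, 0, g, by omega, fun _ => ⟨by decide, rfl⟩,
              by show X 4 * _ = _; simp [mon]; ring⟩
        · exact ⟨3, 0, 0, 0, d, g, by omega, fun h => absurd h (by omega),
            by show X 3 * _ = _; simp [mon]; ring⟩
      · exact ⟨2, 0, 0, c, d, g, by omega, fun h => ⟨by decide, h⟩, opE_mon00 c d g⟩
    · exact ⟨1, 0, b, c, d, g, by omega, fun h => ⟨by decide, h⟩, opH_mon0 b c d g⟩
  · exact ⟨0, a, b, c, d, g, by omega, fun h => ⟨by decide, h⟩,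
      by show X 0 * _ = _; simp [mon]; ring⟩

lemma gen_mem {c : Fin 5} {x : Amb k} (hx : x ∈ colMod k c) (s : Gen) :
    genMap k s x ∈ colMod k c := by
  rw [← gT_smul]; exact Submodule.smul_mem _ _ hx

lemma arrow_bIn (i : Fin 5) (w : Fin 4) (p : Pol k) :
    genMap k (.arrow i w) (bIn w.castSucc p) = bIn w.succ (op k i p) := by
  refine amb_ext (fun v => ?_) (fun v => ?_)
  · rw [bOut_arrow, bOut_bIn, bOut_bIn, if_pos rfl]
  · rw [xOut_arrow, xOut_bIn, xOut_bIn]; split_ifs <;> simp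

lemma arrow_xIn (i : Fin 5) (w : Fin 4) (q : Pol k × Pol k) :
    genMap k (.arrow i w) (xIn w.castSucc q) = xIn w.succ (deltaOp k i q) := by
  refine amb_ext (fun v => ?_) (fun v => ?_)
  · rw [bOut_arrow, bOut_xIn, bOut_xIn]; split_ifs <;> simp
  · rw [xOut_arrow, xOut_xIn, xOut_xIn, if_pos rfl]

lemma back_bIn (u : Fin 4) (w : Fin 2) (p : Pol k) :
    genMap k (.back u w) (bIn u.succ p) = xIn u.castSucc (piW k w p) := by
  refine amb_ext (fun v => ?_) (fun v => ?_)
  · rw [bOut_back, bOut_xIn]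
  · rw [xOut_back, bOut_bIn, xOut_xIn, if_pos rfl]

lemma bIn_mem (c : Fin 5) : ∀ (N : ℕ) (v : Fin 5) (a b e d g : ℕ), a + b + e + d + g = N →
    bdeg c v = N → bIn v (mon k a b e d g) ∈ colMod k c := by
  intro N
  induction N with
  | zero =>
    intro v a b e d g h hv
    obtain ⟨rfl, rfl, rfl, rfl, rfl⟩ : a = 0 ∧ b = 0 ∧ e = 0 ∧ d = 0 ∧ g = 0 := by omega
    have : v = c := Fin.ext (by simp only [bdeg] at hv; omega)
    subst this
    simpa [mon, uvec] using uvec_mem (k := k) v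
  | succ N ih =>
    intro v a b e d g h hv
    obtain ⟨i, a', b', e', d', g', h', _, he⟩ := exists_peel (k := k) h
    have hv' := v.2
    have hc' := c.2
    simp only [bdeg] at hv
    obtain ⟨w, rfl⟩ : ∃ w : Fin 4, v = w.succ :=
      ⟨⟨(v : ℕ) - 1, by omega⟩, Fin.ext (by simp only [Fin.val_succ]; omega)⟩
    rw [← he, ← arrow_bIn]
    refine gen_mem (ih w.castSucc a' b' e' d' g' h' ?_) _
    simp only [bdeg, Fin.val_castSucc, Fin.val_succ] at hv ⊢
    omega

lemma bIn_mem' {c v : Fin 5} {p : Pol k} (hp : p ∈ Pd k (bdeg c v)) :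
    bIn v p ∈ colMod k c := by
  have : Pd k (bdeg c v) ≤ ((colMod k c).restrictScalars k).comap (bIn v) := by
    refine Pd_ind fun a b e d g h => ?_
    exact bIn_mem c (a + b + e + d + g) v a b e d g rfl (by push_cast; omega)
  exact this hp

lemma xIn_mem_low {c : Fin 5} (u : Fin 4) (w : Fin 2) {p : Pol k}
    (hp : p ∈ PN k (bdeg c u.castSucc + 1)) :
    xIn u.castSucc (inW k w p) ∈ colMod k c := by
  rw [← piW_Nf w hp.2, ← back_bIn]
  refine gen_mem (bIn_mem' ?_) _
  have e : bdeg c u.succ = bdeg c u.castSucc + 1 := by simp [bdeg]; ring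
  rw [e]; exact hp.1

lemma xIn_low_mem {c : Fin 5} (u : Fin 4) {q : Pol k × Pol k}
    (h1 : q.1 ∈ PN k (bdeg c u.castSucc + 1)) (h2 : q.2 ∈ PN k (bdeg c u.castSucc + 1)) :
    xIn u.castSucc q ∈ colMod k c := by
  have e : q = inW k 0 q.1 + inW k 1 q.2 := by simp [inW]
  rw [e, map_add]
  exact add_mem (xIn_mem_low u 0 h1) (xIn_mem_low u 1 h2)

lemma xIn_top_mem {c : Fin 5} {q : Pol k × Pol k}
    (h1 : q.1 ∈ PN k (bdeg c (Fin.last 4) + 1)) (h2 : q.2 ∈ PN k (bdeg c (Fin.last 4) + 1)) :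
    xIn (Fin.last 4) q ∈ colMod k c := by
  set n : ℤ := bdeg c (Fin.last 4) + 1
  have hn : bdeg c (Fin.castSucc (3 : Fin 4)) + 1 = n - 1 := by simp [n, bdeg]; ring
  set S : Submodule k (Pol k × Pol k) :=
    ((colMod k c).restrictScalars k).comap (xIn (Fin.last 4))
  have hstep : ∀ (i : Fin 5) (y : Pol k × Pol k), y.1 ∈ PN k (n - 1) → y.2 ∈ PN k (n - 1) →
      deltaOp k i y ∈ S := by
    intro i y hy1 hy2
    show xIn (Fin.last 4) (deltaOp k i y) ∈ colMod k c
    rw [show Fin.last 4 = (3 : Fin 4).succ from rfl, ← arrow_xIn]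
    exact gen_mem (xIn_low_mem 3 (by rw [hn]; exact hy1) (by rw [hn]; exact hy2)) _
  have hz : ∀ (w : Fin 2) (m' : Pol k), m' ∈ PN k (n - 1) → inW k w (X 4 * m') ∈ S := by
    intro w m' hm
    have e : inW k w (X 4 * m') = deltaOp k 4 (inW k w m') := by
      fin_cases w
      · exact Prod.ext rfl (mul_zero (X 4 : Pol k)).symm
      · exact Prod.ext (mul_zero (X 4 : Pol k)).symm rfl
    rw [e]
    fin_cases w
    · exact hstep 4 _ hm (zero_mem _)
    · exact hstep 4 _ (zero_mem _) hm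
  have hmon : ∀ (w : Fin 2), PN k n ≤ S.comap (inW k w) := by
    intro w
    refine PdNf_ind fun a b e g h => ?_
    rw [Submodule.mem_comap]
    have hc' := c.2
    obtain ⟨N, hN⟩ : ∃ N : ℕ, a + b + e + 0 + g = N + 1 := by
      refine ⟨a + b + e + g - 1, ?_⟩
      simp only [n, bdeg, Fin.val_last] at h
      omega
    obtain ⟨i, a', b', e', d', g', h', hd, he⟩ := exists_peel (k := k) hN
    obtain ⟨hi, rfl⟩ := hd rfl
    have hm : mon k a' b' e' 0 g' ∈ PN k (n - 1) := by
      refine ⟨?_, mon_mem_Nf _ _ _ _⟩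
      have e2 : n - 1 = ((a' : ℤ) + b' + e' + ((0 : ℕ) : ℤ) + g') := by push_cast; omega
      rw [e2]; exact mon_mem_Pd _ _ _ _ _
    rw [← he]
    set m' := mon k a' b' e' 0 g'
    fin_cases w
    · show (op k i m', (0 : Pol k)) ∈ S
      have hd : deltaOp k i (inW k 0 m') ∈ S := hstep i _ hm (zero_mem _)
      fin_cases i
      · have e : (op k 0 m', (0 : Pol k)) = deltaOp k 0 (inW k 0 m') - inW k 1 (X 4 * m') := by
          refine Prod.ext ?_ ?_ <;> simp [inW, deltaOp_f, op, GRep.gen, polRep, mX_apply]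
        exact e ▸ sub_mem hd (hz 1 m' hm)
      · have e : (op k 1 m', (0 : Pol k)) = deltaOp k 1 (inW k 0 m') - inW k 0 (X 4 * m') := by
          refine Prod.ext ?_ ?_ <;> simp [inW, deltaOp_h, op, GRep.gen, polRep]
        exact e ▸ sub_mem hd (hz 0 m' hm)
      · have e : (op k 2 m', (0 : Pol k)) = deltaOp k 2 (inW k 0 m') := by
          refine Prod.ext ?_ ?_ <;> simp [inW, deltaOp_e, op, GRep.gen, polRep]
        exact e ▸ hd
      · exact absurd rfl hi
      · exact hz 0 m' hm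
    · show ((0 : Pol k), op k i m') ∈ S
      have hd : deltaOp k i (inW k 1 m') ∈ S := hstep i _ (zero_mem _) hm
      fin_cases i
      · have e : ((0 : Pol k), op k 0 m') = deltaOp k 0 (inW k 1 m') := by
          refine Prod.ext ?_ ?_ <;> simp [inW, deltaOp_f, op, GRep.gen, polRep, mX_apply]
        exact e ▸ hd
      · have e : ((0 : Pol k), op k 1 m') = deltaOp k 1 (inW k 1 m') + inW k 1 (X 4 * m') := by
          refine Prod.ext ?_ ?_ <;> simp [inW, deltaOp_h, op, GRep.gen, polRep]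
        exact e ▸ add_mem hd (hz 1 m' hm)
      · have e : ((0 : Pol k), op k 2 m') = deltaOp k 2 (inW k 1 m') - inW k 0 (X 4 * m') := by
          refine Prod.ext ?_ ?_ <;> simp [inW, deltaOp_e, op, GRep.gen, polRep]
        exact e ▸ sub_mem hd (hz 0 m' hm)
      · exact absurd rfl hi
      · exact hz 1 m' hm
  have hq : q = inW k 0 q.1 + inW k 1 q.2 := by simp [inW]
  have : q ∈ S := by rw [hq]; exact add_mem (hmon 0 h1) (hmon 1 h2)
  exact this

lemma mem_col_iff {c : Fin 5} {x : Amb k} : x ∈ colMod k c ↔ InCol k c x := by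
  refine ⟨inCol_of_mem, fun h => ?_⟩
  rw [← sum_proj x]
  refine sum_mem fun v _ => ?_
  rw [show genMap k (.proj v) x = bIn v (bOut v x) + xIn v (xOut v x) from rfl]
  refine add_mem (bIn_mem' (h v).1) ?_
  obtain ⟨-, h1, h2⟩ := h v
  induction v using Fin.lastCases with
  | last => exact xIn_top_mem h1 h2
  | cast u => exact xIn_low_mem u h1 h2

/-- Coordinates of a column. -/
noncomputable def colCoord (k : Type) [Field k] (c : Fin 5) :
    colMod k c →ₗ[k] (∀ v, Pd k (bdeg c v)) ×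
      (∀ v, PN k (bdeg c v + 1) × PN k (bdeg c v + 1)) where
  toFun x := (fun v => ⟨bOut v x, (inCol_of_mem x.2 v).1⟩,
    fun v => (⟨(xOut v x).1, (inCol_of_mem x.2 v).2.1⟩, ⟨(xOut v x).2, (inCol_of_mem x.2 v).2.2⟩))
  map_add' _ _ := rfl
  map_smul' _ _ := rfl

instance PN_finite (i : ℤ) : Module.Finite k (PN k i) :=
  Submodule.finiteDimensional_of_le inf_le_left

instance colMod_finite (c : Fin 5) : Module.Finite k (colMod k c) := by
  refine Module.Finite.of_injective (colCoord k c) fun x y h => ?_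
  refine Subtype.ext (amb_ext (fun v => ?_) (fun v => ?_))
  · exact congrArg Subtype.val (congrFun (congrArg Prod.fst h) v)
  · exact Prod.ext (congrArg Subtype.val (congrArg Prod.fst (congrFun (congrArg Prod.snd h) v)))
      (congrArg Subtype.val (congrArg Prod.snd (congrFun (congrArg Prod.snd h) v)))

/-- The action on all cyclic vectors. -/
noncomputable def toCols (k : Type) [Field k] : TT k →ₗ[k] ∀ c : Fin 5, colMod k c where
  toFun t c := ⟨t • uvec c, mem_colMod.2 ⟨t, rfl⟩⟩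
  map_add' s t := funext fun c => Subtype.ext (add_smul s t _)
  map_smul' r t := funext fun c => Subtype.ext (smul_assoc r t _)

instance TT_finite : Module.Finite k (TT k) := by
  refine Module.Finite.of_injective (toCols k) ?_
  refine (injective_iff_map_eq_zero _).2 fun t h => ?_
  exact smul_eq_zero_of_uvec fun c => congrArg Subtype.val (congrFun h c)

end Vale.Agent.P176
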