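import Vale.Agent.P176.Mult
import Mathlib.LinearAlgebra.Pi
import Mathlib.LinearAlgebra.Prod

/-!
The twisted sl₂ Koszul complex and its exactness.
-/

namespace Vale.Agent.P176

open MvPolynomial

variable {k : Type} [Field k]

/-- Transport of a representation along a ring homomorphism. -/
def GRep.map {A B : Type*} [Ring A] [Ring B] (r : GRep A) (φ : A →+* B) : GRep B where
  f := φ r.f
  h := φ r.h
  e := φ r.e
  n := φ r.n
  z := φ r.z
  hf := by rw [← map_mul, r.hf, map_sub, map_add, map_mul, map_mul]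
  he := by rw [← map_mul, r.he, map_add, map_add, map_mul, map_mul]
  ef := by rw [← map_mul, r.ef, map_add, map_mul, map_mul]
  zf := by rw [← map_mul, r.zf, map_mul]
  zh := by rw [← map_mul, r.zh, map_mul]
  ze := by rw [← map_mul, r.ze, map_mul]
  zn := by rw [← map_mul, r.zn, map_mul]
  nf := by rw [← map_mul, r.nf, map_mul]
  nh := by rw [← map_mul, r.nh, map_mul]
  ne := by rw [← map_mul, r.ne, map_mul]

/-- Product of two twisted generators. -/
lemma tw_mul {S : Type*} [Ring S] {z A B G H : S} (hzA : Commute z A) (hGB : Commute G B)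
    (hGz : Commute G z) : (A - z * G) * (B - z * H) = A * B - (z * (A * H) + z * (B * G)) + z * z * (G * H) := by
  have e1 : A * (z * H) = z * (A * H) := by rw [← mul_assoc, ← hzA.eq, mul_assoc]
  have e2 : z * G * B = z * (B * G) := by rw [mul_assoc, hGB.eq]
  have e3 : z * G * (z * H) = z * z * (G * H) := by
    rw [mul_assoc, ← mul_assoc G z, hGz.eq]; simp only [mul_assoc]
  rw [sub_mul, mul_sub, mul_sub, e1, e2, e3]
  abel

/-- Twist of a right representation by a left representation with trivial z. -/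
def twist {S : Type*} [Ring S] (Q g : GRep S) (hz : g.z = 1)
    (hc : ∀ i j, Commute (g.gen i) (Q.gen j)) : GRep S where
  f := Q.f - Q.z * g.e
  h := Q.h - Q.z * g.h
  e := Q.e - Q.z * g.f
  n := Q.n - Q.z * g.n
  z := Q.z
  hf := by
    rw [tw_mul Q.zh (show Commute g.h Q.f from hc 1 0) (show Commute g.h Q.z from hc 1 4), tw_mul Q.zf (show Commute g.e Q.h from hc 2 1) (show Commute g.e Q.z from hc 2 4), Q.hf, g.he, hz]
    noncomm_ring
  he := by
    rw [tw_mul Q.zh (show Commute g.h Q.e from hc 1 2) (show Commute g.h Q.z from hc 1 4), tw_mul Q.ze (show Commute g.f Q.h from hc 0 1) (show Commute g.f Q.z from hc 0 4), Q.he, g.hf, hz]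
    noncomm_ring
  ef := by
    rw [tw_mul Q.ze (show Commute g.f Q.f from hc 0 0) (show Commute g.f Q.z from hc 0 4), tw_mul Q.zf (show Commute g.e Q.e from hc 2 2) (show Commute g.e Q.z from hc 2 4), Q.ef, g.ef, hz]
    noncomm_ring
  zf := ((Commute.refl Q.z).mul_right (show Commute g.e Q.z from hc 2 4).symm |> fun h => (Commute.sub_right Q.zf h)).eq
  zh := ((Commute.refl Q.z).mul_right (show Commute g.h Q.z from hc 1 4).symm |> fun h => (Commute.sub_right Q.zh h)).eq
  ze := ((Commute.refl Q.z).mul_right (show Commute g.f Q.z from hc 0 4).symm |> fun h => (Commute.sub_right Q.ze h)).eq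
  zn := ((Commute.refl Q.z).mul_right (show Commute g.n Q.z from hc 3 4).symm |> fun h => (Commute.sub_right Q.zn h)).eq
  nf := by
    rw [tw_mul Q.zn (show Commute g.n Q.f from hc 3 0) (show Commute g.n Q.z from hc 3 4), tw_mul Q.zf (show Commute g.e Q.n from hc 2 3) (show Commute g.e Q.z from hc 2 4), Q.nf, g.ne]
    abel
  nh := by
    rw [tw_mul Q.zn (show Commute g.n Q.h from hc 3 1) (show Commute g.n Q.z from hc 3 4), tw_mul Q.zh (show Commute g.h Q.n from hc 1 3) (show Commute g.h Q.z from hc 1 4), Q.nh, g.nh]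
    abel
  ne := by
    rw [tw_mul Q.zn (show Commute g.n Q.e from hc 3 2) (show Commute g.n Q.z from hc 3 4), tw_mul Q.ze (show Commute g.f Q.n from hc 0 3) (show Commute g.f Q.z from hc 0 4), Q.ne, g.nf]
    abel

section Lift

variable {M : Type*} [AddCommGroup M] [Module k M] {m : ℕ}

/-- Pointwise action of an endomorphism. -/
noncomputable def pw (M : Type*) [AddCommGroup M] [Module k M] (m : ℕ) :
    Module.End k M →+* Module.End k (Fin m → M) where
  toFun u := u.compLeft (Fin m)
  map_one' := rfl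
  map_mul' _ _ := rfl
  map_zero' := rfl
  map_add' _ _ := rfl

lemma pw_apply (u : Module.End k M) (φ : Fin m → M) (l : Fin m) : pw M m u φ l = u (φ l) := rfl

/-- Action of a scalar matrix on a tuple, as a linear map. -/
noncomputable def liftFun (M : Type*) [AddCommGroup M] [Module k M]
    (G : Module.End k (Fin m → k)) : Module.End k (Fin m → M) where
  toFun φ l := ∑ j, G (Pi.single j 1) l • φ j
  map_add' φ ψ := by ext l; simp [smul_add, Finset.sum_add_distrib]
  map_smul' c φ := by ext l; simp [Finset.smul_sum, smul_comm c]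

lemma apply_eq_sum (G : Module.End k (Fin m → k)) (v : Fin m → k) (l : Fin m) :
    G v l = ∑ j, v j * G (Pi.single j 1) l := by
  conv_lhs => rw [pi_eq_sum_univ' v]
  simp

/-- Action of scalar matrices on tuples. -/
noncomputable def lift (M : Type*) [AddCommGroup M] [Module k M] (m : ℕ) :
    Module.End k (Fin m → k) →+* Module.End k (Fin m → M) where
  toFun := liftFun M
  map_one' := by
    refine LinearMap.ext fun φ => funext fun l => ?_
    simp [liftFun, Pi.single_apply]
  map_mul' G H := by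
    refine LinearMap.ext fun φ => funext fun l => ?_
    show ∑ j, G (H (Pi.single j 1)) l • φ j =
      ∑ i, G (Pi.single i 1) l • ∑ j, H (Pi.single j 1) i • φ j
    simp only [Finset.smul_sum, smul_smul]
    rw [Finset.sum_comm]
    refine Finset.sum_congr rfl fun j _ => ?_
    rw [← Finset.sum_smul, apply_eq_sum]
    simp only [mul_comm]
  map_zero' := by refine LinearMap.ext fun φ => funext fun l => ?_; simp [liftFun]
  map_add' G H := by
    refine LinearMap.ext fun φ => funext fun l => ?_
    simp [liftFun, add_smul, Finset.sum_add_distrib]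

lemma lift_apply (G : Module.End k (Fin m → k)) (φ : Fin m → M) (l : Fin m) :
    lift M m G φ l = ∑ j, G (Pi.single j 1) l • φ j := rfl

lemma lift_comm_map {M' : Type*} [AddCommGroup M'] [Module k M'] (u : M →ₗ[k] M')
    (G : Module.End k (Fin m → k)) (φ : Fin m → M) :
    u.compLeft (Fin m) (lift M m G φ) = lift M' m G (u.compLeft (Fin m) φ) := by
  funext l; simp [lift_apply, map_sum]

lemma lift_pw_comm (u : Module.End k M) (G : Module.End k (Fin m → k)) :
    Commute (lift M m G) (pw M m u) :=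
  LinearMap.ext fun φ => (lift_comm_map u G φ).symm

lemma gen_map {A B : Type*} [Ring A] [Ring B] (r : GRep A) (φ : A →+* B) (i : Fin 5) :
    (r.map φ).gen i = φ (r.gen i) := by fin_cases i <;> rfl

/-- Twist of a right representation on `M` by a matrix representation on `k^m`. -/
noncomputable def tw (Q : GRep (Module.End k M)) (g : GRep (Module.End k (Fin m → k)))
    (hz : g.z = 1) : GRep (Module.End k (Fin m → M)) :=
  twist (Q.map (pw M m)) (g.map (lift M m)) (by simp [GRep.map, hz])
    (fun i j => by rw [gen_map, gen_map]; exact lift_pw_comm _ _)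

end Lift

section Sl

variable {M : Type*} [AddCommGroup M] [Module k M]

/-- A map intertwining two representations, apart from the central `n`. -/
structure Inter {M' : Type*} [AddCommGroup M'] [Module k M'] (u : M →ₗ[k] M')
    (Q : GRep (Module.End k M)) (Q' : GRep (Module.End k M')) : Prop where
  f : ∀ x, u (Q.f x) = Q'.f (u x)
  h : ∀ x, u (Q.h x) = Q'.h (u x)
  e : ∀ x, u (Q.e x) = Q'.e (u x)
  z : ∀ x, u (Q.z x) = Q'.z (u x)

variable (Q : GRep (Module.End k M))

/-- First differential. -/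
def d1 : M × M × M →ₗ[k] M where
  toFun s := Q.e s.1 + Q.h s.2.1 + Q.f s.2.2
  map_add' s t := by simp only [Prod.fst_add, Prod.snd_add, map_add]; abel
  map_smul' c s := by simp [smul_add]

/-- Second differential. -/
def d2 : M × M × M →ₗ[k] M × M × M where
  toFun s := (-(Q.h s.1 + (Q.z s.1 + Q.z s.1)) - Q.f s.2.1,
    Q.e s.1 + Q.z s.2.1 - Q.f s.2.2,
    Q.e s.2.1 + (Q.h s.2.2 - (Q.z s.2.2 + Q.z s.2.2)))
  map_add' s t := by
    simp only [Prod.fst_add, Prod.snd_add, map_add, Prod.mk_add_mk, Prod.mk.injEq]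
    refine ⟨?_, ?_, ?_⟩ <;> abel
  map_smul' c s := by simp [smul_add, smul_sub, smul_neg]

/-- Third differential. -/
def d3 : M →ₗ[k] M × M × M where
  toFun t := (Q.f t, -Q.h t, Q.e t)
  map_add' s t := by simp [neg_add, add_comm]
  map_smul' c s := by simp

lemma d1_d2 (s : M × M × M) : d1 Q (d2 Q s) = 0 := by
  have h1 := LinearMap.congr_fun Q.he s.1
  have h2 := LinearMap.congr_fun Q.ef s.2.1
  have h3 := LinearMap.congr_fun Q.hf s.2.2
  have z1 := LinearMap.congr_fun Q.ze s.1
  have z2 := LinearMap.congr_fun Q.zh s.2.1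
  have z3 := LinearMap.congr_fun Q.zf s.2.2
  simp only [Module.End.mul_apply, LinearMap.add_apply, LinearMap.sub_apply] at h1 h2 h3 z1 z2 z3
  simp only [d1, d2, LinearMap.coe_mk, AddHom.coe_mk, map_add, map_sub, map_neg]
  rw [h1, h2, h3, z1, z2, z3]
  abel

lemma d2_d3 (t : M) : d2 Q (d3 Q t) = 0 := by
  have h1 := LinearMap.congr_fun Q.he t
  have h2 := LinearMap.congr_fun Q.ef t
  have h3 := LinearMap.congr_fun Q.hf t
  simp only [Module.End.mul_apply, LinearMap.add_apply, LinearMap.sub_apply] at h1 h2 h3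
  simp only [d2, d3, LinearMap.coe_mk, AddHom.coe_mk, map_neg, h1, h2, h3, Prod.mk_eq_zero]
  refine ⟨?_, ?_, ?_⟩ <;> abel

/-- Componentwise map of triples. -/
def map3 {M' : Type*} [AddCommGroup M'] [Module k M'] (u : M →ₗ[k] M') :
    M × M × M →ₗ[k] M' × M' × M' := u.prodMap (u.prodMap u)

lemma map3_apply {M' : Type*} [AddCommGroup M'] [Module k M'] (u : M →ₗ[k] M') (s : M × M × M) :
    map3 u s = (u s.1, u s.2.1, u s.2.2) := rfl

variable {Q} {M' : Type*} [AddCommGroup M'] [Module k M'] {Q' : GRep (Module.End k M')}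
  {u : M →ₗ[k] M'}

lemma Inter.d1 (hu : Inter u Q Q') (s : M × M × M) :
    u (P176.d1 Q s) = P176.d1 Q' (map3 u s) := by
  simp [P176.d1, map3_apply, map_add, hu.f, hu.h, hu.e]

lemma Inter.d2 (hu : Inter u Q Q') (s : M × M × M) :
    map3 u (P176.d2 Q s) = P176.d2 Q' (map3 u s) := by
  simp [P176.d2, map3_apply, map_add, map_sub, map_neg, hu.f, hu.h, hu.e, hu.z]

lemma Inter.d3 (hu : Inter u Q Q') (t : M) :
    map3 u (P176.d3 Q t) = P176.d3 Q' (u t) := by
  simp [P176.d3, map3_apply, hu.f, hu.h, hu.e]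

lemma inter_n (Q : GRep (Module.End k M)) : Inter Q.n Q Q :=
  ⟨fun x => LinearMap.congr_fun Q.nf x, fun x => LinearMap.congr_fun Q.nh x,
    fun x => LinearMap.congr_fun Q.ne x, fun x => (LinearMap.congr_fun Q.zn x).symm⟩

lemma inter_z (Q : GRep (Module.End k M)) : Inter Q.z Q Q :=
  ⟨fun x => LinearMap.congr_fun Q.zf x, fun x => LinearMap.congr_fun Q.zh x,
    fun x => LinearMap.congr_fun Q.ze x, fun _ => rfl⟩

end Sl

section Cone

variable {M : Type*} [AddCommGroup M] [Module k M] (Q : GRep (Module.End k M))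

/-- Cone differentials. -/
def D1 : (M × M × M) × M →ₗ[k] M := (d1 Q).coprod Q.n

/-- Cone differentials. -/
def D2 : (M × M × M) × (M × M × M) →ₗ[k] (M × M × M) × M :=
  ((d2 Q).coprod (map3 Q.n)).prod (-(d1 Q ∘ₗ LinearMap.snd k _ _))

/-- Cone differentials. -/
def D3 : M × (M × M × M) →ₗ[k] (M × M × M) × (M × M × M) :=
  ((d3 Q).coprod (map3 Q.n)).prod (-(d2 Q ∘ₗ LinearMap.snd k _ _))

/-- Cone differentials. -/
def D4 : M →ₗ[k] M × (M × M × M) := Q.n.prod (-(d3 Q))

lemma D1_apply (x : (M × M × M) × M) : D1 Q x = d1 Q x.1 + Q.n x.2 := rfl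

lemma D2_apply (x : (M × M × M) × (M × M × M)) :
    D2 Q x = (d2 Q x.1 + map3 Q.n x.2, -d1 Q x.2) := rfl

lemma D3_apply (x : M × (M × M × M)) :
    D3 Q x = (d3 Q x.1 + map3 Q.n x.2, -d2 Q x.2) := rfl

lemma D4_apply (t : M) : D4 Q t = (Q.n t, -d3 Q t) := rfl

lemma D1_D2 (x : (M × M × M) × (M × M × M)) : D1 Q (D2 Q x) = 0 := by
  rw [D2_apply, D1_apply]
  simp [d1_d2, (inter_n Q).d1 x.2]

lemma D2_D3 (x : M × (M × M × M)) : D2 Q (D3 Q x) = 0 := by
  rw [D3_apply, D2_apply]
  simp [d2_d3, d1_d2, (inter_n Q).d2 x.2]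

lemma D3_D4 (t : M) : D3 Q (D4 Q t) = 0 := by
  rw [D4_apply, D3_apply]
  simp [d2_d3, (inter_n Q).d3 t]

end Cone

end Vale.Agent.P176
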