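import Vale.Agent.P176.Exact

/-!
Exactness of the cone complexes: full polynomials and pairs.
-/

namespace Vale.Agent.P176

open MvPolynomial

variable {k : Type} [Field k] {m : ℕ} (L : LRep k m)

lemma X3_sub_ne : (X 3 - C L.c * X 4 : Pol k) ≠ 0 := by
  intro h
  have := congrArg (eval (Pi.single (3 : Fin 5) (1 : k))) h
  simp at this

lemma n_inj {φ : Fin m → Pol k} (h : (Qm L).n φ = 0) : φ = 0 := by
  funext l
  have h2 := congrFun h l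
  rw [Qm_n] at h2
  exact (mul_eq_zero.1 h2).resolve_left (X3_sub_ne L)

/-- Substituting N := c z. -/
noncomputable def subN : Pol k →ₐ[k] Pol k := aeval (Function.update X 3 (C L.c * X 4))

lemma subN_n (p : Pol k) : subN L ((X 3 - C L.c * X 4) * p) = 0 := by
  simp [subN]

lemma subN_Nf {p : Pol k} (hp : p ∈ Nf k) : subN L p = p := by
  have := Nf_map (L := (subN L).toLinearMap - LinearMap.id) (S := (⊥ : Submodule k (Pol k)))
    (fun a b c g => ?_) hp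
  · simpa [sub_eq_zero] using this
  simp [mon, subN]

lemma uniq {φ0 φ1 : Fin m → Pol k} {i : ℤ} (h0 : φ0 ∈ Lv k m i)
    (h : φ0 + (Qm L).n φ1 = 0) : φ0 = 0 ∧ φ1 = 0 := by
  have e : φ0 = 0 := by
    funext l
    have h2 := congrArg (subN L) (congrFun h l)
    simpa [Qm_n, subN_Nf L (mem_Lv.1 h0 l).2, subN_n] using h2
  exact ⟨e, n_inj L (by simpa [e] using h)⟩

lemma split_pol {i : ℤ} {p : Pol k} (hp : p ∈ Pd k i) :
    ∃ p0 ∈ Pd k i ⊓ Nf k, ∃ p1 ∈ Pd k (i - 1), p0 + (X 3 - C L.c * X 4) * p1 = p := by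
  suffices H : Pd k i ≤ (Pd k i ⊓ Nf k) ⊔
      (Pd k (i - 1)).map (LinearMap.mulLeft k (X 3 - C L.c * X 4)) by
    obtain ⟨p0, h0, y, ⟨p1, h1, rfl⟩, he⟩ := Submodule.mem_sup.1 (H hp)
    exact ⟨p0, h0, p1, h1, he⟩
  refine Pd_ind fun a b c d g h => ?_
  induction d generalizing g with
  | zero =>
    refine Submodule.mem_sup_left ⟨?_, mon_mem_Nf a b c g⟩
    have := mon_mem_Pd (k := k) a b c 0 g
    rwa [h] at this
  | succ d ih =>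
    have e : mon k a b c (d + 1) g = L.c • mon k a b c d (g + 1)
        + (X 3 - C L.c * X 4) * mon k a b c d g := by
      simp only [mon, smul_eq_C_mul]; ring
    rw [e]
    refine Submodule.add_mem _ (Submodule.smul_mem _ _ (ih (g + 1) (by push_cast at h ⊢; omega))) ?_
    refine Submodule.mem_sup_right ⟨mon k a b c d g, ?_, rfl⟩
    have := mon_mem_Pd (k := k) a b c d g
    rw [SetLike.mem_coe, show i - 1 = ((a : ℤ) + b + c + d + g) by push_cast at h ⊢; omega]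
    exact this

lemma split_full {i : ℤ} {φ : Fin m → Pol k} (hφ : φ ∈ Full k m i) :
    ∃ φ0 ∈ Lv k m i, ∃ φ1 ∈ Full k m (i - 1), φ0 + (Qm L).n φ1 = φ := by
  choose p0 h0 p1 h1 he using fun l => split_pol L (mem_Full.1 hφ l)
  exact ⟨p0, mem_Lv.2 fun l => h0 l, p1, mem_Full.2 h1, funext fun l => by
    rw [Pi.add_apply, Qm_n, he]⟩

lemma split_tri {i : ℤ} {s : (Fin m → Pol k) × (Fin m → Pol k) × (Fin m → Pol k)}
    (hs : s ∈ tri (Full k m i)) :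
    ∃ s0 ∈ tri (Lv k m i), ∃ s1 ∈ tri (Full k m (i - 1)), s0 + map3 (Qm L).n s1 = s := by
  obtain ⟨a, b, c⟩ := mem_tri.1 hs
  obtain ⟨a0, ha0, a1, ha1, ea⟩ := split_full L a
  obtain ⟨b0, hb0, b1, hb1, eb⟩ := split_full L b
  obtain ⟨c0, hc0, c1, hc1, ec⟩ := split_full L c
  refine ⟨(a0, b0, c0), mem_tri.2 ⟨ha0, hb0, hc0⟩, (a1, b1, c1), mem_tri.2 ⟨ha1, hb1, hc1⟩, ?_⟩
  simp [map3_apply, ea, eb, ec]

lemma uniq_tri {s0 s1 : (Fin m → Pol k) × (Fin m → Pol k) × (Fin m → Pol k)} {i : ℤ}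
    (h0 : s0 ∈ tri (Lv k m i)) (h : s0 + map3 (Qm L).n s1 = 0) : s0 = 0 ∧ s1 = 0 := by
  obtain ⟨a, b, c⟩ := mem_tri.1 h0
  simp only [map3_apply, Prod.ext_iff, Prod.fst_add, Prod.snd_add, Prod.fst_zero,
    Prod.snd_zero] at h
  obtain ⟨ea, ea'⟩ := uniq L a h.1
  obtain ⟨eb, eb'⟩ := uniq L b h.2.1
  obtain ⟨ec, ec'⟩ := uniq L c h.2.2
  exact ⟨Prod.ext ea (Prod.ext eb ec), Prod.ext ea' (Prod.ext eb' ec')⟩

variable [CharZero k]

lemma fullEx1 {i : ℤ} {x : ((Fin m → Pol k) × (Fin m → Pol k) × (Fin m → Pol k)) × (Fin m → Pol k)}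
    (h1 : x.1 ∈ tri (Full k m i)) (h : D1 (Qm L) x = 0) :
    ∃ y : ((Fin m → Pol k) × (Fin m → Pol k) × (Fin m → Pol k)) ×
        ((Fin m → Pol k) × (Fin m → Pol k) × (Fin m → Pol k)),
      y.1 ∈ tri (Full k m (i - 1)) ∧ y.2 ∈ tri (Full k m (i - 1)) ∧ D2 (Qm L) y = x := by
  obtain ⟨s, t⟩ := x
  obtain ⟨s0, hs0, s1, hs1, rfl⟩ := split_tri L h1
  rw [D1_apply, map_add, ← (inter_n (Qm L)).d1, add_assoc, ← map_add] at h
  obtain ⟨e0, e1⟩ := uniq L (d1_mem L hs0) h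
  obtain ⟨y0, hy0, rfl⟩ := ex1 L i s0 hs0 e0
  refine ⟨(y0, s1), ?_, hs1, ?_⟩
  · obtain ⟨a, b, c⟩ := mem_tri.1 hy0
    exact mem_tri.2 ⟨Lv_le_Full _ a, Lv_le_Full _ b, Lv_le_Full _ c⟩
  · rw [D2_apply]
    exact Prod.ext rfl (neg_eq_of_add_eq_zero_right e1)

lemma fullEx2 {i : ℤ} {x : ((Fin m → Pol k) × (Fin m → Pol k) × (Fin m → Pol k)) ×
      ((Fin m → Pol k) × (Fin m → Pol k) × (Fin m → Pol k))}
    (h1 : x.1 ∈ tri (Full k m i)) (h : D2 (Qm L) x = 0) :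
    ∃ y : (Fin m → Pol k) × ((Fin m → Pol k) × (Fin m → Pol k) × (Fin m → Pol k)),
      y.1 ∈ Full k m (i - 1) ∧ y.2 ∈ tri (Full k m (i - 1)) ∧ D3 (Qm L) y = x := by
  obtain ⟨s, t⟩ := x
  obtain ⟨s0, hs0, s1, hs1, rfl⟩ := split_tri L h1
  rw [D2_apply] at h
  have hA : d2 (Qm L) (s0 + map3 (Qm L).n s1) + map3 (Qm L).n t = 0 := congrArg Prod.fst h
  rw [map_add, ← (inter_n (Qm L)).d2, add_assoc, ← map_add] at hA
  obtain ⟨e0, e1⟩ := uniq_tri L (d2_mem L hs0) hA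
  obtain ⟨y0, hy0, rfl⟩ := ex2 L i s0 hs0 e0
  refine ⟨(y0, s1), Lv_le_Full _ hy0, hs1, ?_⟩
  rw [D3_apply]
  exact Prod.ext rfl (neg_eq_of_add_eq_zero_right e1)

lemma fullEx3 {i : ℤ} {x : (Fin m → Pol k) × ((Fin m → Pol k) × (Fin m → Pol k) × (Fin m → Pol k))}
    (h1 : x.1 ∈ Full k m i) (h : D3 (Qm L) x = 0) :
    ∃ t ∈ Full k m (i - 1), D4 (Qm L) t = x := by
  obtain ⟨s, t⟩ := x
  obtain ⟨s0, hs0, s1, hs1, rfl⟩ := split_full L h1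
  rw [D3_apply] at h
  have hA : d3 (Qm L) (s0 + (Qm L).n s1) + map3 (Qm L).n t = 0 := congrArg Prod.fst h
  rw [map_add, ← (inter_n (Qm L)).d3, add_assoc, ← map_add] at hA
  obtain ⟨e0, e1⟩ := uniq_tri L (d3_mem L hs0) hA
  have hs00 := ex3 L i s0 hs0 e0
  refine ⟨s1, hs1, ?_⟩
  rw [D4_apply, hs00, zero_add]
  exact Prod.ext rfl (neg_eq_of_add_eq_zero_right e1)

omit [CharZero k] in
lemma fullEx4 {t : Fin m → Pol k} (h : D4 (Qm L) t = 0) : t = 0 :=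
  n_inj L (congrArg Prod.fst h)

lemma fullEx0 {i : ℤ} {φ : Fin m → Pol k} (hφ : φ ∈ Full k m i) (h : eps L φ = 0) :
    ∃ y : ((Fin m → Pol k) × (Fin m → Pol k) × (Fin m → Pol k)) × (Fin m → Pol k),
      y.1 ∈ tri (Full k m (i - 1)) ∧ y.2 ∈ Full k m (i - 1) ∧ D1 (Qm L) y = φ := by
  obtain ⟨φ0, h0, φ1, hφ1, rfl⟩ := split_full L hφ
  rw [map_add, (eps_Qm L φ1).2.2.2, add_zero] at h
  obtain ⟨y0, hy0, rfl⟩ := ex0 L i φ0 h0 h
  obtain ⟨a, b, c⟩ := mem_tri.1 hy0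
  exact ⟨(y0, φ1), mem_tri.2 ⟨Lv_le_Full _ a, Lv_le_Full _ b, Lv_le_Full _ c⟩, hφ1,
    D1_apply _ _⟩

end Vale.Agent.P176
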