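import Vale.Agent.P176.Columns
import Vale.Agent.P176.Cone
import Mathlib.Algebra.Algebra.Bilinear

/-!
The complexes of projective modules over the algebra.
-/

namespace Vale.Agent.P176

open MvPolynomial

variable {k : Type} [Field k] {n : ℕ}

/-- Product of two representations. -/
def GRep.prodRep {A B : Type*} [Ring A] [Ring B] (r : GRep A) (s : GRep B) : GRep (A × B) where
  f := (r.f, s.f)
  h := (r.h, s.h)
  e := (r.e, s.e)
  n := (r.n, s.n)
  z := (r.z, s.z)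
  hf := Prod.ext r.hf s.hf
  he := Prod.ext r.he s.he
  ef := Prod.ext r.ef s.ef
  zf := Prod.ext r.zf s.zf
  zh := Prod.ext r.zh s.zh
  ze := Prod.ext r.ze s.ze
  zn := Prod.ext r.zn s.zn
  nf := Prod.ext r.nf s.nf
  nh := Prod.ext r.nh s.nh
  ne := Prod.ext r.ne s.ne

/-- Componentwise operators on the ambient space. -/
noncomputable def both (k : Type) [Field k] :
    Module.End k (Pol k) × Module.End k (Pol k × Pol k) →+* Module.End k (Amb k) where
  toFun p := (p.1.compLeft (Fin 5)).prodMap (p.2.compLeft (Fin 5))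
  map_one' := rfl
  map_mul' _ _ := rfl
  map_zero' := rfl
  map_add' _ _ := rfl

/-- Right representation on the ambient space. -/
noncomputable def QA (k : Type) [Field k] : GRep (Module.End k (Amb k)) :=
  ((rightRep k).prodRep (xRep k)).map (both k)

/-- Tuples in the ambient space. -/
abbrev TA (k : Type) [Field k] (n : ℕ) := Fin n → Amb k

noncomputable instance taAddCommGroup : AddCommGroup (TA k n) := inferInstance

noncomputable instance taModule : Module k (TA k n) := inferInstance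

noncomputable instance taModuleT : Module (TT k) (TA k n) := inferInstance

instance taTower : IsScalarTower k (TT k) (TA k n) := inferInstance

noncomputable instance triAddCommGroup : AddCommGroup (TA k n × TA k n × TA k n) := inferInstance

noncomputable instance triModule : Module k (TA k n × TA k n × TA k n) := inferInstance

noncomputable instance triModuleT : Module (TT k) (TA k n × TA k n × TA k n) := inferInstance

instance triTower : IsScalarTower k (TT k) (TA k n × TA k n × TA k n) := inferInstance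

noncomputable instance six : AddCommGroup ((TA k n × TA k n × TA k n) × (TA k n × TA k n × TA k n)) :=
  @Prod.instAddCommGroup _ _ triAddCommGroup triAddCommGroup

/-- Twisted right representation on tuples. -/
noncomputable def QT (L : LRep k n) : GRep (Module.End k (TA k n)) := tw (QA k) L.r L.hz

lemma QA_f (x : Amb k) : (QA k).f x = RT 2 x := by
  refine amb_ext (fun v => rfl) (fun v => ?_)
  rw [RT_x, xR, if_neg (by decide)]
  rfl

lemma QA_h (x : Amb k) : (QA k).h x = RT 1 x := by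
  refine amb_ext (fun v => rfl) (fun v => ?_)
  rw [RT_x, xR, if_neg (by decide)]
  rfl

lemma QA_e (x : Amb k) : (QA k).e x = RT 0 x := by
  refine amb_ext (fun v => rfl) (fun v => ?_)
  rw [RT_x, xR, if_neg (by decide)]
  rfl

lemma QA_n (x : Amb k) : (QA k).n x = RT 3 x := by
  refine amb_ext (fun v => rfl) (fun v => ?_)
  rw [RT_x, xR, if_pos rfl]
  rfl

lemma QA_z (x : Amb k) : (QA k).z x = RT 4 x := by
  refine amb_ext (fun v => rfl) (fun v => ?_)
  rw [RT_x, xR, if_neg (by decide)]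
  rfl

lemma tw_n {M M' : Type*} [AddCommGroup M] [Module k M] [AddCommGroup M'] [Module k M']
    {u : M →ₗ[k] M'} {Q : GRep (Module.End k M)} {Q' : GRep (Module.End k M')}
    (hn : ∀ x, u (Q.n x) = Q'.n (u x)) (hz' : ∀ x, u (Q.z x) = Q'.z (u x))
    (g : GRep (Module.End k (Fin n → k))) (hz : g.z = 1) (φ : Fin n → M) :
    u.compLeft (Fin n) ((tw Q g hz).n φ) = (tw Q' g hz).n (u.compLeft (Fin n) φ) := by
  funext l
  show u (Q.n (φ l) - Q.z (lift M n g.n φ l)) = Q'.n (u (φ l)) - Q'.z _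
  rw [map_sub, hn, hz']
  exact congrArg (fun y => _ - Q'.z y) (congrFun (lift_comm_map u g.n φ) l)

section Nat

variable {M M' : Type*} [AddCommGroup M] [Module k M] [AddCommGroup M'] [Module k M']
  {u : M →ₗ[k] M'} {Q : GRep (Module.End k M)} {Q' : GRep (Module.End k M')}

lemma map3_n (hn : ∀ x, u (Q.n x) = Q'.n (u x)) (s : M × M × M) :
    map3 u (map3 Q.n s) = map3 Q'.n (map3 u s) := by
  simp [map3_apply, hn]

lemma nat_D1 (hu : Inter u Q Q') (hn : ∀ x, u (Q.n x) = Q'.n (u x)) (x : (M × M × M) × M) :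
    u (D1 Q x) = D1 Q' (map3 u x.1, u x.2) := by
  rw [D1_apply, D1_apply, map_add, hu.d1, hn]

lemma nat_D2 (hu : Inter u Q Q') (hn : ∀ x, u (Q.n x) = Q'.n (u x))
    (x : (M × M × M) × (M × M × M)) :
    (map3 u (D2 Q x).1, u (D2 Q x).2) = D2 Q' (map3 u x.1, map3 u x.2) := by
  rw [D2_apply, D2_apply, map_add, hu.d2, map_neg, hu.d1, map3_n hn]

lemma nat_D3 (hu : Inter u Q Q') (hn : ∀ x, u (Q.n x) = Q'.n (u x)) (x : M × (M × M × M)) :
    (map3 u (D3 Q x).1, map3 u (D3 Q x).2) = D3 Q' (u x.1, map3 u x.2) := by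
  rw [D3_apply, D3_apply, map_add, hu.d3, map_neg, hu.d2, map3_n hn]

lemma nat_D4 (hu : Inter u Q Q') (hn : ∀ x, u (Q.n x) = Q'.n (u x)) (t : M) :
    (u (D4 Q t).1, map3 u (D4 Q t).2) = D4 Q' (u t) := by
  rw [D4_apply, D4_apply, map_neg, hu.d3, hn]

end Nat

variable (L : LRep k n)

/-- Scalar multiplication by an element of the algebra. -/
noncomputable def act0 (t : TT k) : Amb k →ₗ[k] Amb k := Algebra.lsmul k k (Amb k) t

lemma inter_act0 (t : TT k) : Inter (act0 t) (QA k) (QA k) :=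
  ⟨fun x => by rw [QA_f, QA_f]; exact (map_smul (RT 2) t x).symm,
   fun x => by rw [QA_h, QA_h]; exact (map_smul (RT 1) t x).symm,
   fun x => by rw [QA_e, QA_e]; exact (map_smul (RT 0) t x).symm,
   fun x => by rw [QA_z, QA_z]; exact (map_smul (RT 4) t x).symm⟩

lemma act0_n (t : TT k) (x : Amb k) : act0 t ((QA k).n x) = (QA k).n (act0 t x) := by
  rw [QA_n, QA_n]; exact (map_smul (RT 3) t x).symm

/-- Scalar multiplication on tuples. -/
noncomputable def actT (n : ℕ) (t : TT k) : TA k n →ₗ[k] TA k n := (act0 t).compLeft (Fin n)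

lemma inter_actT (t : TT k) : Inter (actT n t) (QT L) (QT L) := tw_inter (inter_act0 t) L.r L.hz

lemma actT_n (t : TT k) (φ : TA k n) : actT n t ((QT L).n φ) = (QT L).n (actT n t φ) :=
  tw_n (act0_n t) (inter_act0 t).z L.r L.hz φ

/-- The differential as a module map. -/
noncomputable def E1 : (TA k n × TA k n × TA k n) × TA k n →ₗ[TT k] TA k n :=
  toT (D1 (QT L)) fun s a => (nat_D1 (inter_actT L (gT s)) (actT_n L (gT s)) a).symm

/-- The differential as a module map. -/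
noncomputable def E2 : (TA k n × TA k n × TA k n) × (TA k n × TA k n × TA k n) →ₗ[TT k]
    (TA k n × TA k n × TA k n) × TA k n :=
  toT (D2 (QT L)) fun s a => (nat_D2 (inter_actT L (gT s)) (actT_n L (gT s)) a).symm

/-- The differential as a module map. -/
noncomputable def E3 : TA k n × (TA k n × TA k n × TA k n) →ₗ[TT k]
    (TA k n × TA k n × TA k n) × (TA k n × TA k n × TA k n) :=
  toT (D3 (QT L)) fun s a => (nat_D3 (inter_actT L (gT s)) (actT_n L (gT s)) a).symm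

/-- The differential as a module map. -/
noncomputable def E4 : TA k n →ₗ[TT k] TA k n × (TA k n × TA k n × TA k n) :=
  toT (D4 (QT L)) fun s a => (nat_D4 (inter_actT L (gT s)) (actT_n L (gT s)) a).symm

/-- Tuples in a column. -/
noncomputable def colT (k : Type) [Field k] (n : ℕ) (c : Fin 5) : Submodule (TT k) (TA k n) :=
  Submodule.pi Set.univ (fun _ => colMod k c)

lemma mem_colT {c : Fin 5} {φ : TA k n} : φ ∈ colT k n c ↔ ∀ l, φ l ∈ colMod k c := by
  simp [colT, Submodule.mem_pi]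

/-- First part at a vertex. -/
noncomputable def bT (n : ℕ) (v : Fin 5) : TA k n →ₗ[k] (Fin n → Pol k) :=
  (bOut v).compLeft (Fin n)

/-- Second part at a vertex. -/
noncomputable def xT (n : ℕ) (v : Fin 5) : TA k n →ₗ[k] PP k n := (xOut v).compLeft (Fin n)

lemma inter_bT (v : Fin 5) : Inter (bT n v) (QT L) (Qm L) :=
  tw_inter (Q := QA k) (Q' := rightRep k)
    ⟨fun _ => rfl, fun _ => rfl, fun _ => rfl, fun _ => rfl⟩ L.r L.hz

lemma bT_n (v : Fin 5) (φ : TA k n) : bT n v ((QT L).n φ) = (Qm L).n (bT n v φ) :=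
  tw_n (Q := QA k) (Q' := rightRep k) (fun _ => rfl) (fun _ => rfl) L.r L.hz φ

lemma inter_xT (v : Fin 5) : Inter (xT n v) (QT L) (Qx L) :=
  tw_inter (Q := QA k) (Q' := xRep k)
    ⟨fun _ => rfl, fun _ => rfl, fun _ => rfl, fun _ => rfl⟩ L.r L.hz

lemma xT_n (v : Fin 5) (φ : TA k n) : xT n v ((QT L).n φ) = (Qx L).n (xT n v φ) :=
  tw_n (Q := QA k) (Q' := xRep k) (fun _ => rfl) (fun _ => rfl) L.r L.hz φ

lemma taExt {φ ψ : TA k n} (h1 : ∀ v, bT n v φ = bT n v ψ) (h2 : ∀ v, xT n v φ = xT n v ψ) :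
    φ = ψ :=
  funext fun l => amb_ext (fun v => congrFun (h1 v) l) (fun v => congrFun (h2 v) l)

lemma triExt {φ ψ : TA k n × TA k n × TA k n} (h1 : ∀ v, map3 (bT n v) φ = map3 (bT n v) ψ)
    (h2 : ∀ v, map3 (xT n v) φ = map3 (xT n v) ψ) : φ = ψ := by
  simp only [map3_apply, Prod.mk.injEq] at h1 h2
  exact Prod.ext (taExt (fun v => (h1 v).1) (fun v => (h2 v).1))
    (Prod.ext (taExt (fun v => (h1 v).2.1) (fun v => (h2 v).2.1))
      (taExt (fun v => (h1 v).2.2) (fun v => (h2 v).2.2)))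

/-- Assembling a tuple from its components. -/
noncomputable def asm (b : Fin 5 → Fin n → Pol k) (x : Fin 5 → PP k n) : TA k n :=
  fun l => (fun v => b v l, fun v => x v l)

lemma bT_asm (b : Fin 5 → Fin n → Pol k) (x : Fin 5 → PP k n) (v : Fin 5) :
    bT n v (asm b x) = b v := rfl

lemma xT_asm (b : Fin 5 → Fin n → Pol k) (x : Fin 5 → PP k n) (v : Fin 5) :
    xT n v (asm b x) = x v := rfl

/-- Assembling a triple. -/
noncomputable def asm3 (b : Fin 5 → (Fin n → Pol k) × (Fin n → Pol k) × (Fin n → Pol k))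
    (x : Fin 5 → PP k n × PP k n × PP k n) : TA k n × TA k n × TA k n :=
  (asm (fun v => (b v).1) (fun v => (x v).1), asm (fun v => (b v).2.1) (fun v => (x v).2.1),
    asm (fun v => (b v).2.2) (fun v => (x v).2.2))

lemma map3_bT_asm3 (b : Fin 5 → (Fin n → Pol k) × (Fin n → Pol k) × (Fin n → Pol k))
    (x : Fin 5 → PP k n × PP k n × PP k n) (v : Fin 5) :
    map3 (bT n v) (asm3 b x) = b v := rfl

lemma map3_xT_asm3 (b : Fin 5 → (Fin n → Pol k) × (Fin n → Pol k) × (Fin n → Pol k))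
    (x : Fin 5 → PP k n × PP k n × PP k n) (v : Fin 5) :
    map3 (xT n v) (asm3 b x) = x v := rfl

lemma colT_iff {c : Fin 5} {φ : TA k n} :
    φ ∈ colT k n c ↔ ∀ v, bT n v φ ∈ Full k n (bdeg c v) ∧ xT n v φ ∈ Lx k n (bdeg c v + 1) := by
  rw [mem_colT]
  constructor
  · intro h v
    exact ⟨mem_Full.2 fun l => (inCol_of_mem (h l) v).1,
      mem_Lx.2 ⟨mem_Lv.2 fun l => (inCol_of_mem (h l) v).2.1,
        mem_Lv.2 fun l => (inCol_of_mem (h l) v).2.2⟩⟩
  · intro h l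
    refine mem_col_iff.2 fun v => ⟨mem_Full.1 (h v).1 l, ?_, ?_⟩
    · exact mem_Lv.1 (mem_Lx.1 (h v).2).1 l
    · exact mem_Lv.1 (mem_Lx.1 (h v).2).2 l

/-- Triples of tuples in a column. -/
noncomputable def colT3 (k : Type) [Field k] (n : ℕ) (c : Fin 5) :
    Submodule (TT k) (TA k n × TA k n × TA k n) :=
  (colT k n c).prod ((colT k n c).prod (colT k n c))

lemma mem_colT3 {c : Fin 5} {s : TA k n × TA k n × TA k n} :
    s ∈ colT3 k n c ↔ s.1 ∈ colT k n c ∧ s.2.1 ∈ colT k n c ∧ s.2.2 ∈ colT k n c := by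
  simp [colT3, Submodule.mem_prod]

lemma colT3_parts {c : Fin 5} {s : TA k n × TA k n × TA k n} (h : s ∈ colT3 k n c) (v : Fin 5) :
    map3 (bT n v) s ∈ tri (Full k n (bdeg c v)) ∧
      map3 (xT n v) s ∈ tri (Lx k n (bdeg c v + 1)) := by
  obtain ⟨a, b, d⟩ := mem_colT3.1 h
  exact ⟨mem_tri.2 ⟨(colT_iff.1 a v).1, (colT_iff.1 b v).1, (colT_iff.1 d v).1⟩,
    mem_tri.2 ⟨(colT_iff.1 a v).2, (colT_iff.1 b v).2, (colT_iff.1 d v).2⟩⟩

lemma asm3_mem {c : Fin 5} {b : Fin 5 → (Fin n → Pol k) × (Fin n → Pol k) × (Fin n → Pol k)}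
    {x : Fin 5 → PP k n × PP k n × PP k n} (hb : ∀ v, b v ∈ tri (Full k n (bdeg c v)))
    (hx : ∀ v, x v ∈ tri (Lx k n (bdeg c v + 1))) : asm3 b x ∈ colT3 k n c :=
  mem_colT3.2 ⟨colT_iff.2 fun v => ⟨(mem_tri.1 (hb v)).1, (mem_tri.1 (hx v)).1⟩,
    colT_iff.2 fun v => ⟨(mem_tri.1 (hb v)).2.1, (mem_tri.1 (hx v)).2.1⟩,
    colT_iff.2 fun v => ⟨(mem_tri.1 (hb v)).2.2, (mem_tri.1 (hx v)).2.2⟩⟩

lemma RT_mem {c c' : Fin 5} (hc : (c' : ℕ) + 1 = (c : ℕ)) (j : Fin 5) {x : Amb k}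
    (hx : x ∈ colMod k c) : RT j x ∈ colMod k c' := by
  obtain ⟨t, rfl⟩ := mem_colMod.1 hx
  rw [map_smul]
  refine Submodule.smul_mem _ _ ?_
  rw [uvec, RT_bIn, rmul_apply, GRep.rho_one, Module.End.one_apply]
  refine bIn_mem' ?_
  rw [show bdeg c' c = 1 by simp only [bdeg]; omega]
  exact X_mem_Pd j

lemma lift_mem_col {c : Fin 5} (G : Module.End k (Fin n → k)) {φ : TA k n}
    (h : φ ∈ colT k n c) (l : Fin n) : lift (Amb k) n G φ l ∈ colMod k c := by
  rw [lift_apply]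
  exact Submodule.sum_mem _ fun j _ => Submodule.smul_of_tower_mem _ _ (mem_colT.1 h j)

lemma tw_op_mem {c c' : Fin 5} (hc : (c' : ℕ) + 1 = (c : ℕ)) (j : Fin 5)
    (G : Module.End k (Fin n → k)) {φ : TA k n} (h : φ ∈ colT k n c) (l : Fin n) :
    RT j (φ l) - RT 4 (lift (Amb k) n G φ l) ∈ colMod k c' :=
  Submodule.sub_mem _ (RT_mem hc j (mem_colT.1 h l)) (RT_mem hc 4 (lift_mem_col G h l))

lemma QT_mem {c c' : Fin 5} (hc : (c' : ℕ) + 1 = (c : ℕ)) {φ : TA k n} (h : φ ∈ colT k n c) :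
    (QT L).f φ ∈ colT k n c' ∧ (QT L).h φ ∈ colT k n c' ∧ (QT L).e φ ∈ colT k n c' ∧
      (QT L).n φ ∈ colT k n c' ∧ (QT L).z φ ∈ colT k n c' := by
  refine ⟨mem_colT.2 fun l => ?_, mem_colT.2 fun l => ?_, mem_colT.2 fun l => ?_,
    mem_colT.2 fun l => ?_, mem_colT.2 fun l => ?_⟩
  · show (QA k).f (φ l) - (QA k).z _ ∈ _
    rw [QA_f, QA_z]; exact tw_op_mem hc 2 L.r.e h l
  · show (QA k).h (φ l) - (QA k).z _ ∈ _
    rw [QA_h, QA_z]; exact tw_op_mem hc 1 L.r.h h l
  · show (QA k).e (φ l) - (QA k).z _ ∈ _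
    rw [QA_e, QA_z]; exact tw_op_mem hc 0 L.r.f h l
  · show (QA k).n (φ l) - (QA k).z _ ∈ _
    rw [QA_n, QA_z]; exact tw_op_mem hc 3 L.r.n h l
  · show (QA k).z (φ l) ∈ _
    rw [QA_z]; exact RT_mem hc 4 (mem_colT.1 h l)

lemma map3_n_col {c c' : Fin 5} (hc : (c' : ℕ) + 1 = (c : ℕ)) {s : TA k n × TA k n × TA k n}
    (h : s ∈ colT3 k n c) : map3 (QT L).n s ∈ colT3 k n c' := by
  obtain ⟨a, b, d⟩ := mem_colT3.1 h
  exact mem_colT3.2
    ⟨(QT_mem L hc a).2.2.2.1, (QT_mem L hc b).2.2.2.1, (QT_mem L hc d).2.2.2.1⟩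

lemma d1_col {c c' : Fin 5} (hc : (c' : ℕ) + 1 = (c : ℕ)) {s : TA k n × TA k n × TA k n}
    (h : s ∈ colT3 k n c) : d1 (QT L) s ∈ colT k n c' := by
  obtain ⟨a, b, d⟩ := mem_colT3.1 h
  exact Submodule.add_mem _ (Submodule.add_mem _ (QT_mem L hc a).2.2.1 (QT_mem L hc b).2.1)
    (QT_mem L hc d).1

lemma d2_col {c c' : Fin 5} (hc : (c' : ℕ) + 1 = (c : ℕ)) {s : TA k n × TA k n × TA k n}
    (h : s ∈ colT3 k n c) : d2 (QT L) s ∈ colT3 k n c' := by
  obtain ⟨a, b, d⟩ := mem_colT3.1 h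
  obtain ⟨fa, ha, ea, -, za⟩ := QT_mem L hc a
  obtain ⟨fb, hb, eb, -, zb⟩ := QT_mem L hc b
  obtain ⟨fd, hd, ed, -, zd⟩ := QT_mem L hc d
  refine mem_colT3.2 ⟨?_, ?_, ?_⟩
  · exact Submodule.sub_mem _ (Submodule.neg_mem _ (Submodule.add_mem _ ha
      (Submodule.add_mem _ za za))) fb
  · exact Submodule.sub_mem _ (Submodule.add_mem _ ea zb) fd
  · exact Submodule.add_mem _ eb (Submodule.sub_mem _ hd (Submodule.add_mem _ zd zd))

lemma d3_col {c c' : Fin 5} (hc : (c' : ℕ) + 1 = (c : ℕ)) {t : TA k n}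
    (h : t ∈ colT k n c) : d3 (QT L) t ∈ colT3 k n c' :=
  mem_colT3.2 ⟨(QT_mem L hc h).1, Submodule.neg_mem _ (QT_mem L hc h).2.1, (QT_mem L hc h).2.2.1⟩

/-- Degree zero term. -/
noncomputable abbrev C0 (k : Type) [Field k] (n : ℕ) := colT k n 0

/-- Degree one term. -/
noncomputable abbrev C1 (k : Type) [Field k] (n : ℕ) := (colT3 k n 1).prod (colT k n 1)

/-- Degree two term. -/
noncomputable abbrev C2 (k : Type) [Field k] (n : ℕ) := (colT3 k n 2).prod (colT3 k n 2)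

/-- Degree three term. -/
noncomputable abbrev C3 (k : Type) [Field k] (n : ℕ) := (colT k n 3).prod (colT3 k n 3)

/-- Degree four term. -/
noncomputable abbrev C4 (k : Type) [Field k] (n : ℕ) := colT k n 4

lemma E1_mem {x : (TA k n × TA k n × TA k n) × TA k n} (h : x ∈ C1 k n) : E1 L x ∈ C0 k n := by
  obtain ⟨a, b⟩ := Submodule.mem_prod.1 h
  exact Submodule.add_mem _ (d1_col L (c := 1) (by decide) a)
    (QT_mem L (c := 1) (by decide) b).2.2.2.1

lemma E2_mem {x : (TA k n × TA k n × TA k n) × (TA k n × TA k n × TA k n)} (h : x ∈ C2 k n) :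
    E2 L x ∈ C1 k n := by
  obtain ⟨a, b⟩ := Submodule.mem_prod.1 h
  exact Submodule.mem_prod.2 ⟨Submodule.add_mem _ (d2_col L (c := 2) (by decide) a)
    (map3_n_col L (c := 2) (by decide) b), Submodule.neg_mem _ (d1_col L (c := 2) (by decide) b)⟩

lemma E3_mem {x : TA k n × (TA k n × TA k n × TA k n)} (h : x ∈ C3 k n) : E3 L x ∈ C2 k n := by
  obtain ⟨a, b⟩ := Submodule.mem_prod.1 h
  exact Submodule.mem_prod.2 ⟨Submodule.add_mem _ (d3_col L (c := 3) (by decide) a)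
    (map3_n_col L (c := 3) (by decide) b), Submodule.neg_mem _ (d2_col L (c := 3) (by decide) b)⟩

lemma E4_mem {x : TA k n} (h : x ∈ C4 k n) : E4 L x ∈ C3 k n :=
  Submodule.mem_prod.2 ⟨(QT_mem L (c := 4) (by decide) h).2.2.2.1,
    Submodule.neg_mem _ (d3_col L (c := 4) (by decide) h)⟩

lemma bdeg_step {c c' : Fin 5} (hc : (c' : ℕ) + 1 = (c : ℕ)) (v : Fin 5) :
    bdeg c v = bdeg c' v - 1 := by simp only [bdeg]; omega

variable [CharZero k]

lemma exC2 {x : (TA k n × TA k n × TA k n) × (TA k n × TA k n × TA k n)} (h : x ∈ C2 k n)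
    (hd : E2 L x = 0) : ∃ y ∈ C3 k n, E3 L y = x := by
  obtain ⟨h1, h2⟩ := Submodule.mem_prod.1 h
  have hd' : D2 (QT L) x = 0 := hd
  have hB : ∀ v, ∃ y : (Fin n → Pol k) × ((Fin n → Pol k) × (Fin n → Pol k) × (Fin n → Pol k)),
      y.1 ∈ Full k n (bdeg 3 v) ∧ y.2 ∈ tri (Full k n (bdeg 3 v)) ∧
        D3 (Qm L) y = (map3 (bT n v) x.1, map3 (bT n v) x.2) := by
    intro v
    rw [bdeg_step (c := 3) (c' := 2) (by decide) v]
    refine fullEx2 L (colT3_parts h1 v).1 ?_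
    rw [← nat_D2 (inter_bT L v) (bT_n L v), hd']
    simp [map3_apply]
  have hX : ∀ v, ∃ y : PP k n × (PP k n × PP k n × PP k n),
      y.1 ∈ Lx k n (bdeg 3 v + 1) ∧ y.2 ∈ tri (Lx k n (bdeg 3 v + 1)) ∧
        D3 (Qx L) y = (map3 (xT n v) x.1, map3 (xT n v) x.2) := by
    intro v
    rw [show bdeg 3 v + 1 = bdeg 2 v + 1 - 1 by
      rw [bdeg_step (c := 3) (c' := 2) (by decide) v]; ring]
    refine xcone2 L (colT3_parts h1 v).2 (colT3_parts h2 v).2 ?_
    rw [← nat_D2 (inter_xT L v) (xT_n L v), hd']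
    simp [map3_apply]
  choose yb hb1 hb2 hb3 using hB
  choose yx hx1 hx2 hx3 using hX
  set y : TA k n × (TA k n × TA k n × TA k n) :=
    (asm (fun v => (yb v).1) (fun v => (yx v).1),
      asm3 (fun v => (yb v).2) (fun v => (yx v).2)) with hy
  refine ⟨y, Submodule.mem_prod.2
    ⟨colT_iff.2 fun v => ⟨hb1 v, hx1 v⟩, asm3_mem hb2 hx2⟩, ?_⟩
  have eb := fun v => (nat_D3 (inter_bT L v) (bT_n L v) y).trans (hb3 v)
  have ex := fun v => (nat_D3 (inter_xT L v) (xT_n L v) y).trans (hx3 v)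
  show D3 (QT L) y = x
  simp only [Prod.mk.injEq] at eb ex
  exact Prod.ext (triExt (fun v => (eb v).1) (fun v => (ex v).1))
    (triExt (fun v => (eb v).2) (fun v => (ex v).2))

lemma exC3 {x : TA k n × (TA k n × TA k n × TA k n)} (h : x ∈ C3 k n)
    (hd : E3 L x = 0) : ∃ y ∈ C4 k n, E4 L y = x := by
  obtain ⟨h1, h2⟩ := Submodule.mem_prod.1 h
  have hd' : D3 (QT L) x = 0 := hd
  have hB : ∀ v, ∃ t ∈ Full k n (bdeg 4 v),
      D4 (Qm L) t = (bT n v x.1, map3 (bT n v) x.2) := by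
    intro v
    rw [bdeg_step (c := 4) (c' := 3) (by decide) v]
    refine fullEx3 L (colT_iff.1 h1 v).1 ?_
    rw [← nat_D3 (inter_bT L v) (bT_n L v), hd']
    simp [map3_apply]
  have hX : ∀ v, ∃ t ∈ Lx k n (bdeg 4 v + 1),
      D4 (Qx L) t = (xT n v x.1, map3 (xT n v) x.2) := by
    intro v
    rw [show bdeg 4 v + 1 = bdeg 3 v + 1 - 1 by
      rw [bdeg_step (c := 4) (c' := 3) (by decide) v]; ring]
    refine xcone3 L (colT_iff.1 h1 v).2 (colT3_parts h2 v).2 ?_
    rw [← nat_D3 (inter_xT L v) (xT_n L v), hd']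
    simp [map3_apply]
  choose yb hb1 hb3 using hB
  choose yx hx1 hx3 using hX
  refine ⟨asm yb yx, colT_iff.2 fun v => ⟨hb1 v, hx1 v⟩, ?_⟩
  have eb := fun v => (nat_D4 (inter_bT L v) (bT_n L v) (asm yb yx)).trans (hb3 v)
  have ex := fun v => (nat_D4 (inter_xT L v) (xT_n L v) (asm yb yx)).trans (hx3 v)
  show D4 (QT L) (asm yb yx) = x
  simp only [Prod.mk.injEq] at eb ex
  exact Prod.ext (taExt (fun v => (eb v).1) (fun v => (ex v).1))
    (triExt (fun v => (eb v).2) (fun v => (ex v).2))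

lemma exC4 {t : TA k n} (h : t ∈ C4 k n) (hd : E4 L t = 0) : t = 0 := by
  have hd' : D4 (QT L) t = 0 := hd
  refine taExt (fun v => ?_) (fun v => ?_)
  · rw [map_zero]
    refine fullEx4 L ?_
    rw [← nat_D4 (inter_bT L v) (bT_n L v), hd']
    simp [map3_apply]
  · rw [map_zero]
    refine xcone4 L (colT_iff.1 h v).2 ?_
    rw [← nat_D4 (inter_xT L v) (xT_n L v), hd']
    simp [map3_apply]

end Vale.Agent.P176
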