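import Mathlib.Algebra.Category.ModuleCat.Ext.HasExt
import Mathlib.Algebra.Category.ModuleCat.Projective
import Mathlib.Algebra.Homology.ShortComplex.ModuleCat
import Mathlib.CategoryTheory.Abelian.Projective.Dimension

/-!
Projective dimension along short exact sequences of modules given by linear maps.
-/

namespace Vale.Agent.P176

open CategoryTheory

universe u

variable {R : Type u} [Ring R]

/-- Projective dimension smaller than n, for a module. -/
abbrev PD (R : Type u) [Ring R] (n : ℕ) (M : Type u) [AddCommGroup M] [Module R M] : Prop :=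
  HasProjectiveDimensionLT (ModuleCat.of R M) n

variable {A B C : Type u} [AddCommGroup A] [AddCommGroup B] [AddCommGroup C]
  [Module R A] [Module R B] [Module R C] (f : A →ₗ[R] B) (g : B →ₗ[R] C)

/-- A short exact sequence given by linear maps. -/
structure Ses : Prop where
  inj : ∀ a, f a = 0 → a = 0
  surj : ∀ c, ∃ b, g b = c
  comp : ∀ a, g (f a) = 0
  exact : ∀ b, g b = 0 → ∃ a, f a = b

variable {f g}

lemma Ses.shortExact (h : Ses f g) :
    (ShortComplex.moduleCatMk f g (LinearMap.ext h.comp)).ShortExact where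
  exact := (ShortComplex.moduleCat_exact_iff _).2 h.exact
  mono_f := (ModuleCat.mono_iff_injective _).2 ((injective_iff_map_eq_zero f).2 h.inj)
  epi_g := (ModuleCat.epi_iff_surjective _).2 h.surj

lemma Ses.pd₁ (h : Ses f g) {n : ℕ} (h2 : PD R n B) (h3 : PD R (n + 1) C) : PD R n A :=
  h.shortExact.hasProjectiveDimensionLT_X₁ n h2 h3

lemma Ses.pd₂ (h : Ses f g) {n : ℕ} (h1 : PD R n A) (h3 : PD R n C) : PD R n B :=
  h.shortExact.hasProjectiveDimensionLT_X₂ n h1 h3

lemma Ses.pd₃ (h : Ses f g) {n : ℕ} (h1 : PD R n A) (h2 : PD R (n + 1) B) : PD R (n + 1) C :=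
  h.shortExact.hasProjectiveDimensionLT_X₃ n h1 h2

lemma pd_mono {n m : ℕ} (hnm : n ≤ m) (h : PD R n A) : PD R m A :=
  have := h; hasProjectiveDimensionLT_of_ge _ n m hnm

lemma pd_of_projective [Module.Projective R A] {n : ℕ} (hn : 1 ≤ n) : PD R n A := by
  have : PD R 1 A := inferInstance
  exact pd_mono hn this

lemma pd_of_subsingleton [Subsingleton A] (n : ℕ) : PD R n A :=
  pd_mono (Nat.zero_le n)
    (Limits.IsZero.hasProjectiveDimensionLT_zero (ModuleCat.isZero_of_subsingleton _))

lemma projective_of_pd_one [Small.{u} R] (h : PD R 1 A) : Module.Projective R A := by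
  have hp : CategoryTheory.Projective (ModuleCat.of R A) :=
    projective_iff_hasProjectiveDimensionLT_one.2 h
  exact (IsProjective.iff_projective A).2 hp

/-- If the quotient is projective, the injection has a left inverse. -/
lemma Ses.retraction (h : Ses f g) [Module.Projective R C] :
    ∃ r : B →ₗ[R] A, ∀ a, r (f a) = a := by
  obtain ⟨s, hs⟩ := Module.projective_lifting_property g LinearMap.id h.surj
  have key : ∀ b, b - s (g b) ∈ LinearMap.range f := fun b => by
    have e : g (s (g b)) = g b := LinearMap.congr_fun hs (g b)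
    exact LinearMap.mem_range.2 (h.exact _ (by rw [map_sub, e, sub_self]))
  let p : B →ₗ[R] LinearMap.range f := (LinearMap.id - s ∘ₗ g).codRestrict _ key
  let e := LinearEquiv.ofInjective f ((injective_iff_map_eq_zero f).2 h.inj)
  refine ⟨e.symm.toLinearMap ∘ₗ p, fun a => ?_⟩
  show e.symm (p (f a)) = a
  rw [LinearEquiv.symm_apply_eq]
  exact Subtype.ext (by simp [p, e, h.comp])

end Vale.Agent.P176
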