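import Vale.Agent.P176.Modules
import Vale.Agent.P176.Homological

/-!
The projective dimensions of the test modules.
-/

namespace Vale.Agent.P176

open MvPolynomial

variable {k : Type} [Field k] {n : ℕ}

/-- A tuple column as a product of columns. -/
noncomputable def colTEquiv (k : Type) [Field k] (n : ℕ) (c : Fin 5) :
    colT k n c ≃ₗ[TT k] (Fin n → colMod k c) where
  toFun x l := ⟨(x : TA k n) l, mem_colT.1 x.2 l⟩
  invFun y := ⟨fun l => (y l : Amb k), mem_colT.2 fun l => (y l).2⟩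
  map_add' _ _ := rfl
  map_smul' _ _ := rfl
  left_inv _ := rfl
  right_inv _ := rfl

/-- A product of submodules as a product of modules. -/
def subProdEquiv {R A B : Type*} [Ring R] [AddCommGroup A] [AddCommGroup B] [Module R A]
    [Module R B] (P : Submodule R A) (Q : Submodule R B) : (P.prod Q) ≃ₗ[R] P × Q where
  toFun x := (⟨x.1.1, x.2.1⟩, ⟨x.1.2, x.2.2⟩)
  invFun y := ⟨((y.1 : A), (y.2 : B)), ⟨y.1.2, y.2.2⟩⟩
  map_add' _ _ := rfl
  map_smul' _ _ := rfl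
  left_inv _ := rfl
  right_inv _ := rfl

instance colT_projective (c : Fin 5) : Module.Projective (TT k) (colT k n c) := by
  have h : Module.Projective (TT k) (Π₀ _ : Fin n, colMod k c) := inferInstance
  exact Module.Projective.of_equiv'
    (DFinsupp.linearEquivFunOnFintype.trans (colTEquiv k n c).symm)

lemma projective_prod {A B : Type} [AddCommGroup A] [AddCommGroup B] [Module (TT k) A]
    [Module (TT k) B] (P : Submodule (TT k) A) (Q : Submodule (TT k) B)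
    [Module.Projective (TT k) P] [Module.Projective (TT k) Q] :
    Module.Projective (TT k) (P.prod Q) :=
  Module.Projective.of_equiv' (subProdEquiv P Q).symm

instance colT3_projective (c : Fin 5) : Module.Projective (TT k) (colT3 k n c) := by
  have := projective_prod (colT k n c) (colT k n c)
  exact projective_prod _ _

instance C1_projective : Module.Projective (TT k) (C1 k n) := projective_prod _ _

instance C2_projective : Module.Projective (TT k) (C2 k n) := projective_prod _ _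

instance C3_projective : Module.Projective (TT k) (C3 k n) := projective_prod _ _

/-- Boundaries in degree two. -/
noncomputable def R3 (k : Type) [Field k] (n : ℕ) :
    Submodule (TT k) ((TA k n × TA k n × TA k n) × (TA k n × TA k n × TA k n)) :=
  (C3 k n).map (E3 (Ln k n))

/-- Boundaries in degree one. -/
noncomputable def R2 (k : Type) [Field k] (n : ℕ) :
    Submodule (TT k) ((TA k n × TA k n × TA k n) × TA k n) := (C2 k n).map (E2 (Ln k n))

/-- Boundaries in degree zero. -/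
noncomputable def R1 (k : Type) [Field k] (n : ℕ) : Submodule (TT k) (TA k n) :=
  (C1 k n).map (E1 (Ln k n))

lemma R3_le : R3 k n ≤ C2 k n := by
  rintro _ ⟨x, hx, rfl⟩; exact E3_mem _ hx

lemma R2_le : R2 k n ≤ Z1 k n := by
  rintro _ ⟨x, hx, rfl⟩; exact mem_Z1.2 ⟨E2_mem _ hx, D1_D2 _ _⟩

lemma R1_le : R1 k n ≤ K0 k n := by
  rintro _ ⟨x, hx, rfl⟩; exact E1_mem_K0 hx

/-- Restriction of a map to a submodule and its image. -/
noncomputable def onto {A B : Type} [AddCommGroup A] [AddCommGroup B] [Module (TT k) A]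
    [Module (TT k) B] (f : A →ₗ[TT k] B) (P : Submodule (TT k) A) : P →ₗ[TT k] P.map f :=
  f.restrict fun _ hx => Submodule.mem_map_of_mem hx

lemma onto_coe {A B : Type} [AddCommGroup A] [AddCommGroup B] [Module (TT k) A]
    [Module (TT k) B] (f : A →ₗ[TT k] B) (P : Submodule (TT k) A) (x : P) :
    (onto f P x : B) = f (x : A) := rfl

lemma onto_surj {A B : Type} [AddCommGroup A] [AddCommGroup B] [Module (TT k) A]
    [Module (TT k) B] (f : A →ₗ[TT k] B) (P : Submodule (TT k) A) (y : P.map f) :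
    ∃ x, onto f P x = y := by
  obtain ⟨x, hx, e⟩ := Submodule.mem_map.1 y.2
  exact ⟨⟨x, hx⟩, Subtype.ext e⟩

variable [CharZero k]

lemma ses4 : Ses ((E4 (Ln k n)).restrict (fun _ => E4_mem (Ln k n)) : C4 k n →ₗ[TT k] C3 k n)
    (onto (E3 (Ln k n)) (C3 k n)) where
  inj a h := Subtype.ext (exC4 _ a.2 (congrArg Subtype.val h))
  surj := onto_surj _ _
  comp a := Subtype.ext (D3_D4 _ _)
  exact b h := by
    obtain ⟨y, hy, e⟩ := exC3 _ b.2 (congrArg Subtype.val h)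
    exact ⟨⟨y, hy⟩, Subtype.ext e⟩

lemma ses3_exact {y : (TA k n × TA k n × TA k n) × (TA k n × TA k n × TA k n)}
    (hy : y ∈ C2 k n) (h : E2 (Ln k n) y = 0) : y ∈ R3 k n := by
  obtain ⟨x, hx, e⟩ := exC2 _ hy h
  exact Submodule.mem_map.2 ⟨x, hx, e⟩

lemma ses3_comp {y : (TA k n × TA k n × TA k n) × (TA k n × TA k n × TA k n)}
    (hy : y ∈ R3 k n) : E2 (Ln k n) y = 0 := by
  obtain ⟨x, _, e⟩ := Submodule.mem_map.1 hy
  subst e
  exact D2_D3 (QT (Ln k n)) x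

lemma ses3 : Ses (Submodule.inclusion (R3_le (k := k) (n := n)))
    (onto (E2 (Ln k n)) (C2 k n)) where
  inj a h := Submodule.inclusion_injective _ (h.trans (map_zero _).symm)
  surj := onto_surj _ _
  comp a := by
    apply Subtype.ext
    rw [onto_coe, ZeroMemClass.coe_zero]
    exact ses3_comp a.2
  exact b h := by
    have h' : E2 (Ln k n) (b : _ × _) = 0 := by
      rw [← onto_coe, h, ZeroMemClass.coe_zero]
    exact ⟨⟨b, ses3_exact b.2 h'⟩, rfl⟩

lemma phi_zero_iff {m : ℕ} {x : (TA k (m + 1) × TA k (m + 1) × TA k (m + 1)) × TA k (m + 1)}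
    (hx : x ∈ Z1 k (m + 1)) :
    phi0 k m x.2 = 0 ↔ ∀ v, eps2 (Ln k (m + 1)) (xT (m + 1) v x.2) = 0 := by
  constructor
  · intro h v
    refine kappa_inj _ (cycle_LV _ (mem_Z1.1 hx).2 v) ?_
    rw [← mC_phi0, h, map_zero]
  · intro h
    exact mmExt fun v => by rw [mC_phi0, h, map_zero, map_zero]

lemma ses2_comp {m : ℕ}
    {x : (TA k (m + 1) × TA k (m + 1) × TA k (m + 1)) × (TA k (m + 1) × TA k (m + 1) × TA k (m + 1))} :
    phi0 k m (E2 (Ln k (m + 1)) x).2 = 0 := by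
  refine mmExt fun v => ?_
  rw [mC_phi0, map_zero]
  show kappa k m (eps2 _ (xT (m + 1) v (-d1 (QT (Ln k (m + 1))) x.2))) = 0
  rw [map_neg, (inter_xT _ v).d1, map_neg, eps2_d1, neg_zero, map_zero]

lemma ses2_exact {m : ℕ} {x : (TA k (m + 1) × TA k (m + 1) × TA k (m + 1)) × TA k (m + 1)}
    (hx : x ∈ Z1 k (m + 1)) (h : phi0 k m x.2 = 0) : x ∈ R2 k (m + 1) := by
  set L := Ln k (m + 1)
  obtain ⟨hc, hd⟩ := mem_Z1.1 hx
  obtain ⟨h1, h2⟩ := Submodule.mem_prod.1 hc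
  have he := (phi_zero_iff hx).1 h
  have hB : ∀ v, ∃ y : ((Fin (m + 1) → Pol k) × (Fin (m + 1) → Pol k) × (Fin (m + 1) → Pol k)) ×
        ((Fin (m + 1) → Pol k) × (Fin (m + 1) → Pol k) × (Fin (m + 1) → Pol k)),
      y.1 ∈ tri (Full k (m + 1) (bdeg 2 v)) ∧ y.2 ∈ tri (Full k (m + 1) (bdeg 2 v)) ∧
        D2 (Qm L) y = (map3 (bT (m + 1) v) x.1, bT (m + 1) v x.2) := by
    intro v
    rw [bdeg_step (c := 2) (c' := 1) (by decide) v]
    refine fullEx1 L (colT3_parts h1 v).1 ?_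
    rw [← nat_D1 (inter_bT L v) (bT_n L v), hd, map_zero]
  have hX : ∀ v, ∃ y : (PP k (m + 1) × PP k (m + 1) × PP k (m + 1)) ×
        (PP k (m + 1) × PP k (m + 1) × PP k (m + 1)),
      y.1 ∈ tri (Lx k (m + 1) (bdeg 2 v + 1)) ∧ y.2 ∈ tri (Lx k (m + 1) (bdeg 2 v + 1)) ∧
        D2 (Qx L) y = (map3 (xT (m + 1) v) x.1, xT (m + 1) v x.2) := by
    intro v
    rw [show bdeg 2 v + 1 = bdeg 1 v + 1 - 1 by
      rw [bdeg_step (c := 2) (c' := 1) (by decide) v]; ring]
    refine xcone1 L (colT3_parts h1 v).2 (colT_iff.1 h2 v).2 ?_ (he v)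
    rw [← nat_D1 (inter_xT L v) (xT_n L v), hd, map_zero]
  choose yb hb1 hb2 hb3 using hB
  choose yx hx1 hx2 hx3 using hX
  refine Submodule.mem_map.2 ⟨(asm3 (fun v => (yb v).1) (fun v => (yx v).1),
    asm3 (fun v => (yb v).2) (fun v => (yx v).2)),
    Submodule.mem_prod.2 ⟨asm3_mem hb1 hx1, asm3_mem hb2 hx2⟩, ?_⟩
  show D2 (QT L) _ = x
  set y := (asm3 (fun v => (yb v).1) (fun v => (yx v).1),
    asm3 (fun v => (yb v).2) (fun v => (yx v).2))
  have eb := fun v => (nat_D2 (inter_bT L v) (bT_n L v) y).trans (hb3 v)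
  have ex := fun v => (nat_D2 (inter_xT L v) (xT_n L v) y).trans (hx3 v)
  simp only [Prod.mk.injEq] at eb ex
  exact Prod.ext (triExt (fun v => (eb v).1) (fun v => (ex v).1))
    (taExt (fun v => (eb v).2) (fun v => (ex v).2))

lemma bdeg_one (v : Fin 5) : bdeg 1 v + 1 = ((v : ℕ) : ℤ) := by simp [bdeg]

lemma bdeg_zero (v : Fin 5) : bdeg 0 v = ((v : ℕ) : ℤ) := by simp [bdeg]

lemma phi_surj {m : ℕ} (c : MM k m) :
    ∃ x ∈ Z1 k (m + 1), phi0 k m x.2 = c := by
  set L := Ln k (m + 1)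
  have hX : ∀ v, ∃ y : (PP k (m + 1) × PP k (m + 1) × PP k (m + 1)) × PP k (m + 1),
      y.1 ∈ tri (Lx k (m + 1) (bdeg 1 v + 1)) ∧ y.2 ∈ Lx k (m + 1) (bdeg 1 v + 1) ∧
        D1 (Qx L) y = 0 ∧ eps2 L y.2 = iota k m (mC m v c) := by
    intro v
    exact xcone1_surj L (by rw [bdeg_one]; positivity) _ (LV_iota _)
  choose yx hx1 hx2 hx3 hx4 using hX
  set x : (TA k (m + 1) × TA k (m + 1) × TA k (m + 1)) × TA k (m + 1) :=
    (asm3 (fun _ => 0) (fun v => (yx v).1), asm (fun _ => 0) (fun v => (yx v).2)) with hx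
  refine ⟨x, mem_Z1.2 ⟨Submodule.mem_prod.2 ⟨asm3_mem (fun v => zero_mem _) hx1,
    colT_iff.2 fun v => ⟨zero_mem _, hx2 v⟩⟩, taExt (fun v => ?_) (fun v => ?_)⟩, ?_⟩
  · rw [nat_D1 (inter_bT L v) (bT_n L v), map_zero]
    exact map_zero (D1 (Qm L))
  · rw [nat_D1 (inter_xT L v) (xT_n L v), map_zero]
    exact hx3 v
  · refine mmExt fun v => ?_
    rw [mC_phi0]
    show kappa k m (eps2 L (yx v).2) = _
    rw [hx4, kappa_iota]

lemma ses2 {m : ℕ} : Ses (Submodule.inclusion (R2_le (k := k) (n := m + 1))) (phi k m) where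
  inj a h := Subtype.ext (congrArg Subtype.val h :)
  surj c := by
    obtain ⟨x, hx, e⟩ := phi_surj c
    exact ⟨⟨x, hx⟩, by rw [phi_apply]; exact e⟩
  comp a := by
    obtain ⟨x, hx, e⟩ := Submodule.mem_map.1 a.2
    rw [phi_apply, Submodule.coe_inclusion, ← e]
    exact ses2_comp
  exact b h := by
    rw [phi_apply] at h
    exact ⟨⟨_, ses2_exact b.2 h⟩, rfl⟩

lemma ses1 : Ses (Submodule.inclusion (show Z1 k n ≤ C1 k n from inf_le_left))
    (onto (E1 (Ln k n)) (C1 k n)) where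
  inj a h := Subtype.ext (congrArg Subtype.val h :)
  surj := onto_surj _ _
  comp a := Subtype.ext (mem_Z1.1 a.2).2
  exact b h := ⟨⟨b, mem_Z1.2 ⟨b.2, congrArg Subtype.val h⟩⟩, rfl⟩

lemma ses0_comp {m : ℕ} {x : (TA k (m + 1) × TA k (m + 1) × TA k (m + 1)) × TA k (m + 1)} :
    psi0 k m (E1 (Ln k (m + 1)) x) = 0 := by
  refine mmExt fun v => ?_
  rw [mC_psi0, map_zero]
  show piMap k m (eps2 _ (xT (m + 1) v (D1 (QT (Ln k (m + 1))) x))) = 0
  rw [nat_D1 (inter_xT _ v) (xT_n _ v), eps2_D1, map_neg, piMap_LV, neg_zero]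

lemma ses0_exact {m : ℕ} {φ : TA k (m + 1)} (hφ : φ ∈ K0 k (m + 1)) (h : psi0 k m φ = 0) :
    φ ∈ R1 k (m + 1) := by
  set L := Ln k (m + 1)
  obtain ⟨h1, h2⟩ := mem_K0.1 hφ
  have hB : ∀ v, ∃ y : ((Fin (m + 1) → Pol k) × (Fin (m + 1) → Pol k) × (Fin (m + 1) → Pol k)) ×
        (Fin (m + 1) → Pol k),
      y.1 ∈ tri (Full k (m + 1) (bdeg 1 v)) ∧ y.2 ∈ Full k (m + 1) (bdeg 1 v) ∧
        D1 (Qm L) y = bT (m + 1) v φ := by
    intro v
    rw [bdeg_step (c := 1) (c' := 0) (by decide) v]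
    exact fullEx0 L (colT_iff.1 h1 v).1 (h2 v)
  have hX : ∀ v, ∃ y : (PP k (m + 1) × PP k (m + 1) × PP k (m + 1)) × PP k (m + 1),
      y.1 ∈ tri (Lx k (m + 1) (bdeg 1 v + 1)) ∧ y.2 ∈ Lx k (m + 1) (bdeg 1 v + 1) ∧
        D1 (Qx L) y = xT (m + 1) v φ := by
    intro v
    obtain ⟨w, hw⟩ := piMap_ker (eps2 L (xT (m + 1) v φ)) (by rw [← mC_psi0, h, map_zero])
    refine xcone0 L (by rw [bdeg_one]; positivity) ?_ w hw.symm
    have := (colT_iff.1 h1 v).2
    rwa [show bdeg 0 v + 1 = bdeg 1 v + 1 + 1 by rw [bdeg_one, bdeg_zero]] at this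
  choose yb hb1 hb2 hb3 using hB
  choose yx hx1 hx2 hx3 using hX
  refine Submodule.mem_map.2 ⟨(asm3 (fun v => (yb v).1) (fun v => (yx v).1),
    asm (fun v => (yb v).2) (fun v => (yx v).2)),
    Submodule.mem_prod.2 ⟨asm3_mem hb1 hx1, colT_iff.2 fun v => ⟨hb2 v, hx2 v⟩⟩, ?_⟩
  show D1 (QT L) _ = φ
  refine taExt (fun v => ?_) (fun v => ?_)
  · rw [nat_D1 (inter_bT L v) (bT_n L v)]; exact hb3 v
  · rw [nat_D1 (inter_xT L v) (xT_n L v)]; exact hx3 v

lemma psi_surj {m : ℕ} (c : MM k m) : ∃ φ ∈ K0 k (m + 1), psi0 k m φ = c := by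
  set L := Ln k (m + 1)
  have hX : ∀ v, ∃ y ∈ Lx k (m + 1) (bdeg 0 v + 1),
      piMap k m (eps2 L y) = mC m v c := by
    intro v
    obtain ⟨w, hw⟩ := piMap_surj (mC m v c)
    obtain ⟨y, hy, e⟩ := eps2_surj L (i := bdeg 0 v + 1) (by rw [bdeg_zero]; positivity) w
    exact ⟨y, hy, by rw [e, hw]⟩
  choose yx hx1 hx2 using hX
  refine ⟨asm (fun _ => 0) yx, mem_K0.2 ⟨colT_iff.2 fun v => ⟨zero_mem _, hx1 v⟩,
    fun v => map_zero _⟩, mmExt fun v => ?_⟩
  rw [mC_psi0]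
  exact hx2 v

lemma ses0 {m : ℕ} : Ses (Submodule.inclusion (R1_le (k := k) (n := m + 1))) (psi k m) where
  inj a h := Subtype.ext (congrArg Subtype.val h :)
  surj c := by
    obtain ⟨x, hx, e⟩ := psi_surj c
    exact ⟨⟨x, hx⟩, by rw [psi_apply]; exact e⟩
  comp a := by
    obtain ⟨x, hx, e⟩ := Submodule.mem_map.1 a.2
    rw [psi_apply, Submodule.coe_inclusion, ← e]
    exact ses0_comp
  exact b h := by
    rw [psi_apply] at h
    exact ⟨⟨_, ses0_exact b.2 h⟩, rfl⟩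

omit [CharZero k] in
lemma epsM_surj_C0 (x : MM k n) : ∃ φ ∈ C0 k n, epsM k n φ = x := by
  have hv : ∀ v, ∃ b ∈ Lv k n (bdeg 0 v), eps (Ln k n) b = mC n v x := fun v =>
    eps_surj (Ln k n) (by rw [bdeg_zero]; positivity) _
  choose b hb1 hb2 using hv
  exact ⟨asm b (fun _ => 0), colT_iff.2 fun v => ⟨Lv_le_Full _ (hb1 v), zero_mem _⟩,
    mmExt fun v => by rw [mC_epsM]; exact hb2 v⟩

omit [CharZero k] in
lemma sesM : Ses (Submodule.inclusion (show K0 k n ≤ C0 k n from inf_le_left))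
    ((epsMT k n).domRestrict (C0 k n)) where
  inj a h := Subtype.ext (congrArg Subtype.val h :)
  surj c := by
    obtain ⟨x, hx, e⟩ := epsM_surj_C0 c
    exact ⟨⟨x, hx⟩, e⟩
  comp a := a.2.2
  exact b h := ⟨⟨b, b.2, h⟩, rfl⟩

omit [CharZero k] in
lemma bzero_smul (t : TT k) : ∀ (y : Amb k), (∀ v, bOut v y = 0) → ∀ v, bOut v (t • y) = 0 := by
  induction t using algInd with
  | hg s =>
    intro y hz v
    rw [gT_smul]
    cases s with
    | proj w => rw [bOut_proj, hz w]; split_ifs <;> rfl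
    | arrow i w => rw [bOut_arrow, hz]; split_ifs <;> simp
    | back w i => rw [bOut_back]
  | hc r => intro y hz v; rw [IsScalarTower.algebraMap_smul, map_smul, hz, smul_zero]
  | ha s t hs ht => intro y hz v; rw [add_smul, map_add, hs y hz v, ht y hz v, add_zero]
  | hm s t hs ht => intro y hz v; rw [mul_smul]; exact hs _ (fun w => ht y hz w) v

omit [CharZero k] in
lemma bzero (f : colMod k 3 →ₗ[TT k] colT k n 4) (x : colMod k 3) (v : Fin 5) (l : Fin n) :
    bOut v ((f x : TA k n) l) = 0 := by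
  obtain ⟨x, hx⟩ := x
  obtain ⟨t, rfl⟩ := mem_colMod.1 hx
  set u : colMod k 3 := ⟨uvec 3, uvec_mem 3⟩
  have hz : ∀ v, bOut v ((f u : TA k n) l) = 0 := by
    intro v
    have hu : gT (k := k) (.proj 3) • u = u := Subtype.ext (proj_uvec 3)
    have e : (f u : TA k n) l = genMap k (.proj 3) ((f u : TA k n) l) := by
      conv_lhs => rw [← hu, map_smul, Submodule.coe_smul, Pi.smul_apply, gT_smul]
    rw [e, bOut_proj]
    split_ifs with h
    · subst h
      have := (inCol_of_mem (mem_colT.1 (f u).2 l) 3).1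
      rwa [show bdeg 4 3 = -1 by decide, Pd_neg (by norm_num), Submodule.mem_bot] at this
    · rfl
  have e2 : (⟨t • uvec 3, hx⟩ : colMod k 3) = t • u := rfl
  rw [e2, map_smul, Submodule.coe_smul, Pi.smul_apply]
  exact bzero_smul t _ hz v

omit [CharZero k] in
lemma bzero_tuple (g : colT k n 3 →ₗ[TT k] colT k n 4) (x : colT k n 3) (v : Fin 5) (l : Fin n) :
    bOut v ((g x : TA k n) l) = 0 := by
  obtain ⟨y, rfl⟩ := (colTEquiv k n 3).symm.surjective x
  rw [← Finset.univ_sum_single y, map_sum, map_sum, Submodule.coe_sum, Finset.sum_apply, map_sum]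
  exact Finset.sum_eq_zero fun j _ => bzero
    (g ∘ₗ (colTEquiv k n 3).symm.toLinearMap ∘ₗ LinearMap.single (TT k) (fun _ => colMod k 3) j)
    (y j) v l

omit [CharZero k] in
lemma bzero_C3 (S : C3 k n →ₗ[TT k] colT k n 4) (x : C3 k n) (v : Fin 5) (l : Fin n) :
    bOut v ((S x : TA k n) l) = 0 := by
  let i1 : colT k n 3 →ₗ[TT k] C3 k n := LinearMap.codRestrict (C3 k n)
    (LinearMap.inl _ _ _ ∘ₗ (colT k n 3).subtype)
    fun c => Submodule.mem_prod.2 ⟨c.2, zero_mem _⟩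
  let i2 : colT k n 3 →ₗ[TT k] C3 k n := LinearMap.codRestrict (C3 k n)
    (LinearMap.inr _ _ _ ∘ₗ LinearMap.inl _ _ _ ∘ₗ (colT k n 3).subtype)
    fun c => Submodule.mem_prod.2 ⟨zero_mem _, mem_colT3.2 ⟨c.2, zero_mem _, zero_mem _⟩⟩
  let i3 : colT k n 3 →ₗ[TT k] C3 k n := LinearMap.codRestrict (C3 k n)
    (LinearMap.inr _ _ _ ∘ₗ LinearMap.inr _ _ _ ∘ₗ LinearMap.inl _ _ _ ∘ₗ (colT k n 3).subtype)
    fun c => Submodule.mem_prod.2 ⟨zero_mem _, mem_colT3.2 ⟨zero_mem _, c.2, zero_mem _⟩⟩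
  let i4 : colT k n 3 →ₗ[TT k] C3 k n := LinearMap.codRestrict (C3 k n)
    (LinearMap.inr _ _ _ ∘ₗ LinearMap.inr _ _ _ ∘ₗ LinearMap.inr _ _ _ ∘ₗ (colT k n 3).subtype)
    fun c => Submodule.mem_prod.2 ⟨zero_mem _, mem_colT3.2 ⟨zero_mem _, zero_mem _, c.2⟩⟩
  obtain ⟨a, b⟩ := x
  obtain ⟨ha, hb⟩ := Submodule.mem_prod.1 b
  obtain ⟨h1, h2, h3⟩ := mem_colT3.1 hb
  have e : (⟨a, b⟩ : C3 k n) = i1 ⟨a.1, ha⟩ + (i2 ⟨a.2.1, h1⟩ + (i3 ⟨a.2.2.1, h2⟩ + i4 ⟨a.2.2.2, h3⟩)) := by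
    apply Subtype.ext
    simp [i1, i2, i3, i4, LinearMap.codRestrict_apply]
  rw [e, map_add, map_add, map_add]
  simp only [Submodule.coe_add, Pi.add_apply, map_add]
  rw [← LinearMap.comp_apply, bzero_tuple, ← LinearMap.comp_apply, bzero_tuple,
    ← LinearMap.comp_apply, bzero_tuple, ← LinearMap.comp_apply, bzero_tuple, add_zero, add_zero,
    add_zero]

lemma no_retraction {m : ℕ} (S : C3 k (m + 1) →ₗ[TT k] C4 k (m + 1)) :
    ¬ ∀ a, S ((E4 (Ln k (m + 1))).restrict (fun _ => E4_mem (Ln k (m + 1))) a) = a := by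
  intro h
  set a : C4 k (m + 1) := ⟨fun _ => uvec 4, mem_colT.2 fun _ => uvec_mem 4⟩
  have h1 := bzero_C3 S ((E4 (Ln k (m + 1))).restrict (fun _ => E4_mem (Ln k (m + 1))) a) 4 0
  rw [h a] at h1
  change bOut 4 (uvec 4) = 0 at h1
  rw [uvec, bOut_bIn, if_pos rfl] at h1
  exact one_ne_zero h1

/-- The exact projective dimension of each test module, from the zero module upward. -/
lemma pd_MM : ∀ m : ℕ, PD (TT k) (2 * m + 5) (MM k (m + 1)) ∧
    ¬ PD (TT k) (2 * m + 4) (MM k (m + 1)) := by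
  have up : ∀ (m p : ℕ), 2 ≤ p → PD (TT k) (p + 1) (MM k m) →
      PD (TT k) (p + 3) (MM k (m + 1)) := by
    intro m p hp hM
    have h3 : PD (TT k) 2 (R3 k (m + 1)) :=
      ses4.pd₃ (pd_of_projective le_rfl) (pd_of_projective (by omega))
    have h2 : PD (TT k) 3 (R2 k (m + 1)) :=
      ses3.pd₃ h3 (pd_of_projective (by omega))
    have hZ : PD (TT k) (p + 1) (Z1 k (m + 1)) := ses2.pd₂ (pd_mono (by omega) h2) hM
    have h1 : PD (TT k) (p + 2) (R1 k (m + 1)) := ses1.pd₃ hZ (pd_of_projective (by omega))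
    have hK : PD (TT k) (p + 2) (K0 k (m + 1)) := ses0.pd₂ h1 (pd_mono (by omega) hM)
    exact sesM.pd₃ hK (pd_of_projective (by omega))
  intro m
  induction m with
  | zero =>
    have : Subsingleton (MM k 0) := ⟨fun x y => funext fun v => funext fun l => l.elim0⟩
    refine ⟨up 0 2 le_rfl (pd_of_subsingleton _), fun hM => ?_⟩
    have hK : PD (TT k) 3 (K0 k 1) := sesM.pd₁ (pd_of_projective (by omega)) hM
    have h1 : PD (TT k) 3 (R1 k 1) := ses0.pd₁ hK (pd_of_subsingleton _)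
    have hZ : PD (TT k) 2 (Z1 k 1) := ses1.pd₁ (pd_of_projective (by omega)) h1
    have h2 : PD (TT k) 2 (R2 k 1) := ses2.pd₁ hZ (pd_of_subsingleton _)
    have h3 : PD (TT k) 1 (R3 k 1) := ses3.pd₁ (pd_of_projective le_rfl) h2
    have : Module.Projective (TT k) ((C3 k 1).map (E3 (Ln k 1))) := projective_of_pd_one h3
    obtain ⟨S, hS⟩ := (ses4 (k := k) (n := 1)).retraction
    exact no_retraction S hS
  | succ m ih =>
    obtain ⟨hM, hM'⟩ := ih
    refine ⟨up (m + 1) (2 * m + 4) (by omega) hM, fun h => hM' ?_⟩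
    have h3 : PD (TT k) 2 (R3 k (m + 2)) :=
      ses4.pd₃ (pd_of_projective le_rfl) (pd_of_projective (by omega))
    have h2 : PD (TT k) 3 (R2 k (m + 2)) :=
      ses3.pd₃ h3 (pd_of_projective (by omega))
    have hK : PD (TT k) (2 * m + 5) (K0 k (m + 2)) := sesM.pd₁ (pd_of_projective (by omega)) h
    have h1 : PD (TT k) (2 * m + 5) (R1 k (m + 2)) := ses0.pd₁ hK (pd_mono (by omega) hM)
    have hZ : PD (TT k) (2 * m + 4) (Z1 k (m + 2)) := ses1.pd₁ (pd_of_projective (by omega)) h1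
    exact ses2.pd₃ (n := 2 * m + 3) (pd_mono (by omega) h2) hZ

instance MM_finite_TT (n : ℕ) : Module.Finite (TT k) (MM k n) :=
  Module.Finite.of_restrictScalars_finite k (TT k) (MM k n)

end Vale.Agent.P176
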