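import Vale.Agent.P176.Complex
import Mathlib.Algebra.CharZero.Defs
import Mathlib.Tactic.FieldSimp

/-!
Exactness of the twisted complexes on polynomial tuples.
-/

namespace Vale.Agent.P176

open MvPolynomial

/-- A representation of `gl₂` on `k^m` with scalar central element. -/
structure LRep (k : Type) [Field k] (m : ℕ) where
  r : GRep (Module.End k (Fin m → k))
  hz : r.z = 1
  c : k
  hn : r.n = c • (1 : Module.End k (Fin m → k))

variable {k : Type} [Field k] {m : ℕ}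

/-- The twisted right representation on tuples of polynomials. -/
noncomputable def Qm (L : LRep k m) : GRep (Module.End k (Fin m → Pol k)) :=
  tw (rightRep k) L.r L.hz

/-- Tuples of N-free homogeneous polynomials. -/
noncomputable def Lv (k : Type) [Field k] (m : ℕ) (i : ℤ) : Submodule k (Fin m → Pol k) :=
  Submodule.pi Set.univ (fun _ => Pd k i ⊓ Nf k)

/-- Tuples of homogeneous polynomials. -/
noncomputable def Full (k : Type) [Field k] (m : ℕ) (i : ℤ) : Submodule k (Fin m → Pol k) :=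
  Submodule.pi Set.univ (fun _ => Pd k i)

/-- Triples. -/
noncomputable def tri {M : Type*} [AddCommGroup M] [Module k M] (S : Submodule k M) :
    Submodule k (M × M × M) := S.prod (S.prod S)

lemma mem_tri {M : Type*} [AddCommGroup M] [Module k M] {S : Submodule k M} {s : M × M × M} :
    s ∈ tri S ↔ s.1 ∈ S ∧ s.2.1 ∈ S ∧ s.2.2 ∈ S := by simp [tri, Submodule.mem_prod]

lemma mem_Lv {φ : Fin m → Pol k} {i : ℤ} :
    φ ∈ Lv k m i ↔ ∀ l, φ l ∈ Pd k i ∧ φ l ∈ Nf k := by simp [Lv, Submodule.mem_pi]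

lemma mem_Full {φ : Fin m → Pol k} {i : ℤ} : φ ∈ Full k m i ↔ ∀ l, φ l ∈ Pd k i := by
  simp [Full, Submodule.mem_pi]

lemma Lv_le_Full (i : ℤ) : Lv k m i ≤ Full k m i :=
  fun _ h => mem_Full.2 fun l => (mem_Lv.1 h l).1

lemma Lv_neg {φ : Fin m → Pol k} {i : ℤ} (hi : i < 0) (h : φ ∈ Lv k m i) : φ = 0 := by
  funext l
  have := (mem_Lv.1 h l).1
  rwa [Pd_neg hi, Submodule.mem_bot] at this

lemma X4_mul_mem_Pd {p : Pol k} {i : ℤ} (h : p ∈ Pd k i) : X 4 * p ∈ Pd k (i + 1) :=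
  shift_mX 4 i p h

variable (L : LRep k m)

lemma Qm_f (φ : Fin m → Pol k) (l : Fin m) :
    (Qm L).f φ l = rmul k 2 (φ l) - X 4 * lift (Pol k) m L.r.e φ l := by
  show rmul k 2 (φ l) - rmul k 4 _ = _
  rw [rmul_X4]; rfl

lemma Qm_h (φ : Fin m → Pol k) (l : Fin m) :
    (Qm L).h φ l = rmul k 1 (φ l) - X 4 * lift (Pol k) m L.r.h φ l := by
  show rmul k 1 (φ l) - rmul k 4 _ = _
  rw [rmul_X4]; rfl

lemma Qm_e (φ : Fin m → Pol k) (l : Fin m) :
    (Qm L).e φ l = rmul k 0 (φ l) - X 4 * lift (Pol k) m L.r.f φ l := by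
  show rmul k 0 (φ l) - rmul k 4 _ = _
  rw [rmul_X4]; rfl

lemma Qm_z (φ : Fin m → Pol k) (l : Fin m) : (Qm L).z φ l = X 4 * φ l := by
  show rmul k 4 (φ l) = _
  rw [rmul_X4]; rfl

lemma Qm_n (φ : Fin m → Pol k) (l : Fin m) :
    (Qm L).n φ l = (X 3 - C L.c * X 4) * φ l := by
  show rmul k 3 (φ l) - rmul k 4 (lift (Pol k) m L.r.n φ l) = _
  have h : lift (Pol k) m L.r.n φ l = L.c • φ l := by
    simp [lift_apply, L.hn, Pi.single_apply]
  rw [h, rmul_X3, rmul_X4, mX_apply, mX_apply, smul_eq_C_mul]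
  ring

lemma lift_mem {S : Submodule k (Pol k)} (G : Module.End k (Fin m → k)) {φ : Fin m → Pol k}
    (h : ∀ l, φ l ∈ S) (l : Fin m) : lift (Pol k) m G φ l ∈ S := by
  rw [lift_apply]
  exact Submodule.sum_mem _ fun j _ => Submodule.smul_mem _ _ (h j)

lemma op_mem_Lv {i : ℤ} {φ : Fin m → Pol k} (h : φ ∈ Lv k m i) :
    (Qm L).f φ ∈ Lv k m (i + 1) ∧ (Qm L).h φ ∈ Lv k m (i + 1) ∧
      (Qm L).e φ ∈ Lv k m (i + 1) ∧ (Qm L).z φ ∈ Lv k m (i + 1) := by
  have h1 := fun l => (mem_Lv.1 h l).1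
  have h2 := fun l => (mem_Lv.1 h l).2
  have hz4 : ((4 : Fin 5) ≠ 3) := by decide
  refine ⟨mem_Lv.2 fun l => ?_, mem_Lv.2 fun l => ?_, mem_Lv.2 fun l => ?_, mem_Lv.2 fun l => ?_⟩
  · rw [Qm_f]
    exact ⟨Submodule.sub_mem _ (shift_rmul 2 i _ (h1 l)) (X4_mul_mem_Pd (lift_mem _ h1 l)),
      Submodule.sub_mem _ (rmul_Nf (by decide) (h2 l))
        (Nf_mul (X_mem_Nf hz4) (lift_mem _ h2 l))⟩
  · rw [Qm_h]
    exact ⟨Submodule.sub_mem _ (shift_rmul 1 i _ (h1 l)) (X4_mul_mem_Pd (lift_mem _ h1 l)),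
      Submodule.sub_mem _ (rmul_Nf (by decide) (h2 l))
        (Nf_mul (X_mem_Nf hz4) (lift_mem _ h2 l))⟩
  · rw [Qm_e]
    exact ⟨Submodule.sub_mem _ (shift_rmul 0 i _ (h1 l)) (X4_mul_mem_Pd (lift_mem _ h1 l)),
      Submodule.sub_mem _ (rmul_Nf (by decide) (h2 l))
        (Nf_mul (X_mem_Nf hz4) (lift_mem _ h2 l))⟩
  · rw [Qm_z]
    exact ⟨X4_mul_mem_Pd (h1 l), Nf_mul (X_mem_Nf hz4) (h2 l)⟩

lemma d1_mem {i : ℤ} {s : (Fin m → Pol k) × (Fin m → Pol k) × (Fin m → Pol k)}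
    (h : s ∈ tri (Lv k m i)) : d1 (Qm L) s ∈ Lv k m (i + 1) := by
  obtain ⟨a, b, c⟩ := mem_tri.1 h
  exact Submodule.add_mem _ (Submodule.add_mem _ (op_mem_Lv L a).2.2.1 (op_mem_Lv L b).2.1)
    (op_mem_Lv L c).1

lemma d2_mem {i : ℤ} {s : (Fin m → Pol k) × (Fin m → Pol k) × (Fin m → Pol k)}
    (h : s ∈ tri (Lv k m i)) : d2 (Qm L) s ∈ tri (Lv k m (i + 1)) := by
  obtain ⟨a, b, c⟩ := mem_tri.1 h
  obtain ⟨fa, ha, ea, za⟩ := op_mem_Lv L a
  obtain ⟨fb, hb, eb, zb⟩ := op_mem_Lv L b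
  obtain ⟨fc, hc, ec, zc⟩ := op_mem_Lv L c
  refine mem_tri.2 ⟨?_, ?_, ?_⟩
  · exact Submodule.sub_mem _ (Submodule.neg_mem _ (Submodule.add_mem _ ha
      (Submodule.add_mem _ za za))) fb
  · exact Submodule.sub_mem _ (Submodule.add_mem _ ea zb) fc
  · exact Submodule.add_mem _ eb (Submodule.sub_mem _ hc (Submodule.add_mem _ zc zc))

lemma d3_mem {i : ℤ} {t : Fin m → Pol k} (h : t ∈ Lv k m i) :
    d3 (Qm L) t ∈ tri (Lv k m (i + 1)) :=
  mem_tri.2 ⟨(op_mem_Lv L h).1, Submodule.neg_mem _ (op_mem_Lv L h).2.1, (op_mem_Lv L h).2.2.1⟩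

/-- Partial derivative on tuples. -/
noncomputable def pd (i : Fin 5) : Module.End k (Fin m → Pol k) :=
  (dX i).compLeft (Fin m)

lemma pd_apply (i : Fin 5) (φ : Fin m → Pol k) (l : Fin m) : pd i φ l = pderiv i (φ l) := rfl

lemma pd_mem {i : ℤ} (j : Fin 5) {φ : Fin m → Pol k} (h : φ ∈ Lv k m i) :
    pd j φ ∈ Lv k m (i - 1) :=
  mem_Lv.2 fun l => ⟨shift_dX j i _ (mem_Lv.1 h l).1, Nf_dX j (mem_Lv.1 h l).2⟩

/-- Homotopy. -/
noncomputable def h0 : (Fin m → Pol k) →ₗ[k]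
    (Fin m → Pol k) × (Fin m → Pol k) × (Fin m → Pol k) := (pd 0).prod ((pd 1).prod (pd 2))

/-- Homotopy. -/
noncomputable def h1 (s : (Fin m → Pol k) × (Fin m → Pol k) × (Fin m → Pol k)) :
    (Fin m → Pol k) × (Fin m → Pol k) × (Fin m → Pol k) :=
  (pd 0 s.2.1 - pd 1 s.1, pd 0 s.2.2 - pd 2 s.1, pd 1 s.2.2 - pd 2 s.2.1)

/-- Homotopy. -/
noncomputable def h2 (s : (Fin m → Pol k) × (Fin m → Pol k) × (Fin m → Pol k)) :
    Fin m → Pol k := pd 2 s.1 - pd 1 s.2.1 + pd 0 s.2.2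

/-- Setting z to zero. -/
noncomputable def red : Pol k →ₐ[k] Pol k := aeval (Function.update X 4 0)

lemma red_X (i : Fin 5) : red (X i : Pol k) = if i = 4 then 0 else X i := by
  rw [red, aeval_X, Function.update_apply]

lemma dvd_of_red {p : Pol k} (h : red p = 0) : (X 4 : Pol k) ∣ p := by
  have key : ∀ q : Pol k, (X 4 : Pol k) ∣ q - red q := by
    intro q
    induction q using MvPolynomial.induction_on with
    | C a => simp
    | add p q hp hq => rw [map_add]; convert dvd_add hp hq using 1; ring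
    | mul_X p j hp =>
      rw [map_mul, red_X]
      split_ifs with hj
      · subst hj; exact ⟨p, by ring⟩
      · convert hp.mul_right (X j) using 1; ring
  simpa [h] using key p

lemma red_dvd {p : Pol k} (h : (X 4 : Pol k) ∣ p) : red p = 0 := by
  obtain ⟨q, rfl⟩ := h
  simp [red_X]

lemma red_pderiv {i : Fin 5} (hi : i ≠ 4) (p : Pol k) :
    red (pderiv i p) = pderiv i (red p) := by
  induction p using MvPolynomial.induction_on with
  | C a => simp
  | add p q hp hq => simp [hp, hq]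
  | mul_X p j hp =>
    simp only [Derivation.leibniz, smul_eq_mul, map_add, map_mul red, hp]
    by_cases hj : j = 4
    · subst hj; simp [red_X, pderiv_X_of_ne hi.symm]
    · by_cases hji : j = i
      · subst hji; simp [red_X, hj]
      · simp [red_X, hj, pderiv_X_of_ne hji]

lemma red_rmul (i : Fin 5) (p : Pol k) : red (rmul k i p) = red p * red (X i) := by
  have := red_dvd (cong_rmul i p)
  rwa [map_sub, map_mul, sub_eq_zero] at this

lemma red_f (φ : Fin m → Pol k) (l : Fin m) : red ((Qm L).f φ l) = X 2 * red (φ l) := by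
  rw [Qm_f]; simp [red_rmul, red_X]; ring

lemma red_h (φ : Fin m → Pol k) (l : Fin m) : red ((Qm L).h φ l) = X 1 * red (φ l) := by
  rw [Qm_h]; simp [red_rmul, red_X]; ring

lemma red_e (φ : Fin m → Pol k) (l : Fin m) : red ((Qm L).e φ l) = X 0 * red (φ l) := by
  rw [Qm_e]; simp [red_rmul, red_X]; ring

lemma red_z (φ : Fin m → Pol k) (l : Fin m) : red ((Qm L).z φ l) = 0 := by
  rw [Qm_z]; simp [red_X]

lemma pderiv3_Nf {p : Pol k} (hp : p ∈ Nf k) : pderiv 3 p = 0 := by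
  have := Nf_map (L := dX 3) (S := (⊥ : Submodule k (Pol k))) (fun a b c g => ?_) hp
  · exact Submodule.mem_bot k |>.1 this
  rw [Submodule.mem_bot]
  show pderiv 3 (mon k a b c 0 g) = 0
  rw [pderiv_mon]; simp

lemma euler3 {i : ℤ} {p : Pol k} (hp : p ∈ Pd k i) (hn : p ∈ Nf k) :
    X 0 * pderiv 0 (red p) + X 1 * pderiv 1 (red p) + X 2 * pderiv 2 (red p)
      = C (i : k) * red p := by
  have h := congrArg red (euler hp)
  simp only [pderiv3_Nf hn, mul_zero, add_zero, map_add, map_mul, red_X, smul_eq_C_mul] at h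
  rw [← red_pderiv (by decide) p, ← red_pderiv (by decide) p, ← red_pderiv (by decide) p]
  simpa [red] using h

lemma zero_or_zdiv {i : ℤ} {φ : Fin m → Pol k} (h : φ ∈ Lv k m i)
    (hr : ∀ l, red (φ l) = 0) : ∃ φ' ∈ Lv k m (i - 1), (Qm L).z φ' = φ := by
  choose w hw using fun l => dvd_of_red (hr l)
  refine ⟨w, mem_Lv.2 fun l => ⟨?_, ?_⟩, funext fun l => by rw [Qm_z, ← hw]⟩
  · exact of_z_mul_mem_Pd (hw l ▸ (mem_Lv.1 h l).1)
  · exact of_z_mul_mem_Nf (hw l ▸ (mem_Lv.1 h l).2)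

lemma tri_zdiv {i : ℤ} {s : (Fin m → Pol k) × (Fin m → Pol k) × (Fin m → Pol k)}
    (h : s ∈ tri (Lv k m i))
    (hr : ∀ l, red (s.1 l) = 0 ∧ red (s.2.1 l) = 0 ∧ red (s.2.2 l) = 0) :
    ∃ s' ∈ tri (Lv k m (i - 1)), map3 (Qm L).z s' = s := by
  obtain ⟨a, b, c⟩ := mem_tri.1 h
  obtain ⟨a', ha, ea⟩ := zero_or_zdiv L a fun l => (hr l).1
  obtain ⟨b', hb, eb⟩ := zero_or_zdiv L b fun l => (hr l).2.1
  obtain ⟨c', hc, ec⟩ := zero_or_zdiv L c fun l => (hr l).2.2
  exact ⟨(a', b', c'), mem_tri.2 ⟨ha, hb, hc⟩, by rw [map3_apply, ea, eb, ec]⟩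

lemma z_inj {φ : Fin m → Pol k} (h : (Qm L).z φ = 0) : φ = 0 := by
  funext l
  have := congrFun h l
  rw [Qm_z] at this
  simpa using this

lemma map3_z_inj {s : (Fin m → Pol k) × (Fin m → Pol k) × (Fin m → Pol k)}
    (h : map3 (Qm L).z s = 0) : s = 0 := by
  simp only [map3_apply, Prod.mk_eq_zero] at h
  exact Prod.ext (z_inj L h.1) (Prod.ext (z_inj L h.2.1) (z_inj L h.2.2))

lemma zind {P : ℤ → Prop} (neg : ∀ i < 0, P i) (step : ∀ i, 0 ≤ i → P (i - 1) → P i) :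
    ∀ i, P i := by
  suffices ∀ n : ℕ, ∀ i < (n : ℤ), P i from fun i => this (i.toNat + 1) i (by omega)
  intro n
  induction n with
  | zero => intro i hi; exact neg i (by simpa using hi)
  | succ n ih =>
    intro i hi
    by_cases h : i < n
    · exact ih i h
    · exact step i (by omega) (ih (i - 1) (by omega))

variable [CharZero k]

lemma ne_zero_cast {i : ℤ} (hi : 0 ≤ i) {j : ℕ} (hj : 0 < j) : (i : k) + (j : k) ≠ 0 := by
  intro h
  have h2 : ((i + j : ℤ) : k) = 0 := by push_cast; exact h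
  have := Int.cast_eq_zero.1 h2
  omega

lemma ex1 : ∀ i, ∀ s ∈ tri (Lv k m i), d1 (Qm L) s = 0 →
    ∃ y ∈ tri (Lv k m (i - 1)), d2 (Qm L) y = s := by
  refine zind ?_ ?_
  · intro i hi s hs _
    obtain ⟨a, b, c⟩ := mem_tri.1 hs
    refine ⟨0, Submodule.zero_mem _, ?_⟩
    rw [map_zero]
    exact (Prod.ext (Lv_neg hi a) (Prod.ext (Lv_neg hi b) (Lv_neg hi c))).symm
  · intro i hi ih s hs hd
    obtain ⟨ha, hb, hc⟩ := mem_tri.1 hs
    have hu : (i : k) + 1 ≠ 0 := by simpa using ne_zero_cast (k := k) hi (j := 1) one_pos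
    have hh : h1 s ∈ tri (Lv k m (i - 1)) := mem_tri.2
      ⟨Submodule.sub_mem _ (pd_mem 0 hb) (pd_mem 1 ha),
       Submodule.sub_mem _ (pd_mem 0 hc) (pd_mem 2 ha),
       Submodule.sub_mem _ (pd_mem 1 hc) (pd_mem 2 hb)⟩
    have hdh : d2 (Qm L) (h1 s) ∈ tri (Lv k m i) := by simpa using d2_mem L hh
    set r := s - ((i : k) + 1)⁻¹ • d2 (Qm L) (h1 s) with hr
    have hrm : r ∈ tri (Lv k m i) := Submodule.sub_mem _ hs (Submodule.smul_mem _ _ hdh)
    have hred : ∀ l, red (r.1 l) = 0 ∧ red (r.2.1 l) = 0 ∧ red (r.2.2 l) = 0 := by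
      intro l
      have hd' := congrArg (fun p => red (p l)) hd
      simp only [d1, LinearMap.coe_mk, AddHom.coe_mk, Pi.add_apply, map_add, red_e, red_h, red_f,
        Pi.zero_apply, map_zero] at hd'
      have d0 := congrArg (pderiv (0 : Fin 5)) hd'
      have d1' := congrArg (pderiv (1 : Fin 5)) hd'
      have d2' := congrArg (pderiv (2 : Fin 5)) hd'
      simp only [map_add, map_zero, Derivation.leibniz, smul_eq_mul, pderiv_X, ne_eq,
        Fin.reduceEq, not_false_eq_true, Pi.single_eq_of_ne, Pi.single_eq_same,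
        mul_zero, add_zero, mul_one] at d0 d1' d2'
      have ea := euler3 (mem_Lv.1 ha l).1 (mem_Lv.1 ha l).2
      have eb := euler3 (mem_Lv.1 hb l).1 (mem_Lv.1 hb l).2
      have ec := euler3 (mem_Lv.1 hc l).1 (mem_Lv.1 hc l).2
      have hC : (C ((i : k) + 1)⁻¹ : Pol k) * (C (i : k) + 1) = 1 := by
        rw [← map_one C, ← map_add, ← map_mul, inv_mul_cancel₀ hu]
      simp only [hr, d2, h1, LinearMap.coe_mk, AddHom.coe_mk, Prod.fst_sub, Prod.snd_sub,
        Prod.smul_fst, Prod.smul_snd, Pi.sub_apply, Pi.smul_apply, Pi.neg_apply, Pi.add_apply,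
        map_sub, map_add, map_neg, smul_eq_C_mul, map_mul, red_e, red_h, red_f, red_z, pd_apply,
        red_pderiv (show (0 : Fin 5) ≠ 4 by decide), red_pderiv (show (1 : Fin 5) ≠ 4 by decide),
        red_pderiv (show (2 : Fin 5) ≠ 4 by decide)]
      have hredC : ∀ x : k, red (C x : Pol k) = C x := fun x => by simp [red]
      simp only [hredC]
      set q := (C ((i : k) + 1)⁻¹ : Pol k)
      refine ⟨?_, ?_, ?_⟩
      · linear_combination (-(red (s.1 l))) * hC + q * d0 - q * ea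
      · linear_combination (-(red (s.2.1 l))) * hC + q * d1' - q * eb
      · linear_combination (-(red (s.2.2 l))) * hC + q * d2' - q * ec
    obtain ⟨r', hr', er⟩ := tri_zdiv L hrm hred
    have hdr : d1 (Qm L) r' = 0 := z_inj L (by
      rw [(inter_z (Qm L)).d1, er, hr, map_sub, map_smul, d1_d2, hd, smul_zero, sub_zero])
    obtain ⟨y', hy', ey⟩ := ih r' hr' hdr
    refine ⟨((i : k) + 1)⁻¹ • h1 s + map3 (Qm L).z y',
      Submodule.add_mem _ (Submodule.smul_mem _ _ hh) ?_, ?_⟩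
    · obtain ⟨a, b, c⟩ := mem_tri.1 hy'
      have za := (op_mem_Lv L a).2.2.2
      have zb := (op_mem_Lv L b).2.2.2
      have zc := (op_mem_Lv L c).2.2.2
      rw [sub_add_cancel] at za zb zc
      exact mem_tri.2 ⟨za, zb, zc⟩
    · rw [map_add, map_smul, ← (inter_z (Qm L)).d2, ey, er, hr]
      abel

lemma ex2 : ∀ i, ∀ s ∈ tri (Lv k m i), d2 (Qm L) s = 0 →
    ∃ y ∈ Lv k m (i - 1), d3 (Qm L) y = s := by
  refine zind ?_ ?_
  · intro i hi s hs _
    obtain ⟨a, b, c⟩ := mem_tri.1 hs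
    refine ⟨0, Submodule.zero_mem _, ?_⟩
    rw [map_zero]
    exact (Prod.ext (Lv_neg hi a) (Prod.ext (Lv_neg hi b) (Lv_neg hi c))).symm
  · intro i hi ih s hs hd
    obtain ⟨ha, hb, hc⟩ := mem_tri.1 hs
    have hu : (i : k) + 2 ≠ 0 := by simpa using ne_zero_cast (k := k) hi (j := 2) two_pos
    have hh : h2 s ∈ Lv k m (i - 1) :=
      Submodule.add_mem _ (Submodule.sub_mem _ (pd_mem 2 ha) (pd_mem 1 hb)) (pd_mem 0 hc)
    have hdh : d3 (Qm L) (h2 s) ∈ tri (Lv k m i) := by simpa using d3_mem L hh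
    set r := s - ((i : k) + 2)⁻¹ • d3 (Qm L) (h2 s) with hr
    have hrm : r ∈ tri (Lv k m i) := Submodule.sub_mem _ hs (Submodule.smul_mem _ _ hdh)
    have hred : ∀ l, red (r.1 l) = 0 ∧ red (r.2.1 l) = 0 ∧ red (r.2.2 l) = 0 := by
      intro l
      have hA := congrArg (fun p => red (p.1 l)) hd
      have hB := congrArg (fun p => red (p.2.1 l)) hd
      have hC' := congrArg (fun p => red (p.2.2 l)) hd
      simp only [d2, LinearMap.coe_mk, AddHom.coe_mk, Pi.add_apply, Pi.sub_apply, Pi.neg_apply,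
        map_add, map_sub, map_neg, red_e, red_h, red_f, red_z, Prod.fst_zero, Prod.snd_zero,
        Pi.zero_apply, map_zero, add_zero, sub_zero] at hA hB hC'
      have dA1 := congrArg (pderiv (1 : Fin 5)) hA
      have dA2 := congrArg (pderiv (2 : Fin 5)) hA
      have dB0 := congrArg (pderiv (0 : Fin 5)) hB
      have dB2 := congrArg (pderiv (2 : Fin 5)) hB
      have dC0 := congrArg (pderiv (0 : Fin 5)) hC'
      have dC1 := congrArg (pderiv (1 : Fin 5)) hC'
      simp only [map_add, map_sub, map_neg, map_zero, Derivation.leibniz, smul_eq_mul, pderiv_X,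
        ne_eq, Fin.reduceEq, not_false_eq_true, Pi.single_eq_of_ne, Pi.single_eq_same,
        mul_zero, add_zero, mul_one] at dA1 dA2 dB0 dB2 dC0 dC1
      have ea := euler3 (mem_Lv.1 ha l).1 (mem_Lv.1 ha l).2
      have eb := euler3 (mem_Lv.1 hb l).1 (mem_Lv.1 hb l).2
      have ec := euler3 (mem_Lv.1 hc l).1 (mem_Lv.1 hc l).2
      have hC : (C ((i : k) + 2)⁻¹ : Pol k) * (C (i : k) + C 2) = 1 := by
        rw [← map_add, ← map_mul, inv_mul_cancel₀ hu, map_one]
      have h2C : (C 2 : Pol k) = 2 := map_ofNat C 2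
      rw [h2C] at hC
      simp only [hr, d3, h2, LinearMap.coe_mk, AddHom.coe_mk, Prod.mk_sub_mk, Prod.mk_add_mk, Prod.fst_sub, Prod.snd_sub,
        Prod.smul_fst, Prod.smul_snd, Pi.sub_apply, Pi.smul_apply, Pi.neg_apply, Pi.add_apply,
        map_sub, map_add, map_neg, smul_eq_C_mul, map_mul, red_e, red_h, red_f, pd_apply,
        red_pderiv (show (0 : Fin 5) ≠ 4 by decide), red_pderiv (show (1 : Fin 5) ≠ 4 by decide),
        red_pderiv (show (2 : Fin 5) ≠ 4 by decide)]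
      have hredC : ∀ x : k, red (C x : Pol k) = C x := fun x => by simp [red]
      simp only [hredC]
      set q := (C ((i : k) + 2)⁻¹ : Pol k)
      refine ⟨?_, ?_, ?_⟩
      · linear_combination (-(red (s.1 l))) * hC + q * dB0 - q * dA1 - q * ea
      · linear_combination (-(red (s.2.1 l))) * hC + q * dC0 - q * dA2 - q * eb
      · linear_combination (-(red (s.2.2 l))) * hC + q * dC1 - q * dB2 - q * ec
    obtain ⟨r', hr', er⟩ := tri_zdiv L hrm hred
    have hdr : d2 (Qm L) r' = 0 := map3_z_inj L (by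
      rw [(inter_z (Qm L)).d2, er, hr, map_sub, map_smul, d2_d3, hd, smul_zero, sub_zero])
    obtain ⟨y', hy', ey⟩ := ih r' hr' hdr
    refine ⟨((i : k) + 2)⁻¹ • h2 s + (Qm L).z y',
      Submodule.add_mem _ (Submodule.smul_mem _ _ hh) ?_, ?_⟩
    · simpa using (op_mem_Lv L hy').2.2.2
    · rw [map_add, map_smul, ← (inter_z (Qm L)).d3, ey, er, hr]
      abel

lemma ex3 : ∀ i, ∀ t ∈ Lv k m i, d3 (Qm L) t = 0 → t = 0 := by
  refine zind (fun i hi t ht _ => Lv_neg hi ht) ?_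
  intro i hi ih t ht hd
  have hu : (i : k) + 3 ≠ 0 := by simpa using ne_zero_cast (k := k) hi (j := 3) (by norm_num)
  have hred : ∀ l, red (t l) = 0 := by
    intro l
    have hA := congrArg (fun p => red (p.1 l)) hd
    have hB := congrArg (fun p => red (p.2.1 l)) hd
    have hC' := congrArg (fun p => red (p.2.2 l)) hd
    simp only [d3, LinearMap.coe_mk, AddHom.coe_mk, Pi.neg_apply, map_neg, red_e, red_h, red_f,
      Prod.fst_zero, Prod.snd_zero, Pi.zero_apply, map_zero] at hA hB hC'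
    have dA := congrArg (pderiv (2 : Fin 5)) hA
    have dB := congrArg (pderiv (1 : Fin 5)) hB
    have dC := congrArg (pderiv (0 : Fin 5)) hC'
    simp only [map_neg, map_zero, Derivation.leibniz, smul_eq_mul, pderiv_X, Pi.single_eq_same,
      mul_one] at dA dB dC
    have et := euler3 (mem_Lv.1 ht l).1 (mem_Lv.1 ht l).2
    have h3 : C ((i : k) + 3) * red (t l) = 0 := by
      rw [map_add, show (C 3 : Pol k) = 3 from map_ofNat C 3]
      linear_combination dA - dB + dC - et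
    exact (mul_eq_zero.1 h3).resolve_left (by rw [C_eq_zero]; exact hu)
  obtain ⟨t', ht', et⟩ := zero_or_zdiv L ht hred
  have hdt : d3 (Qm L) t' = 0 := map3_z_inj L (by rw [(inter_z (Qm L)).d3, et, hd])
  rw [← et, ih t' ht' hdt, map_zero]

omit [CharZero k] in
lemma Pd0_eq {p : Pol k} (hp : p ∈ Pd k 0) : ∃ x : k, p = C x := by
  have := Pd_ind (S := LinearMap.range (Algebra.linearMap k (Pol k))) (fun a b c d g h => ?_) hp
  · obtain ⟨x, hx⟩ := this; exact ⟨x, hx.symm⟩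
  obtain ⟨rfl, rfl, rfl, rfl, rfl⟩ : a = 0 ∧ b = 0 ∧ c = 0 ∧ d = 0 ∧ g = 0 := by omega
  exact ⟨1, by simp [mon]⟩

/-- Evaluation of a tuple at the basis vectors. -/
noncomputable def eps : (Fin m → Pol k) →ₗ[k] (Fin m → k) :=
  ∑ l, (LinearMap.applyₗ (Pi.single l (1 : k)) ∘ₗ L.r.rho) ∘ₗ LinearMap.proj l

omit [CharZero k] in
lemma eps_apply (φ : Fin m → Pol k) : eps L φ = ∑ l, L.r.rho (φ l) (Pi.single l 1) := by
  simp [eps]

omit [CharZero k] in
lemma eps_lift (G : Module.End k (Fin m → k)) (φ : Fin m → Pol k) :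
    eps L (lift (Pol k) m G φ) = ∑ l, L.r.rho (φ l) (G (Pi.single l 1)) := by
  simp only [eps_apply, lift_apply, map_sum, map_smul, LinearMap.sum_apply, LinearMap.smul_apply]
  rw [Finset.sum_comm]
  refine Finset.sum_congr rfl fun j _ => ?_
  conv_rhs => rw [pi_eq_sum_univ' (G (Pi.single j 1)), map_sum]
  simp

omit [CharZero k] in
lemma eps_rmul (i : Fin 5) (φ : Fin m → Pol k) :
    eps L (fun l => rmul k i (φ l)) = eps L (lift (Pol k) m (L.r.gen i) φ) := by
  rw [eps_lift, eps_apply]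
  simp [rho_rmul, Module.End.mul_apply]

omit [CharZero k] in
lemma eps_op (i : Fin 5) (φ : Fin m → Pol k) :
    eps L (fun l => op k i (φ l)) = L.r.gen i (eps L φ) := by
  simp [eps_apply, op, GRep.rho_op, Module.End.mul_apply, map_sum]

omit [CharZero k] in
lemma eps_z (φ : Fin m → Pol k) : eps L ((Qm L).z φ) = eps L φ := by
  simp [eps_apply, Qm_z, GRep.rho_mulX4, L.hz]

omit [CharZero k] in
lemma eps_Qm (φ : Fin m → Pol k) : eps L ((Qm L).f φ) = 0 ∧ eps L ((Qm L).h φ) = 0 ∧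
    eps L ((Qm L).e φ) = 0 ∧ eps L ((Qm L).n φ) = 0 := by
  have key : ∀ (i : Fin 5) (G : Module.End k (Fin m → k)), G = L.r.gen i →
      eps L (fun l => rmul k i (φ l) - X 4 * lift (Pol k) m G φ l) = 0 := by
    intro i G hG
    have h1 := eps_z L (lift (Pol k) m G φ)
    have h2 : (fun l => rmul k i (φ l) - X 4 * lift (Pol k) m G φ l)
        = (fun l => rmul k i (φ l)) - (Qm L).z (lift (Pol k) m G φ) := by
      funext l; rw [Pi.sub_apply, Qm_z]
    rw [h2, map_sub, eps_rmul, h1, hG, sub_self]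
  refine ⟨?_, ?_, ?_, ?_⟩
  · rw [show (Qm L).f φ = _ from funext (Qm_f L φ)]; exact key 2 _ rfl
  · rw [show (Qm L).h φ = _ from funext (Qm_h L φ)]; exact key 1 _ rfl
  · rw [show (Qm L).e φ = _ from funext (Qm_e L φ)]; exact key 0 _ rfl
  · have : (Qm L).n φ = fun l => rmul k 3 (φ l) - X 4 * lift (Pol k) m L.r.n φ l := by
      funext l
      show rmul k 3 (φ l) - rmul k 4 (lift (Pol k) m L.r.n φ l) = _
      rw [rmul_X4]; rfl
    rw [this]; exact key 3 _ rfl

omit [CharZero k] in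
lemma eps_d1 (s : (Fin m → Pol k) × (Fin m → Pol k) × (Fin m → Pol k)) :
    eps L (d1 (Qm L) s) = 0 := by
  simp [d1, (eps_Qm L s.1).2.2.1, (eps_Qm L s.2.1).2.1, (eps_Qm L s.2.2).1]

omit [CharZero k] in
lemma eps_surj {i : ℤ} (hi : 0 ≤ i) (v : Fin m → k) :
    ∃ φ ∈ Lv k m i, eps L φ = v := by
  refine ⟨fun l => v l • mon k 0 0 0 0 i.toNat, mem_Lv.2 fun l => ⟨?_, ?_⟩, ?_⟩
  · refine Submodule.smul_mem _ _ ?_
    convert mon_mem_Pd (k := k) 0 0 0 0 i.toNat using 2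
    omega
  · exact Submodule.smul_mem _ _ (mon_mem_Nf _ _ _ _)
  · simp only [eps_apply, map_smul, GRep.rho_mon, GRep.word, L.hz, LinearMap.smul_apply]
    simp only [pow_zero, one_pow, mul_one, Module.End.one_apply]
    exact (pi_eq_sum_univ' v).symm

lemma ex0 : ∀ i, ∀ φ ∈ Lv k m i, eps L φ = 0 →
    ∃ y ∈ tri (Lv k m (i - 1)), d1 (Qm L) y = φ := by
  refine zind (fun i hi φ hφ _ => ⟨0, Submodule.zero_mem _, by rw [map_zero, Lv_neg hi hφ]⟩) ?_
  intro i hi ih φ hφ he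
  by_cases hi0 : i = 0
  · subst hi0
    refine ⟨0, Submodule.zero_mem _, ?_⟩
    choose x hx using fun l => Pd0_eq (mem_Lv.1 hφ l).1
    have : eps L φ = x := by
      rw [eps_apply]
      conv_rhs => rw [pi_eq_sum_univ' x]
      refine Finset.sum_congr rfl fun l _ => ?_
      rw [hx l, show (C (x l) : Pol k) = x l • (1 : Pol k) by rw [smul_eq_C_mul, mul_one],
        map_smul, GRep.rho_one]
      simp
    rw [map_zero]
    funext l
    rw [hx l, ← this, he]
    simp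
  have hu : (i : k) ≠ 0 := by simpa using hi0
  have hh : h0 φ ∈ tri (Lv k m (i - 1)) := mem_tri.2 ⟨pd_mem 0 hφ, pd_mem 1 hφ, pd_mem 2 hφ⟩
  have hdh : d1 (Qm L) (h0 φ) ∈ Lv k m i := by simpa using d1_mem L hh
  set r := φ - (i : k)⁻¹ • d1 (Qm L) (h0 φ) with hr
  have hrm : r ∈ Lv k m i := Submodule.sub_mem _ hφ (Submodule.smul_mem _ _ hdh)
  have hred : ∀ l, red (r l) = 0 := by
    intro l
    have e := euler3 (mem_Lv.1 hφ l).1 (mem_Lv.1 hφ l).2
    have hC : (C (i : k)⁻¹ : Pol k) * C (i : k) = 1 := by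
      rw [← map_mul, inv_mul_cancel₀ hu, map_one]
    have hredC : ∀ x : k, red (C x : Pol k) = C x := fun x => by simp [red]
    simp only [hr, d1, h0, LinearMap.prod_apply, Function.prod_apply, LinearMap.coe_mk, AddHom.coe_mk,
      Pi.sub_apply, Pi.smul_apply, Pi.add_apply, map_sub, map_add, map_mul, smul_eq_C_mul,
      red_e, red_h, red_f, pd_apply, hredC,
      red_pderiv (show (0 : Fin 5) ≠ 4 by decide), red_pderiv (show (1 : Fin 5) ≠ 4 by decide),
      red_pderiv (show (2 : Fin 5) ≠ 4 by decide)]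
    linear_combination (-(red (φ l))) * hC - (C (i : k)⁻¹) * e
  obtain ⟨r', hr', er⟩ := zero_or_zdiv L hrm hred
  have her : eps L r' = 0 := by
    rw [← eps_z L r', er, hr, map_sub, map_smul, eps_d1, he, smul_zero, sub_zero]
  obtain ⟨y', hy', ey⟩ := ih r' hr' her
  refine ⟨(i : k)⁻¹ • h0 φ + map3 (Qm L).z y',
    Submodule.add_mem _ (Submodule.smul_mem _ _ hh) ?_, ?_⟩
  · obtain ⟨a, b, c⟩ := mem_tri.1 hy'
    have za := (op_mem_Lv L a).2.2.2
    have zb := (op_mem_Lv L b).2.2.2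
    have zc := (op_mem_Lv L c).2.2.2
    rw [sub_add_cancel] at za zb zc
    exact mem_tri.2 ⟨za, zb, zc⟩
  · rw [map_add, map_smul, ← (inter_z (Qm L)).d1, ey, er, hr]
    abel

end Vale.Agent.P176
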