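import Vale.Agent.P176.Pairs

/-!
The representations `L(n)` and the linear algebra of the intertwiner on them.
-/

namespace Vale.Agent.P176

variable {k : Type} [Field k]

/-- Component with default zero. -/
def get {n : ℕ} (v : Fin n → k) (i : ℕ) : k := if h : i < n then v ⟨i, h⟩ else 0

lemma get_of_lt {n : ℕ} (v : Fin n → k) {i : ℕ} (h : i < n) : get v i = v ⟨i, h⟩ := dif_pos h

lemma get_fin {n : ℕ} (v : Fin n → k) (i : Fin n) : get v i = v i := get_of_lt v i.2

lemma get_of_ge {n : ℕ} (v : Fin n → k) {i : ℕ} (h : n ≤ i) : get v i = 0 := dif_neg (by omega)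

/-- Action of f. -/
def fAct (k : Type) [Field k] (n : ℕ) : Module.End k (Fin n → k) where
  toFun v i := if (i : ℕ) = 0 then 0 else get v ((i : ℕ) - 1)
  map_add' u v := by ext i; simp only [get, Pi.add_apply]; split_ifs <;> simp
  map_smul' c v := by ext i; simp only [get, Pi.smul_apply]; split_ifs <;> simp

/-- Action of h. -/
def hAct (k : Type) [Field k] (n : ℕ) : Module.End k (Fin n → k) where
  toFun v i := ((n : k) - 1 - 2 * (i : ℕ)) * v i
  map_add' u v := by ext i; simp [mul_add]
  map_smul' c v := by ext i; simp [mul_left_comm]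

/-- Action of e. -/
def eAct (k : Type) [Field k] (n : ℕ) : Module.End k (Fin n → k) where
  toFun v i := ((i : ℕ) + 1) * ((n : k) - 1 - (i : ℕ)) * get v ((i : ℕ) + 1)
  map_add' u v := by ext i; simp only [get, Pi.add_apply]; split_ifs <;> simp [mul_add]
  map_smul' c v := by
    ext i; simp only [get, Pi.smul_apply, smul_eq_mul, RingHom.id_apply]; split_ifs <;> ring

lemma fAct_zero {n : ℕ} (v : Fin n → k) {i : Fin n} (h : (i : ℕ) = 0) : fAct k n v i = 0 :=
  if_pos h

lemma fAct_succ {n : ℕ} (v : Fin n → k) {i : Fin n} {j : ℕ} (h : (i : ℕ) = j + 1) :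
    fAct k n v i = get v j := by
  show (if (i : ℕ) = 0 then 0 else get v ((i : ℕ) - 1)) = _
  rw [if_neg (by omega), h, Nat.add_sub_cancel]

lemma hAct_apply {n : ℕ} (v : Fin n → k) (i : Fin n) :
    hAct k n v i = ((n : k) - 1 - 2 * (i : ℕ)) * v i := rfl

lemma eAct_apply {n : ℕ} (v : Fin n → k) (i : Fin n) :
    eAct k n v i = ((i : ℕ) + 1) * ((n : k) - 1 - (i : ℕ)) * get v ((i : ℕ) + 1) := rfl

/-- The representation `L(n)` with central element n. -/
def Ln (k : Type) [Field k] (n : ℕ) : LRep k n where
  r :=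
    { f := fAct k n
      h := hAct k n
      e := eAct k n
      n := (n : k) • 1
      z := 1
      hf := by
        refine LinearMap.ext fun v => funext fun i => ?_
        simp only [Module.End.mul_apply, LinearMap.sub_apply, LinearMap.add_apply,
          Module.End.one_apply, Pi.sub_apply, Pi.add_apply]
        rw [hAct_apply]
        rcases hj : (i : ℕ) with _ | j
        · rw [fAct_zero _ hj, fAct_zero _ hj]; ring
        · rw [fAct_succ _ hj, fAct_succ _ hj, get_of_lt _ (by omega : j < n),
            get_of_lt _ (by omega : j < n), hAct_apply]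
          push_cast; ring
      he := by
        refine LinearMap.ext fun v => funext fun i => ?_
        simp only [Module.End.mul_apply, LinearMap.add_apply, Module.End.one_apply, Pi.add_apply]
        rw [hAct_apply, eAct_apply, eAct_apply]
        by_cases hj : (i : ℕ) + 1 < n
        · rw [get_of_lt _ hj, get_of_lt _ hj, hAct_apply]
          push_cast; ring
        · rw [get_of_ge _ (by omega), get_of_ge _ (by omega)]; ring
      ef := by
        refine LinearMap.ext fun v => funext fun i => ?_
        simp only [Module.End.mul_apply, LinearMap.add_apply, Module.End.one_apply, Pi.add_apply]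
        rw [eAct_apply, hAct_apply]
        have e1 : ((n : k) - 1 - (i : ℕ)) * get (fAct k n v) ((i : ℕ) + 1)
            = ((n : k) - 1 - (i : ℕ)) * v i := by
          by_cases hj : (i : ℕ) + 1 < n
          · rw [get_of_lt _ hj, fAct_succ v (j := (i : ℕ)) rfl, get_fin]
          · have : (n : k) = (i : ℕ) + 1 := by
              have := i.2
              have h2 : ((n : ℕ) : k) = (((i : ℕ) + 1 : ℕ) : k) := congrArg _ (by omega)
              push_cast at h2
              exact h2
            rw [this]; ring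
        rcases hj : (i : ℕ) with _ | j
        · rw [fAct_zero _ hj]
          rw [hj] at e1
          push_cast at e1 ⊢
          linear_combination e1
        · rw [fAct_succ _ hj, get_of_lt _ (by omega : j < n), eAct_apply]
          have hi : get v (j + 1) = v i := by rw [← hj, get_fin]
          rw [hi]
          rw [hj] at e1
          push_cast at e1 ⊢
          linear_combination ((j : k) + 2) * e1
      zf := by rw [one_mul, mul_one]
      zh := by rw [one_mul, mul_one]
      ze := by rw [one_mul, mul_one]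
      zn := by rw [one_mul, mul_one]
      nf := by rw [smul_mul_assoc, one_mul, mul_smul_comm, mul_one]
      nh := by rw [smul_mul_assoc, one_mul, mul_smul_comm, mul_one]
      ne := by rw [smul_mul_assoc, one_mul, mul_smul_comm, mul_one] }
  hz := rfl
  c := (n : k)
  hn := rfl

/-- Pairs of vectors. -/
abbrev VW (k : Type) [Field k] (n : ℕ) := (Fin n → k) × (Fin n → k)

/-- Cokernel map of the intertwiner. -/
def piMap (k : Type) [Field k] (n : ℕ) : VW k (n + 1) →ₗ[k] (Fin n → k) where
  toFun x i := x.2 i.castSucc - ((i : ℕ) + 1) * x.1 i.succ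
  map_add' x y := by ext i; simp [mul_add]; ring
  map_smul' c x := by ext i; simp [mul_sub, mul_left_comm]

/-- Left inverse of the kernel map of the intertwiner. -/
def kappa (k : Type) [Field k] (n : ℕ) : VW k (n + 1) →ₗ[k] (Fin n → k) where
  toFun x i := x.1 i.succ
  map_add' x y := rfl
  map_smul' c x := rfl

/-- The kernel map of the intertwiner. -/
def iota (k : Type) [Field k] (n : ℕ) (c : Fin n → k) : VW k (n + 1) :=
  (fun i => if (i : ℕ) = 0 then 0 else get c ((i : ℕ) - 1),
   fun i => -((n : k) - (i : ℕ)) * get c (i : ℕ))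

lemma LV_fst {n : ℕ} (x : VW k (n + 1)) (i : Fin (n + 1)) :
    (LV (Ln k (n + 1)) x).1 i
      = 2 * (((n : k) + 1 - (i : ℕ)) * x.1 i) + 2 * fAct k (n + 1) x.2 i := by
  show (hAct k (n + 1) x.1 i + x.1 i + ((n + 1 : ℕ) : k) • x.1 i)
    + (fAct k (n + 1) x.2 i + fAct k (n + 1) x.2 i) = _
  rw [hAct_apply, smul_eq_mul]; push_cast; ring

lemma LV_snd {n : ℕ} (x : VW k (n + 1)) (i : Fin (n + 1)) :
    (LV (Ln k (n + 1)) x).2 i
      = 2 * (((i : ℕ) + 1) * (((n : k) - (i : ℕ)) * get x.1 ((i : ℕ) + 1) + x.2 i)) := by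
  show (eAct k (n + 1) x.1 i + eAct k (n + 1) x.1 i)
    + (x.2 i - hAct k (n + 1) x.2 i + ((n + 1 : ℕ) : k) • x.2 i) = _
  rw [hAct_apply, eAct_apply, smul_eq_mul]; push_cast; ring

lemma piMap_LV {n : ℕ} (x : VW k (n + 1)) : piMap k n (LV (Ln k (n + 1)) x) = 0 := by
  funext i
  show (LV (Ln k (n + 1)) x).2 i.castSucc - ((i : ℕ) + 1) * (LV (Ln k (n + 1)) x).1 i.succ = 0
  rw [LV_fst, LV_snd, fAct_succ _ (Fin.val_succ i), get_of_lt x.1 (by simp),
    get_of_lt x.2 (by omega : (i : ℕ) < n + 1)]
  simp only [Fin.val_castSucc, Fin.val_succ]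
  rw [show (⟨(i : ℕ) + 1, by omega⟩ : Fin (n + 1)) = i.succ from rfl,
    show (⟨(i : ℕ), by omega⟩ : Fin (n + 1)) = i.castSucc from rfl]
  push_cast; ring

lemma piMap_surj {n : ℕ} (c : Fin n → k) : ∃ x, piMap k n x = c := by
  refine ⟨(0, fun i => get c i), funext fun i => ?_⟩
  show get c (i.castSucc : ℕ) - ((i : ℕ) + 1) * (0 : k) = c i
  rw [Fin.val_castSucc, get_fin, mul_zero, sub_zero]

lemma kappa_iota {n : ℕ} (c : Fin n → k) : kappa k n (iota k n c) = c := by
  funext i
  show (if (i.succ : ℕ) = 0 then 0 else get c ((i.succ : ℕ) - 1)) = c i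
  rw [Fin.val_succ, if_neg (by omega), Nat.add_sub_cancel, get_fin]

lemma LV_iota {n : ℕ} (c : Fin n → k) : LV (Ln k (n + 1)) (iota k n c) = 0 := by
  refine Prod.ext (funext fun i => ?_) (funext fun i => ?_)
  · rw [LV_fst]
    rcases hj : (i : ℕ) with _ | j
    · rw [fAct_zero _ hj]
      simp [iota, show i = 0 from Fin.ext hj]
    · rw [fAct_succ _ hj, get_of_lt _ (by omega : j < n + 1)]
      simp only [iota, hj, Nat.succ_ne_zero, if_false, Nat.add_sub_cancel, Prod.fst_zero,
        Pi.zero_apply]
      push_cast; ring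
  · rw [LV_snd]
    by_cases hj : (i : ℕ) + 1 < n + 1
    · rw [get_of_lt _ hj]
      simp only [iota, Nat.succ_ne_zero, if_false, Nat.add_sub_cancel, Prod.snd_zero,
        Pi.zero_apply]
      ring
    · rw [get_of_ge _ (by omega)]
      simp only [iota, get_of_ge c (show n ≤ (i : ℕ) by omega), Prod.snd_zero, Pi.zero_apply]
      ring

variable [CharZero k]

lemma piMap_ker {n : ℕ} (x : VW k (n + 1)) (h : piMap k n x = 0) :
    ∃ y, LV (Ln k (n + 1)) y = x := by
  have hx : ∀ i : Fin n, x.2 i.castSucc = ((i : ℕ) + 1) * x.1 i.succ :=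
    fun i => sub_eq_zero.1 (congrFun h i)
  have hn : (2 : k) * ((n : k) + 1) ≠ 0 := mul_ne_zero two_ne_zero (Nat.cast_add_one_ne_zero n)
  refine ⟨(fun i => if (i : ℕ) = 0 then x.1 0 / (2 * ((n : k) + 1)) else 0,
    fun i => if hi : (i : ℕ) < n then x.1 ⟨(i : ℕ) + 1, by omega⟩ / 2
      else x.2 i / (2 * ((n : k) + 1))), Prod.ext (funext fun i => ?_) (funext fun i => ?_)⟩
  · rw [LV_fst]
    rcases hj : (i : ℕ) with _ | j
    · rw [fAct_zero _ hj]
      simp only [hj, if_true, mul_zero, add_zero, Nat.cast_zero, sub_zero]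
      rw [show i = 0 from Fin.ext hj]
      field_simp
    · rw [fAct_succ _ hj, get_of_lt _ (by omega : j < n + 1)]
      simp only [hj, Nat.succ_ne_zero, if_false, mul_zero, zero_add]
      rw [dif_pos (show j < n by omega)]
      rw [show (⟨j + 1, by omega⟩ : Fin (n + 1)) = i from Fin.ext hj.symm]
      field_simp
  · rw [LV_snd]
    by_cases hj : (i : ℕ) < n
    · rw [get_of_lt _ (by omega : (i : ℕ) + 1 < n + 1)]
      simp only [Nat.succ_ne_zero, if_false, mul_zero, zero_add, dif_pos hj]
      have := hx ⟨i, hj⟩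
      simp only [Fin.castSucc_mk, Fin.succ_mk] at this
      rw [this]
      ring
    · rw [get_of_ge _ (by omega)]
      simp only [mul_zero, zero_add, dif_neg hj]
      rw [show (i : ℕ) = n by omega]
      field_simp

lemma kappa_inj {n : ℕ} (x : VW k (n + 1)) (h : LV (Ln k (n + 1)) x = 0) (hk : kappa k n x = 0) :
    x = 0 := by
  have h1 := fun i => congrFun (congrArg Prod.fst h) i
  have h2 := fun i => congrFun (congrArg Prod.snd h) i
  simp only [LV_fst, LV_snd, Prod.fst_zero, Prod.snd_zero, Pi.zero_apply] at h1 h2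
  have ha : ∀ i : Fin (n + 1), x.1 i = 0 := by
    intro i
    rcases hj : (i : ℕ) with _ | j
    · have := h1 i
      rw [fAct_zero _ hj, hj] at this
      simpa [Nat.cast_add_one_ne_zero n] using this
    · rw [show i = (⟨j, by omega⟩ : Fin n).succ from Fin.ext hj]
      exact congrFun hk _
  refine Prod.ext (funext ha) (funext fun i => ?_)
  have := h2 i
  have e : get x.1 ((i : ℕ) + 1) = 0 := by
    rw [get]; split_ifs with hh
    · exact ha _
    · rfl
  rw [e] at this
  simpa [Nat.cast_add_one_ne_zero (i : ℕ)] using this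

end Vale.Agent.P176
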