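import Vale.Agent.P176.Complexes
import Vale.Agent.P176.Ln

/-!
The test modules and the maps from the complexes onto them.
-/

namespace Vale.Agent.P176

open MvPolynomial

variable {k : Type} [Field k]

/-- Underlying space of the test module. -/
def MM (k : Type) [Field k] (n : ℕ) : Type := Fin 5 → Fin n → k

noncomputable instance mmAddCommGroup (n : ℕ) : AddCommGroup (MM k n) :=
  inferInstanceAs (AddCommGroup (Fin 5 → Fin n → k))

noncomputable instance mmModule (n : ℕ) : Module k (MM k n) :=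
  inferInstanceAs (Module k (Fin 5 → Fin n → k))

instance mmFinite (n : ℕ) : Module.Finite k (MM k n) :=
  inferInstanceAs (Module.Finite k (Fin 5 → Fin n → k))

/-- Component at a vertex. -/
noncomputable def mC (n : ℕ) (v : Fin 5) : MM k n →ₗ[k] (Fin n → k) :=
  LinearMap.proj (R := k) (φ := fun _ : Fin 5 => Fin n → k) v

/-- Inclusion at a vertex. -/
noncomputable def mI (n : ℕ) (v : Fin 5) : (Fin n → k) →ₗ[k] MM k n :=
  LinearMap.single k (fun _ : Fin 5 => Fin n → k) v

lemma mC_mI (n : ℕ) (v w : Fin 5) (x : Fin n → k) :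
    mC n v (mI n w x) = if v = w then x else 0 := by
  show (Pi.single w x : Fin 5 → Fin n → k) v = _
  simp [Pi.single_apply]

lemma mmExt {n : ℕ} {x y : MM k n} (h : ∀ v, mC n v x = mC n v y) : x = y := funext h

/-- Action of the generators on the test module. -/
noncomputable def gM (k : Type) [Field k] (n : ℕ) : Gen → Module.End k (MM k n)
  | .proj v => mI n v ∘ₗ mC n v
  | .arrow i w => mI n w.succ ∘ₗ (Ln k n).r.gen i ∘ₗ mC n w.castSucc
  | .back _ _ => 0

/-- Evaluation onto the test module. -/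
noncomputable def epsM (k : Type) [Field k] (n : ℕ) : TA k n →ₗ[k] MM k n where
  toFun φ := fun v => eps (Ln k n) (bT n v φ)
  map_add' a b := funext fun v => by rw [map_add, map_add]; rfl
  map_smul' r a := funext fun v => by rw [map_smul, map_smul]; rfl

lemma mC_epsM (n : ℕ) (v : Fin 5) (φ : TA k n) : mC n v (epsM k n φ) = eps (Ln k n) (bT n v φ) :=
  rfl

lemma bT_gen {n : ℕ} (v : Fin 5) (s : Gen) (φ : TA k n) :
    bT n v (gT (k := k) s • φ) = fun l => bOut v (genMap k s (φ l)) := rfl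

lemma xT_gen {n : ℕ} (v : Fin 5) (s : Gen) (φ : TA k n) :
    xT n v (gT (k := k) s • φ) = fun l => xOut v (genMap k s (φ l)) := rfl

lemma bT_proj {n : ℕ} (v w : Fin 5) (φ : TA k n) :
    bT n v (gT (k := k) (.proj w) • φ) = if v = w then bT n w φ else 0 := by
  rw [bT_gen]; funext l; rw [bOut_proj]; split_ifs <;> rfl

lemma xT_proj {n : ℕ} (v w : Fin 5) (φ : TA k n) :
    xT n v (gT (k := k) (.proj w) • φ) = if v = w then xT n w φ else 0 := by
  rw [xT_gen]; funext l; rw [xOut_proj]; split_ifs <;> rfl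

lemma bT_arrow {n : ℕ} (v i : Fin 5) (w : Fin 4) (φ : TA k n) :
    bT n v (gT (k := k) (.arrow i w) • φ)
      = if v = w.succ then (fun l => op k i (bT n w.castSucc φ l)) else 0 := by
  rw [bT_gen]; funext l; rw [bOut_arrow]; split_ifs <;> rfl

lemma xT_arrow {n : ℕ} (v i : Fin 5) (w : Fin 4) (φ : TA k n) :
    xT n v (gT (k := k) (.arrow i w) • φ)
      = if v = w.succ then (deltaOp k i).compLeft (Fin n) (xT n w.castSucc φ) else 0 := by
  rw [xT_gen]; funext l; rw [xOut_arrow]; split_ifs <;> rfl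

lemma bT_back {n : ℕ} (v : Fin 5) (u : Fin 4) (w : Fin 2) (φ : TA k n) :
    bT n v (gT (k := k) (.back u w) • φ) = 0 := by
  rw [bT_gen]; funext l; rw [bOut_back]; rfl

lemma xT_back {n : ℕ} (v : Fin 5) (u : Fin 4) (w : Fin 2) (φ : TA k n) :
    xT n v (gT (k := k) (.back u w) • φ)
      = if v = u.castSucc then (piW k w).compLeft (Fin n) (bT n u.succ φ) else 0 := by
  rw [xT_gen]; funext l; rw [xOut_back]; split_ifs <;> rfl

lemma epsM_gen {n : ℕ} (s : Gen) (φ : TA k n) :
    epsM k n (gT (k := k) s • φ) = gM k n s (epsM k n φ) := by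
  refine mmExt fun v => ?_
  cases s with
  | proj w =>
    show _ = mC n v (mI n w (mC n w (epsM k n φ)))
    rw [mC_epsM, mC_mI, mC_epsM, bT_proj]
    split_ifs <;> simp
  | arrow i w =>
    show _ = mC n v (mI n w.succ ((Ln k n).r.gen i (mC n w.castSucc (epsM k n φ))))
    rw [mC_epsM, mC_mI, mC_epsM, bT_arrow]
    split_ifs
    · exact eps_op _ i _
    · simp
  | back u w =>
    show _ = mC n v 0
    rw [mC_epsM, bT_back, map_zero, map_zero]

/-- A section of the evaluation. -/
noncomputable def sM (k : Type) [Field k] (n : ℕ) : MM k n →ₗ[k] TA k n where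
  toFun x := asm (fun v l => mC n v x l • (1 : Pol k)) 0
  map_add' x y := by
    refine taExt (fun v => ?_) (fun v => ?_)
    · rw [map_add, bT_asm, bT_asm, bT_asm]; funext l; simp [add_smul]
    · rw [map_add, xT_asm, xT_asm, xT_asm]; simp
  map_smul' r x := by
    refine taExt (fun v => ?_) (fun v => ?_)
    · rw [RingHom.id_apply, map_smul (bT n v), bT_asm, bT_asm]; funext l; simp [smul_smul]
    · rw [RingHom.id_apply, map_smul (xT n v), xT_asm, xT_asm]; simp

lemma epsM_sM {n : ℕ} (x : MM k n) : epsM k n (sM k n x) = x := by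
  refine mmExt fun v => ?_
  rw [mC_epsM]
  show eps (Ln k n) (fun l => mC n v x l • (1 : Pol k)) = _
  rw [eps_apply]
  simp only [map_smul, GRep.rho_one, LinearMap.smul_apply, Module.End.one_apply]
  exact (pi_eq_sum_univ' (mC n v x)).symm

lemma epsM_descend (n : ℕ) (t : TT k) :
    ∃ e : Module.End k (MM k n), ∀ φ, epsM k n (t • φ) = e (epsM k n φ) := by
  induction t using algInd with
  | hg s => exact ⟨gM k n s, epsM_gen s⟩
  | hc r => exact ⟨r • 1, fun φ => by simp [IsScalarTower.algebraMap_smul]⟩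
  | ha s t hs ht =>
    obtain ⟨e, he⟩ := hs
    obtain ⟨e', he'⟩ := ht
    exact ⟨e + e', fun φ => by rw [add_smul, map_add, he, he']; rfl⟩
  | hm s t hs ht =>
    obtain ⟨e, he⟩ := hs
    obtain ⟨e', he'⟩ := ht
    exact ⟨e * e', fun φ => by rw [mul_smul, he, he']; rfl⟩

/-- Action of the algebra on the test module. -/
noncomputable def actM (k : Type) [Field k] (n : ℕ) (t : TT k) : Module.End k (MM k n) :=
  epsM k n ∘ₗ actT n t ∘ₗ sM k n

lemma actM_spec {n : ℕ} (t : TT k) (φ : TA k n) :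
    actM k n t (epsM k n φ) = epsM k n (t • φ) := by
  obtain ⟨e, he⟩ := epsM_descend n t
  show epsM k n (t • sM k n (epsM k n φ)) = _
  rw [he, he, epsM_sM]

noncomputable instance mmModuleT (n : ℕ) : Module (TT k) (MM k n) where
  smul t x := actM k n t x
  one_smul x := by
    show actM k n 1 x = x
    conv_lhs => rw [← epsM_sM x, actM_spec, one_smul, epsM_sM]
  mul_smul s t x := by
    show actM k n (s * t) x = actM k n s (actM k n t x)
    conv_lhs => rw [← epsM_sM x, actM_spec, mul_smul]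
    conv_rhs => rw [← epsM_sM x, actM_spec, actM_spec]
  smul_zero t := map_zero (actM k n t)
  smul_add t x y := map_add (actM k n t) x y
  add_smul s t x := by
    show actM k n (s + t) x = actM k n s x + actM k n t x
    conv_lhs => rw [← epsM_sM x, actM_spec, add_smul, map_add]
    conv_rhs => rw [← epsM_sM x, actM_spec, actM_spec]
  zero_smul x := by
    show actM k n 0 x = 0
    rw [← epsM_sM x, actM_spec, zero_smul, map_zero]

instance mmTower (n : ℕ) : IsScalarTower k (TT k) (MM k n) where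
  smul_assoc r t x := by
    show actM k n (r • t) x = r • actM k n t x
    conv_lhs => rw [← epsM_sM x, actM_spec, smul_assoc, map_smul]
    conv_rhs => rw [← epsM_sM x, actM_spec]

/-- Evaluation as a module map. -/
noncomputable def epsMT (k : Type) [Field k] (n : ℕ) : TA k n →ₗ[TT k] MM k n where
  toFun := epsM k n
  map_add' := map_add _
  map_smul' t φ := (actM_spec t φ).symm

lemma gM_smul {n : ℕ} (s : Gen) (x : MM k n) : gT (k := k) s • x = gM k n s x := by
  show actM k n (gT s) x = _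
  conv_lhs => rw [← epsM_sM x, actM_spec, epsM_gen, epsM_sM]

/-- Coproduct operators on pairs of vectors. -/
noncomputable def DV (k : Type) [Field k] (m : ℕ) : Fin 5 → Module.End k (VW k (m + 1)) :=
  ![(((Ln k (m + 1)).r.f).coprod 0).prod
      ((1 : Module.End k (Fin (m + 1) → k)).coprod (Ln k (m + 1)).r.f),
    ((Ln k (m + 1)).r.h + 1).prodMap ((Ln k (m + 1)).r.h - 1),
    (((Ln k (m + 1)).r.e).coprod 1).prod
      ((0 : Module.End k (Fin (m + 1) → k)).coprod (Ln k (m + 1)).r.e),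
    -LV (Ln k (m + 1)) + (m : k) • 1,
    1]

lemma eps2_delta {m : ℕ} (i : Fin 5) (φ : PP k (m + 1)) :
    eps2 (Ln k (m + 1)) ((deltaOp k i).compLeft (Fin (m + 1)) φ)
      = DV k m i (eps2 (Ln k (m + 1)) φ) := by
  set L := Ln k (m + 1)
  set a := pf φ
  set b := ps φ
  fin_cases i <;> simp only [Fin.isValue, Fin.zero_eta, Fin.mk_one, Fin.reduceFinMk]
  · have h1 : pf ((deltaOp k 0).compLeft (Fin (m + 1)) φ) = fun l => op k 0 (a l) :=
      funext fun l => by
        show (op k 0 (φ l).1 + 0 : Pol k) = _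
        rw [add_zero]; rfl
    have h2 : ps ((deltaOp k 0).compLeft (Fin (m + 1)) φ)
        = (fun l => op k 4 (a l)) + fun l => op k 0 (b l) := rfl
    show (eps L (pf _), eps L (ps _)) = _
    rw [h1, h2, map_add, eps_op, eps_op, eps_op]
    simp [DV, eps2, GRep.gen, L, (Ln k (m + 1)).hz, a, b]
  · have h1 : pf ((deltaOp k 1).compLeft (Fin (m + 1)) φ)
        = (fun l => op k 1 (a l)) + fun l => op k 4 (a l) := rfl
    have h2 : ps ((deltaOp k 1).compLeft (Fin (m + 1)) φ)
        = (fun l => op k 1 (b l)) - fun l => op k 4 (b l) := rfl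
    show (eps L (pf _), eps L (ps _)) = _
    rw [h1, h2, map_add, map_sub, eps_op, eps_op, eps_op, eps_op]
    simp [DV, eps2, GRep.gen, L, (Ln k (m + 1)).hz, a, b]
  · have h1 : pf ((deltaOp k 2).compLeft (Fin (m + 1)) φ)
        = (fun l => op k 2 (a l)) + fun l => op k 4 (b l) := rfl
    have h2 : ps ((deltaOp k 2).compLeft (Fin (m + 1)) φ) = fun l => op k 2 (b l) :=
      funext fun l => by
        show (0 + op k 2 (φ l).2 : Pol k) = _
        rw [zero_add]; rfl
    show (eps L (pf _), eps L (ps _)) = _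
    rw [h1, h2, map_add, eps_op, eps_op, eps_op]
    simp [DV, eps2, GRep.gen, L, (Ln k (m + 1)).hz, a, b]
  · have h : (deltaOp k 3).compLeft (Fin (m + 1)) φ
        = (Qx L).n φ + (m : k) • (Qx L).z φ := by
      funext l
      show deltaOp k 3 (φ l) = (Qx L).n φ l + (m : k) • dup k (rmul k 4) (φ l)
      rw [Qx_n_apply, deltaOp_n, rmul_X4]
      show _ = -opA k (φ l) - ((m + 1 : ℕ) : k) • (X 4 * (φ l).1, X 4 * (φ l).2)
        + (m : k) • (X 4 * (φ l).1, X 4 * (φ l).2)
      rw [Nat.cast_succ, add_smul, one_smul]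
      abel
    have hz : eps2 L ((Qx L).z φ) = eps2 L φ := by
      show (eps L (pf _), eps L (ps _)) = (eps L a, eps L b)
      rw [(inter_pf L).z, (inter_ps L).z, eps_z, eps_z]
    show eps2 L ((deltaOp k 3).compLeft (Fin (m + 1)) φ) = _
    rw [h, map_add, map_smul, eps2_n, hz]
    simp [DV, L]
  · have h1 : pf ((deltaOp k 4).compLeft (Fin (m + 1)) φ) = fun l => op k 4 (a l) := rfl
    have h2 : ps ((deltaOp k 4).compLeft (Fin (m + 1)) φ) = fun l => op k 4 (b l) := rfl
    show (eps L (pf _), eps L (ps _)) = _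
    rw [h1, h2, eps_op, eps_op]
    simp [DV, eps2, GRep.gen, L, (Ln k (m + 1)).hz, a, b]

lemma piMap_DV {m : ℕ} (i : Fin 5) (y : VW k (m + 1)) :
    piMap k m (DV k m i y) = (Ln k m).r.gen i (piMap k m y) := by
  fin_cases i
  · funext j
    show (y.1 j.castSucc + fAct k (m + 1) y.2 j.castSucc)
        - ((j : ℕ) + 1) * (fAct k (m + 1) y.1 j.succ + 0) = fAct k m (piMap k m y) j
    rw [fAct_succ y.1 (Fin.val_succ j), show get y.1 (j : ℕ) = y.1 j.castSucc from get_fin y.1 j.castSucc]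
    rcases hj : (j : ℕ) with _ | l
    · rw [fAct_zero y.2 (show ((j.castSucc : Fin (m + 1)) : ℕ) = 0 by simpa using hj),
        fAct_zero _ hj]
      push_cast; ring
    · have hl : l < m := by omega
      rw [fAct_succ y.2 (show ((j.castSucc : Fin (m + 1)) : ℕ) = l + 1 by simpa using hj),
        fAct_succ _ hj, get_of_lt _ hl]
      show _ = y.2 (Fin.castSucc ⟨l, hl⟩) - ((l : ℕ) + 1) * y.1 (Fin.succ ⟨l, hl⟩)
      rw [show j.castSucc = (Fin.succ ⟨l, hl⟩ : Fin (m + 1)) from Fin.ext (by simpa using hj)]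
      rw [get_of_lt y.2 (by omega : l < m + 1)]
      simp only [Fin.castSucc_mk]
      push_cast; ring
  · funext j
    show (hAct k (m + 1) y.2 j.castSucc - y.2 j.castSucc)
        - ((j : ℕ) + 1) * (hAct k (m + 1) y.1 j.succ + y.1 j.succ) = hAct k m (piMap k m y) j
    rw [hAct_apply, hAct_apply, hAct_apply]
    show _ = _ * (y.2 j.castSucc - ((j : ℕ) + 1) * y.1 j.succ)
    simp only [Fin.val_castSucc, Fin.val_succ]
    push_cast; ring
  · funext j
    show (0 + eAct k (m + 1) y.2 j.castSucc)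
        - ((j : ℕ) + 1) * (eAct k (m + 1) y.1 j.succ + y.2 j.succ) = eAct k m (piMap k m y) j
    rw [eAct_apply, eAct_apply, eAct_apply]
    simp only [Fin.val_castSucc, Fin.val_succ]
    rw [show get y.2 ((j : ℕ) + 1) = y.2 j.succ from get_fin y.2 j.succ]
    by_cases hj : (j : ℕ) + 1 < m
    · rw [get_of_lt (piMap k m y) hj, get_of_lt y.1 (by omega : (j : ℕ) + 1 + 1 < m + 1)]
      show _ = _ * (y.2 (Fin.castSucc ⟨(j : ℕ) + 1, hj⟩)
        - ((((j : ℕ) + 1 : ℕ) : k) + 1) * y.1 (Fin.succ ⟨(j : ℕ) + 1, hj⟩))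
      rw [show (Fin.castSucc ⟨(j : ℕ) + 1, hj⟩ : Fin (m + 1)) = j.succ from rfl]
      simp only [Fin.succ_mk]
      push_cast; ring
    · rw [get_of_ge (piMap k m y) (by omega), get_of_ge y.1 (by omega)]
      have : (m : k) = (j : ℕ) + 1 := by
        have h2 : ((m : ℕ) : k) = (((j : ℕ) + 1 : ℕ) : k) := congrArg _ (by omega)
        push_cast at h2
        exact h2
      push_cast
      rw [this]; ring
  · show piMap k m ((-LV (Ln k (m + 1)) + (m : k) • 1 : Module.End k (VW k (m + 1))) y)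
      = ((m : k) • (1 : Module.End k (Fin m → k))) (piMap k m y)
    simp [piMap_LV]
  · rfl

lemma kappa_DV [CharZero k] {m : ℕ} (i : Fin 5) (y : VW k (m + 1))
    (hy : LV (Ln k (m + 1)) y = 0) :
    kappa k m (DV k m i y) = (Ln k m).r.gen i (kappa k m y) := by
  have h1 := fun i => congrFun (congrArg Prod.fst hy) i
  have h2 := fun i => congrFun (congrArg Prod.snd hy) i
  simp only [LV_fst, LV_snd, Prod.fst_zero, Prod.snd_zero, Pi.zero_apply] at h1 h2
  fin_cases i
  · funext j
    show fAct k (m + 1) y.1 j.succ + 0 = fAct k m (kappa k m y) j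
    rw [add_zero, fAct_succ y.1 (Fin.val_succ j)]
    rcases hj : (j : ℕ) with _ | l
    · rw [fAct_zero _ hj, get_of_lt _ (Nat.succ_pos m)]
      have := h1 ⟨0, Nat.succ_pos m⟩
      rw [fAct_zero _ rfl] at this
      simpa [Nat.cast_add_one_ne_zero m] using this
    · rw [fAct_succ _ hj, get_of_lt (kappa k m y) (by omega : l < m),
        get_of_lt y.1 (by omega : l + 1 < m + 1)]
      rfl
  · funext j
    show hAct k (m + 1) y.1 j.succ + y.1 j.succ = hAct k m (kappa k m y) j
    rw [hAct_apply, hAct_apply]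
    show _ = _ * y.1 j.succ
    simp only [Fin.val_succ]
    push_cast; ring
  · funext j
    show eAct k (m + 1) y.1 j.succ + y.2 j.succ = eAct k m (kappa k m y) j
    rw [eAct_apply, eAct_apply]
    have h := h2 j.succ
    simp only [Fin.val_succ] at h ⊢
    have hne : (((j : ℕ) + 1 : ℕ) : k) + 1 ≠ 0 := Nat.cast_add_one_ne_zero _
    have hb : ((m : k) - (((j : ℕ) + 1 : ℕ) : k)) * get y.1 ((j : ℕ) + 1 + 1) + y.2 j.succ = 0 := by
      push_cast at hne h ⊢
      simpa [two_ne_zero, hne] using h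
    by_cases hj : (j : ℕ) + 1 < m
    · rw [get_of_lt (kappa k m y) hj]
      show _ = _ * y.1 (Fin.succ ⟨(j : ℕ) + 1, hj⟩)
      rw [get_of_lt y.1 (by omega : (j : ℕ) + 1 + 1 < m + 1)] at hb ⊢
      simp only [Fin.succ_mk]
      push_cast at hb ⊢
      linear_combination hb
    · rw [get_of_ge (kappa k m y) (by omega)]
      rw [get_of_ge y.1 (by omega)] at hb ⊢
      linear_combination hb
  · show kappa k m ((-LV (Ln k (m + 1)) + (m : k) • 1 : Module.End k (VW k (m + 1))) y)
      = ((m : k) • (1 : Module.End k (Fin m → k))) (kappa k m y)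
    simp [hy]
  · rfl

lemma inter_piW {n : ℕ} (L : LRep k n) (w : Fin 2) :
    Inter ((piW k w).compLeft (Fin n)) (Qm L) (Qx L) :=
  tw_inter (Q := rightRep k) (Q' := xRep k)
    ⟨fun x => by show piW k w (rmul k 2 x) = _; rw [piW_rmul, xR, if_neg (by decide)]; rfl,
     fun x => by show piW k w (rmul k 1 x) = _; rw [piW_rmul, xR, if_neg (by decide)]; rfl,
     fun x => by show piW k w (rmul k 0 x) = _; rw [piW_rmul, xR, if_neg (by decide)]; rfl,
     fun x => by show piW k w (rmul k 4 x) = _; rw [piW_rmul, xR, if_neg (by decide)]; rfl⟩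
    L.r L.hz

lemma piW_n {n : ℕ} (L : LRep k n) (w : Fin 2) (φ : Fin n → Pol k) :
    (piW k w).compLeft (Fin n) ((Qm L).n φ) = (Qx L).n ((piW k w).compLeft (Fin n) φ) :=
  tw_n (Q := rightRep k) (Q' := xRep k)
    (fun x => by show piW k w (rmul k 3 x) = _; rw [piW_rmul, xR, if_pos rfl]; rfl)
    (fun x => by show piW k w (rmul k 4 x) = _; rw [piW_rmul, xR, if_neg (by decide)]; rfl)
    L.r L.hz φ

/-- Cycles in degree zero. -/
noncomputable def K0 (k : Type) [Field k] (n : ℕ) : Submodule (TT k) (TA k n) :=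
  C0 k n ⊓ LinearMap.ker (epsMT k n)

lemma mem_K0 {n : ℕ} {x : TA k n} :
    x ∈ K0 k n ↔ x ∈ C0 k n ∧ ∀ v, eps (Ln k n) (bT n v x) = 0 := by
  constructor
  · rintro ⟨h1, h2⟩
    refine ⟨h1, fun v => ?_⟩
    have h3 : epsM k n x = 0 := h2
    rw [← mC_epsM, h3, map_zero]
  · rintro ⟨h1, h2⟩
    refine ⟨h1, ?_⟩
    show epsM k n x = 0
    exact mmExt fun v => by rw [mC_epsM, h2, map_zero]

lemma E1_mem_K0 {n : ℕ} {x : (TA k n × TA k n × TA k n) × TA k n} (h : x ∈ C1 k n) :
    E1 (Ln k n) x ∈ K0 k n := by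
  refine mem_K0.2 ⟨E1_mem _ h, fun v => ?_⟩
  show eps _ (bT n v (D1 (QT (Ln k n)) x)) = 0
  rw [nat_D1 (inter_bT _ v) (bT_n _ v), D1_apply, map_add, eps_d1, (eps_Qm _ _).2.2.2, add_zero]

/-- Cycles in degree one. -/
noncomputable def Z1 (k : Type) [Field k] (n : ℕ) :
    Submodule (TT k) ((TA k n × TA k n × TA k n) × TA k n) :=
  C1 k n ⊓ LinearMap.ker (E1 (Ln k n))

lemma mem_Z1 {n : ℕ} {x : (TA k n × TA k n × TA k n) × TA k n} :
    x ∈ Z1 k n ↔ x ∈ C1 k n ∧ D1 (QT (Ln k n)) x = 0 := Iff.rfl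

/-- Map of degree-zero cycles onto the next test module. -/
noncomputable def psi0 (k : Type) [Field k] (m : ℕ) : TA k (m + 1) →ₗ[k] MM k m where
  toFun φ := fun v => piMap k m (eps2 (Ln k (m + 1)) (xT (m + 1) v φ))
  map_add' a b := funext fun v => by rw [map_add, map_add, map_add]; rfl
  map_smul' r a := funext fun v => by rw [map_smul, map_smul, map_smul]; rfl

lemma mC_psi0 (m : ℕ) (v : Fin 5) (φ : TA k (m + 1)) :
    mC m v (psi0 k m φ) = piMap k m (eps2 (Ln k (m + 1)) (xT (m + 1) v φ)) := rfl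

/-- Map of degree-zero cycles, linear over the ground field. -/
noncomputable def psiLin (k : Type) [Field k] (m : ℕ) : K0 k (m + 1) →ₗ[k] MM k m :=
  psi0 k m ∘ₗ ((K0 k (m + 1)).subtype.restrictScalars k)

lemma psiLin_apply (m : ℕ) (a : K0 k (m + 1)) :
    psiLin k m a = psi0 k m (a : TA k (m + 1)) := rfl

lemma psi0_proj (m : ℕ) (w : Fin 5) (φ : TA k (m + 1)) :
    psi0 k m (gT (k := k) (.proj w) • φ) = gM k m (.proj w) (psi0 k m φ) := by
  refine mmExt fun v => ?_
  rw [mC_psi0, xT_proj]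
  simp only [gM, LinearMap.comp_apply, mC_mI, mC_psi0]
  split_ifs with h
  · rfl
  · rw [map_zero, map_zero]

lemma psi0_arrow (m : ℕ) (i : Fin 5) (w : Fin 4) (φ : TA k (m + 1)) :
    psi0 k m (gT (k := k) (.arrow i w) • φ) = gM k m (.arrow i w) (psi0 k m φ) := by
  refine mmExt fun v => ?_
  rw [mC_psi0, xT_arrow]
  simp only [gM, LinearMap.comp_apply, mC_mI, mC_psi0]
  split_ifs with h
  · rw [eps2_delta, piMap_DV]
  · rw [map_zero, map_zero]

lemma psi0_back [CharZero k] (m : ℕ) (u : Fin 4) (w : Fin 2) {φ : TA k (m + 1)}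
    (hφ : φ ∈ K0 k (m + 1)) :
    psi0 k m (gT (k := k) (.back u w) • φ) = gM k m (.back u w) (psi0 k m φ) := by
  refine mmExt fun v => ?_
  rw [mC_psi0, xT_back]
  simp only [gM, LinearMap.zero_apply, map_zero]
  split_ifs with h
  · obtain ⟨h1, h2⟩ := mem_K0.1 hφ
    obtain ⟨y, -, -, ey⟩ := fullEx0 (Ln k (m + 1)) (colT_iff.1 h1 u.succ).1 (h2 u.succ)
    rw [← ey, nat_D1 (inter_piW _ w) (piW_n _ w), eps2_D1, map_neg, piMap_LV, neg_zero]
  · rw [map_zero, map_zero]

lemma psiLin_gen [CharZero k] (m : ℕ) (s : Gen) (a : K0 k (m + 1)) :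
    psiLin k m (gT (k := k) s • a) = gT (k := k) s • psiLin k m a := by
  rw [gM_smul, psiLin_apply, psiLin_apply, Submodule.coe_smul]
  cases s with
  | proj w => exact psi0_proj m w _
  | arrow i w => exact psi0_arrow m i w _
  | back u w => exact psi0_back m u w a.2

/-- Map of degree-zero cycles onto the next test module. -/
noncomputable def psi (k : Type) [Field k] [CharZero k] (m : ℕ) :
    K0 k (m + 1) →ₗ[TT k] MM k m := toT (psiLin k m) (psiLin_gen m)

lemma psi_apply [CharZero k] (m : ℕ) (x : K0 k (m + 1)) :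
    psi k m x = psi0 k m (x : TA k (m + 1)) := by rw [psi, toT_apply]; rfl

/-- Map of degree-one cycles onto the next test module. -/
noncomputable def phi0 (k : Type) [Field k] (m : ℕ) : TA k (m + 1) →ₗ[k] MM k m where
  toFun φ := fun v => kappa k m (eps2 (Ln k (m + 1)) (xT (m + 1) v φ))
  map_add' a b := funext fun v => by rw [map_add, map_add, map_add]; rfl
  map_smul' r a := funext fun v => by rw [map_smul, map_smul, map_smul]; rfl

lemma mC_phi0 (m : ℕ) (v : Fin 5) (φ : TA k (m + 1)) :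
    mC m v (phi0 k m φ) = kappa k m (eps2 (Ln k (m + 1)) (xT (m + 1) v φ)) := rfl

lemma cycle_LV {n : ℕ} {x : (TA k n × TA k n × TA k n) × TA k n} (L : LRep k n)
    (h : D1 (QT L) x = 0) (v : Fin 5) : LV L (eps2 L (xT n v x.2)) = 0 := by
  have h1 := congrArg (fun y => eps2 L (xT n v y)) h
  simp only [map_zero] at h1
  rw [nat_D1 (inter_xT L v) (xT_n L v), eps2_D1] at h1
  exact neg_eq_zero.1 h1

/-- Map of degree-one cycles, linear over the ground field. -/
noncomputable def phiLin (k : Type) [Field k] (m : ℕ) : Z1 k (m + 1) →ₗ[k] MM k m :=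
  phi0 k m ∘ₗ LinearMap.snd k _ _ ∘ₗ ((Z1 k (m + 1)).subtype.restrictScalars k)

lemma phiLin_apply (m : ℕ) (a : Z1 k (m + 1)) :
    phiLin k m a = phi0 k m (a : (TA k (m + 1) × TA k (m + 1) × TA k (m + 1)) × TA k (m + 1)).2 :=
  rfl

lemma phi0_proj (m : ℕ) (w : Fin 5) (φ : TA k (m + 1)) :
    phi0 k m (gT (k := k) (.proj w) • φ) = gM k m (.proj w) (phi0 k m φ) := by
  refine mmExt fun v => ?_
  rw [mC_phi0, xT_proj]
  simp only [gM, LinearMap.comp_apply, mC_mI, mC_phi0]
  split_ifs with h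
  · rfl
  · rw [map_zero, map_zero]

lemma phi0_arrow [CharZero k] (m : ℕ) (i : Fin 5) (w : Fin 4) {φ : TA k (m + 1)}
    (h : ∀ v, LV (Ln k (m + 1)) (eps2 (Ln k (m + 1)) (xT (m + 1) v φ)) = 0) :
    phi0 k m (gT (k := k) (.arrow i w) • φ) = gM k m (.arrow i w) (phi0 k m φ) := by
  refine mmExt fun v => ?_
  rw [mC_phi0, xT_arrow]
  simp only [gM, LinearMap.comp_apply, mC_mI, mC_phi0]
  split_ifs with h'
  · rw [eps2_delta, kappa_DV i _ (h _)]
  · rw [map_zero, map_zero]

lemma phi0_back [CharZero k] (m : ℕ) (u : Fin 4) (w : Fin 2)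
    {x : (TA k (m + 1) × TA k (m + 1) × TA k (m + 1)) × TA k (m + 1)}
    (hx : x ∈ Z1 k (m + 1)) :
    phi0 k m (gT (k := k) (.back u w) • x.2) = gM k m (.back u w) (phi0 k m x.2) := by
  refine mmExt fun v => ?_
  rw [mC_phi0, xT_back]
  simp only [gM, LinearMap.zero_apply, map_zero]
  split_ifs with h
  · obtain ⟨hx', hd⟩ := mem_Z1.1 hx
    obtain ⟨h1, h2⟩ := Submodule.mem_prod.1 hx'
    obtain ⟨y, -, -, ey⟩ := fullEx1 (Ln k (m + 1))
      (x := (map3 (bT (m + 1) u.succ) x.1, bT (m + 1) u.succ x.2))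
      (colT3_parts h1 u.succ).1
      (by rw [← nat_D1 (inter_bT _ _) (bT_n _ _), hd, map_zero])
    have e2 : bT (m + 1) u.succ x.2 = -d1 (Qm (Ln k (m + 1))) y.2 :=
      (congrArg Prod.snd ey).symm
    rw [e2, map_neg, (inter_piW _ w).d1, map_neg, eps2_d1, neg_zero, map_zero]
  · rw [map_zero, map_zero]

lemma phiLin_gen [CharZero k] (m : ℕ) (s : Gen) (a : Z1 k (m + 1)) :
    phiLin k m (gT (k := k) s • a) = gT (k := k) s • phiLin k m a := by
  rw [gM_smul, phiLin_apply, phiLin_apply, Submodule.coe_smul, Prod.smul_snd]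
  cases s with
  | proj w => exact phi0_proj m w _
  | arrow i w => exact phi0_arrow m i w (cycle_LV _ (mem_Z1.1 a.2).2)
  | back u w => exact phi0_back m u w a.2

/-- Map of degree-one cycles onto the next test module. -/
noncomputable def phi (k : Type) [Field k] [CharZero k] (m : ℕ) :
    Z1 k (m + 1) →ₗ[TT k] MM k m := toT (phiLin k m) (phiLin_gen m)

lemma phi_apply [CharZero k] (m : ℕ) (x : Z1 k (m + 1)) :
    phi k m x = phi0 k m (x : (TA k (m + 1) × TA k (m + 1) × TA k (m + 1))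
      × TA k (m + 1)).2 := by rw [phi, toT_apply]; rfl

end Vale.Agent.P176
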