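import Vale.Agent.P176.Rep
import Mathlib.LinearAlgebra.FiniteDimensional.Basic
import Mathlib.Tactic.FinCases

/-!
Right multiplications, gradings and congruences modulo z for the ordered-monomial model.
-/

namespace Vale.Agent.P176

open MvPolynomial

variable {k : Type} [Field k]

namespace GRep

variable {A : Type*} [Ring A] [Algebra k A] (r : GRep A)

/-- The image of a variable. -/
def gen : Fin 5 → A := ![r.f, r.h, r.e, r.n, r.z]

omit [Algebra k A] in
lemma commute_word {x : A} (H : ∀ i, Commute x (r.gen i)) (a b c d g : ℕ) :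
    Commute x (r.word a b c d g) :=
  (((((H 0).pow_right a).mul_right ((H 1).pow_right b)).mul_right ((H 2).pow_right c)).mul_right
    ((H 3).pow_right d)).mul_right ((H 4).pow_right g)

lemma commute_rho {x : A} (H : ∀ i, Commute x (r.gen i)) (p : Pol k) : Commute x (r.rho p) := by
  suffices LinearMap.mulLeft k x ∘ₗ r.rho = LinearMap.mulRight k x ∘ₗ r.rho from
    LinearMap.congr_fun this p
  refine polExt fun a b c d g => ?_
  simp only [LinearMap.comp_apply, LinearMap.mulLeft_apply, LinearMap.mulRight_apply, rho_mon]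
  exact (r.commute_word H a b c d g).eq

lemma rho_op (i : Fin 5) (p : Pol k) : r.rho ((polRep k).gen i p) = r.gen i * r.rho p := by
  fin_cases i
  · exact r.rho_mulX0 p
  · exact r.rho_opH p
  · exact r.rho_opE p
  · exact r.rho_mulX3 p
  · exact r.rho_mulX4 p

lemma rho_word (a b c d g : ℕ) (q : Pol k) :
    r.rho ((polRep k).word a b c d g q) = r.word a b c d g * r.rho q := by
  have hpow : ∀ (i : Fin 5) (m : ℕ) (q : Pol k),
      r.rho (((polRep k).gen i ^ m) q) = r.gen i ^ m * r.rho q := by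
    intro i m
    induction m with
    | zero => intro q; simp
    | succ m ih => intro q; rw [pow_succ', Module.End.mul_apply, rho_op, ih, pow_succ', mul_assoc]
  have h0 := hpow 0; have h1 := hpow 1; have h2 := hpow 2; have h3 := hpow 3; have h4 := hpow 4
  simp only [gen, Matrix.cons_val_zero, Matrix.cons_val_one, Matrix.cons_val_two,
    Matrix.cons_val, Matrix.head_cons, Matrix.tail_cons] at h0 h1 h2 h3 h4
  simp only [word, Module.End.mul_apply, mul_assoc, h0, h1, h2, h3, h4]

lemma rho_act (p q : Pol k) :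
    r.rho ((polRep k).rho p q) = r.rho p * r.rho q := by
  suffices r.rho ∘ₗ ((polRep k).rho).flip q = LinearMap.mulRight k (r.rho q) ∘ₗ r.rho from
    LinearMap.congr_fun this p
  refine polExt fun a b c d g => ?_
  simp [rho_mon, rho_word]

lemma rho_X (i : Fin 5) : r.rho (X i : Pol k) = r.gen i := by
  fin_cases i
  · simpa [mon, word, gen] using r.rho_mon (k := k) 1 0 0 0 0
  · simpa [mon, word, gen] using r.rho_mon (k := k) 0 1 0 0 0
  · simpa [mon, word, gen] using r.rho_mon (k := k) 0 0 1 0 0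
  · simpa [mon, word, gen] using r.rho_mon (k := k) 0 0 0 1 0
  · simpa [mon, word, gen] using r.rho_mon (k := k) 0 0 0 0 1

end GRep

/-- Left multiplication operator by a variable. -/
noncomputable def op (k : Type) [Field k] : Fin 5 → Module.End k (Pol k) := (polRep k).gen

lemma opH_mon0 (b c d g : ℕ) :
    (opH (mon k 0 b c d g) : Pol k) = mon k 0 (b + 1) c d g := by
  rw [opH_apply, pderiv0_mon]; simp [mon]; ring

lemma opE_mon00 (c d g : ℕ) :
    (opE (mon k 0 0 c d g) : Pol k) = mon k 0 0 (c + 1) d g := by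
  rw [opE_apply, pderiv0_mon, sigma_mon]; simp [mon]; ring

lemma word_one (a b c d g : ℕ) :
    (polRep k).word a b c d g (1 : Pol k) = mon k a b c d g := by
  have hm : ∀ (i : Fin 5) (m : ℕ) (q : Pol k), (mX i ^ m : Module.End k (Pol k)) q = X i ^ m * q := by
    intro i m q
    induction m with
    | zero => simp
    | succ m ih => rw [pow_succ', Module.End.mul_apply, ih, mX_apply]; ring
  have he : ∀ c, ((opE : Module.End k (Pol k)) ^ c) (mon k 0 0 0 d g) = mon k 0 0 c d g := by
    intro c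
    induction c with
    | zero => simp
    | succ c ih => rw [pow_succ', Module.End.mul_apply, ih, opE_mon00]
  have hh : ∀ b, ((opH : Module.End k (Pol k)) ^ b) (mon k 0 0 c d g) = mon k 0 b c d g := by
    intro b
    induction b with
    | zero => simp
    | succ b ih => rw [pow_succ', Module.End.mul_apply, ih, opH_mon0]
  simp only [GRep.word, polRep, Module.End.mul_apply, hm]
  rw [show (X 3 : Pol k) ^ d * (X 4 ^ g * 1) = mon k 0 0 0 d g by simp [mon], he, hh]
  simp [mon]; ring

lemma rho_apply_one (p : Pol k) : (polRep k).rho p 1 = p := by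
  suffices ((polRep k).rho).flip (1 : Pol k) = LinearMap.id from LinearMap.congr_fun this p
  refine polExt fun a b c d g => ?_
  simp [GRep.rho_mon, word_one]

/-- Right multiplication by a variable. -/
noncomputable def rmul (k : Type) [Field k] (i : Fin 5) : Module.End k (Pol k) :=
  ((polRep k).rho).flip (X i)

lemma rmul_apply (i : Fin 5) (p : Pol k) : rmul k i p = (polRep k).rho p (X i) := rfl

lemma rmul_op (i j : Fin 5) : rmul k i * op k j = op k j * rmul k i := by
  refine LinearMap.ext fun p => ?_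
  rw [Module.End.mul_apply, Module.End.mul_apply, rmul_apply, rmul_apply]
  exact LinearMap.congr_fun ((polRep k).rho_op j p) (X i)

lemma rho_rmul {A : Type*} [Ring A] [Algebra k A] (r : GRep A) (i : Fin 5) (p : Pol k) :
    r.rho (rmul k i p) = r.rho p * r.gen i := by
  rw [rmul_apply, r.rho_act, r.rho_X]

lemma rmul_rmul (i j : Fin 5) (p : Pol k) :
    rmul k i (rmul k j p) = (polRep k).rho p (op k j (X i)) := by
  rw [rmul_apply, rho_rmul, Module.End.mul_apply, op]

lemma rmul_X4 : rmul k 4 = mX 4 := by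
  refine LinearMap.ext fun p => ?_
  rw [rmul_apply]
  have hc : Commute (mX 4 : Module.End k (Pol k)) ((polRep k).rho p) := by
    refine (polRep k).commute_rho (fun i => ?_) p
    fin_cases i
    · exact (polRep k).zf
    · exact (polRep k).zh
    · exact (polRep k).ze
    · exact (polRep k).zn
    · exact Commute.refl _
  conv_lhs => rw [show (X 4 : Pol k) = mX 4 1 by simp [mX_apply]]
  rw [← Module.End.mul_apply, ← hc.eq, Module.End.mul_apply, rho_apply_one]

lemma rmul_X3 : rmul k 3 = mX 3 := by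
  refine LinearMap.ext fun p => ?_
  rw [rmul_apply]
  have hc : Commute (mX 3 : Module.End k (Pol k)) ((polRep k).rho p) := by
    refine (polRep k).commute_rho (fun i => ?_) p
    fin_cases i
    · exact (polRep k).nf
    · exact (polRep k).nh
    · exact (polRep k).ne
    · exact Commute.refl _
    · exact (polRep k).zn.symm
  conv_lhs => rw [show (X 3 : Pol k) = mX 3 1 by simp [mX_apply]]
  rw [← Module.End.mul_apply, ← hc.eq, Module.End.mul_apply, rho_apply_one]

/-- The right multiplications satisfy the opposite relations. -/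
noncomputable def rightRep (k : Type) [Field k] : GRep (Module.End k (Pol k)) where
  f := rmul k 2
  h := rmul k 1
  e := rmul k 0
  n := rmul k 3
  z := rmul k 4
  hf := by
    refine LinearMap.ext fun p => ?_
    have key : op k 2 (X 1) = op k 1 (X 2) - (op k 2 (X 4) + op k 2 (X 4) : Pol k) := by
      simp [op, GRep.gen, polRep, mX_apply, opH_apply, opE_apply, sigma_X, pderiv_X]
      ring
    simp only [LinearMap.sub_apply, LinearMap.add_apply, Module.End.mul_apply, rmul_rmul, key,
      map_sub, map_add]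
  he := by
    refine LinearMap.ext fun p => ?_
    have key : op k 0 (X 1) = op k 1 (X 0) + (op k 0 (X 4) + op k 0 (X 4) : Pol k) := by
      simp [op, GRep.gen, polRep, mX_apply, opH_apply, pderiv_X]
      ring
    simp only [LinearMap.add_apply, Module.End.mul_apply, rmul_rmul, key, map_add]
  ef := by
    refine LinearMap.ext fun p => ?_
    have key : op k 2 (X 0) = op k 0 (X 2) + (op k 1 (X 4) : Pol k) := by
      simp [op, GRep.gen, polRep, mX_apply, opH_apply, opE_apply, sigma_X, pderiv_X]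
      ring
    simp only [LinearMap.add_apply, Module.End.mul_apply, rmul_rmul, key, map_add]
  zf := by
    refine LinearMap.ext fun p => ?_
    simp [Module.End.mul_apply, rmul_rmul, op, GRep.gen, polRep, mX_apply, opE_apply, sigma_X,
      pderiv_X, mul_comm]
  zh := by
    refine LinearMap.ext fun p => ?_
    simp [Module.End.mul_apply, rmul_rmul, op, GRep.gen, polRep, mX_apply, opH_apply,
      pderiv_X, mul_comm]
  ze := by
    refine LinearMap.ext fun p => ?_
    simp [Module.End.mul_apply, rmul_rmul, op, GRep.gen, polRep, mX_apply, mul_comm]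
  zn := by
    refine LinearMap.ext fun p => ?_
    simp [Module.End.mul_apply, rmul_rmul, op, GRep.gen, polRep, mX_apply, mul_comm]
  nf := by
    refine LinearMap.ext fun p => ?_
    simp [Module.End.mul_apply, rmul_rmul, op, GRep.gen, polRep, mX_apply, opE_apply, sigma_X,
      pderiv_X, mul_comm]
  nh := by
    refine LinearMap.ext fun p => ?_
    simp [Module.End.mul_apply, rmul_rmul, op, GRep.gen, polRep, mX_apply, opH_apply,
      pderiv_X, mul_comm]
  ne := by
    refine LinearMap.ext fun p => ?_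
    simp [Module.End.mul_apply, rmul_rmul, op, GRep.gen, polRep, mX_apply, mul_comm]

lemma rmul_mon0 (a : ℕ) : rmul k 0 (mon k a 0 0 0 0) = mon k (a + 1) 0 0 0 0 := by
  rw [← rho_apply_one (rmul k 0 _), rho_rmul, GRep.rho_mon, ← word_one]
  simp [GRep.word, GRep.gen, pow_succ]

lemma rmul_mon1 (a b : ℕ) : rmul k 1 (mon k a b 0 0 0) = mon k a (b + 1) 0 0 0 := by
  rw [← rho_apply_one (rmul k 1 _), rho_rmul, GRep.rho_mon, ← word_one]
  simp [GRep.word, GRep.gen, pow_succ, mul_assoc]

lemma rmul_mon2 (a b c : ℕ) : rmul k 2 (mon k a b c 0 0) = mon k a b (c + 1) 0 0 := by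
  rw [← rho_apply_one (rmul k 2 _), rho_rmul, GRep.rho_mon, ← word_one]
  simp [GRep.word, GRep.gen, pow_succ, mul_assoc]

/-- Degree of an exponent vector. -/
def mdeg (m : Fin 5 →₀ ℕ) : ℤ := ((m 0 + m 1 + m 2 + m 3 + m 4 : ℕ) : ℤ)

/-- Homogeneous polynomials of integer degree; zero in negative degree. -/
noncomputable def Pd (k : Type) [Field k] (i : ℤ) : Submodule k (Pol k) :=
  restrictSupport k {m | mdeg m = i}

/-- Polynomials free of N. -/
noncomputable def Nf (k : Type) [Field k] : Submodule k (Pol k) :=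
  restrictSupport k {m | m 3 = 0}

lemma mon_eq_monomial (a b c d g : ℕ) :
    mon k a b c d g = monomial (Finsupp.equivFunOnFinite.symm ![a, b, c, d, g]) 1 := by
  rw [monomial_eq_mon]; rfl

lemma mon_mem_Pd (a b c d g : ℕ) : mon k a b c d g ∈ Pd k (a + b + c + d + g : ℤ) := by
  rw [mon_eq_monomial, Pd, monomial_mem_restrictSupport]
  left
  show mdeg _ = _
  simp [mdeg]

lemma mon_mem_Nf (a b c g : ℕ) : mon k a b c 0 g ∈ Nf k := by
  rw [mon_eq_monomial, Nf, monomial_mem_restrictSupport]
  left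
  show Finsupp.equivFunOnFinite.symm ![a, b, c, 0, g] 3 = 0
  simp

lemma Pd_ind {S : Submodule k (Pol k)} {i : ℤ}
    (H : ∀ a b c d g : ℕ, (a + b + c + d + g : ℤ) = i → mon k a b c d g ∈ S) :
    Pd k i ≤ S := by
  rw [Pd, restrictSupport_eq_span, Submodule.span_le]
  rintro _ ⟨m, hm, rfl⟩
  have := H (m 0) (m 1) (m 2) (m 3) (m 4) (by simpa [mdeg] using hm)
  simpa [monomial_eq_mon] using this

lemma PdNf_ind {S : Submodule k (Pol k)} {i : ℤ}
    (H : ∀ a b c g : ℕ, (a + b + c + g : ℤ) = i → mon k a b c 0 g ∈ S) :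
    Pd k i ⊓ Nf k ≤ S := by
  have : Pd k i ⊓ Nf k ≤ restrictSupport k {m | mdeg m = i ∧ m 3 = 0} := by
    rintro p ⟨h1, h2⟩
    rw [SetLike.mem_coe, Pd, mem_restrictSupport_iff] at h1
    rw [SetLike.mem_coe, Nf, mem_restrictSupport_iff] at h2
    rw [mem_restrictSupport_iff]
    exact fun m hm => ⟨h1 hm, h2 hm⟩
  refine this.trans ?_
  rw [restrictSupport_eq_span, Submodule.span_le]
  rintro _ ⟨m, ⟨hm, h3⟩, rfl⟩
  have := H (m 0) (m 1) (m 2) (m 4) (by simpa [mdeg, h3] using hm)
  simpa [monomial_eq_mon, h3] using this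

lemma Nf_ind {S : Submodule k (Pol k)} (H : ∀ a b c g : ℕ, mon k a b c 0 g ∈ S) : Nf k ≤ S := by
  rw [Nf, restrictSupport_eq_span, Submodule.span_le]
  rintro _ ⟨m, h3, rfl⟩
  simpa [monomial_eq_mon, Set.mem_setOf_eq.mp h3] using H (m 0) (m 1) (m 2) (m 4)

lemma Pd_neg {i : ℤ} (hi : i < 0) : Pd k i = ⊥ := by
  refine le_bot_iff.1 (Pd_ind fun a b c d g h => ?_)
  omega

instance (i : ℤ) : Module.Finite k (Pd k i) := by
  refine Submodule.finiteDimensional_of_le (S₂ := restrictTotalDegree (Fin 5) k i.toNat) ?_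
  refine restrictSupport_mono k fun m hm => ?_
  simp only [Set.mem_setOf_eq] at hm ⊢
  rw [Finsupp.sum_fintype _ _ (fun _ => rfl), Fin.sum_univ_five]
  simp only [mdeg] at hm
  omega

lemma Pd_map {L : Pol k →ₗ[k] Pol k} {S : Submodule k (Pol k)} {i : ℤ}
    (H : ∀ a b c d g : ℕ, (a + b + c + d + g : ℤ) = i → L (mon k a b c d g) ∈ S)
    {p : Pol k} (hp : p ∈ Pd k i) : L p ∈ S :=
  Submodule.mem_comap.1 (Pd_ind (S := S.comap L)
    (fun a b c d g h => Submodule.mem_comap.2 (H a b c d g h)) hp)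

lemma Nf_map {L : Pol k →ₗ[k] Pol k} {S : Submodule k (Pol k)}
    (H : ∀ a b c g : ℕ, L (mon k a b c 0 g) ∈ S)
    {p : Pol k} (hp : p ∈ Nf k) : L p ∈ S :=
  Submodule.mem_comap.1 (Nf_ind (S := S.comap L)
    (fun a b c g => Submodule.mem_comap.2 (H a b c g)) hp)

/-- An operator raising the degree. -/
def Shift (L : Module.End k (Pol k)) (i : ℤ) : Prop :=
  ∀ j, ∀ p ∈ Pd k j, L p ∈ Pd k (j + i)

lemma shift_of_mon {L : Module.End k (Pol k)} {i : ℤ}
    (H : ∀ a b c d g : ℕ, L (mon k a b c d g) ∈ Pd k ((a + b + c + d + g : ℤ) + i)) : Shift L i := by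
  intro j p hp
  exact Pd_map (L := L) (fun a b c d g h => by subst h; exact H a b c d g) hp

lemma Shift.mul {L L' : Module.End k (Pol k)} {i i' : ℤ} (h : Shift L i) (h' : Shift L' i') :
    Shift (L * L') (i' + i) := fun j p hp => by
  rw [← add_assoc]; exact h _ _ (h' j p hp)

lemma Shift.pow {L : Module.End k (Pol k)} (h : Shift L 1) :
    ∀ m : ℕ, Shift (L ^ m) m
  | 0 => fun j p hp => by simpa using hp
  | m + 1 => by
      rw [pow_succ']
      simpa using h.mul (Shift.pow h m)

lemma Shift.add {L L' : Module.End k (Pol k)} {i : ℤ} (h : Shift L i) (h' : Shift L' i) :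
    Shift (L + L') i := fun j p hp => Submodule.add_mem _ (h j p hp) (h' j p hp)

lemma Shift.sub {L L' : Module.End k (Pol k)} {i : ℤ} (h : Shift L i) (h' : Shift L' i) :
    Shift (L - L') i := fun j p hp => Submodule.sub_mem _ (h j p hp) (h' j p hp)

open scoped Pointwise in
lemma Pd_mul {i j : ℤ} {p q : Pol k} (hp : p ∈ Pd k i) (hq : q ∈ Pd k j) :
    p * q ∈ Pd k (i + j) := by
  have h := Submodule.mul_mem_mul hp hq
  rw [Pd, Pd, ← restrictSupport_add] at h
  refine restrictSupport_mono k (Set.add_subset_iff.2 fun a ha b hb => ?_) h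
  change mdeg a = i at ha
  change mdeg b = j at hb
  show mdeg (a + b) = i + j
  rw [← ha, ← hb]
  simp [mdeg]
  ring

lemma X_mem_Pd (i : Fin 5) : (X i : Pol k) ∈ Pd k 1 := by
  rw [Pd, mem_restrictSupport_iff]
  intro m hm
  simp only [support_X, Finset.coe_singleton, Set.mem_singleton_iff] at hm
  subst hm
  show mdeg _ = 1
  fin_cases i <;> simp [mdeg]

open scoped Pointwise in
lemma Nf_mul {p q : Pol k} (hp : p ∈ Nf k) (hq : q ∈ Nf k) : p * q ∈ Nf k := by
  have h := Submodule.mul_mem_mul hp hq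
  rw [Nf, ← restrictSupport_add] at h
  refine restrictSupport_mono k (Set.add_subset_iff.2 fun a ha b hb => ?_) h
  change a 3 = 0 at ha
  change b 3 = 0 at hb
  show (a + b) 3 = 0
  simp [ha, hb]

lemma X_mem_Nf {i : Fin 5} (hi : i ≠ 3) : (X i : Pol k) ∈ Nf k := by
  rw [Nf, mem_restrictSupport_iff]
  intro m hm
  simp only [support_X, Finset.coe_singleton, Set.mem_singleton_iff] at hm
  subst hm
  show Finsupp.single i 1 (3 : Fin 5) = 0
  simp [hi]

lemma pderiv_mon (i : Fin 5) (a b c d g : ℕ) :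
    pderiv i (mon k a b c d g) =
      (![a • mon k (a - 1) b c d g, b • mon k a (b - 1) c d g, c • mon k a b (c - 1) d g,
        d • mon k a b c (d - 1) g, g • mon k a b c d (g - 1)] : Fin 5 → Pol k) i := by
  fin_cases i <;>
    simp [mon, Derivation.leibniz, pderiv_X, Pi.single_apply, smul_eq_mul, nsmul_eq_mul] <;> ring

lemma shift_dX (i : Fin 5) : Shift (dX i : Module.End k (Pol k)) (-1) := by
  refine shift_of_mon fun a b c d g => ?_
  show pderiv i (mon k a b c d g) ∈ _
  rw [pderiv_mon]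
  fin_cases i <;> simp only [Fin.isValue, Fin.zero_eta, Fin.mk_one, Fin.reduceFinMk,
    Matrix.cons_val_zero, Matrix.cons_val_one, Matrix.cons_val]
  · rcases a with _ | a
    · simp
    · refine nsmul_mem ?_ _; convert mon_mem_Pd (k := k) a b c d g using 2 <;> push_cast <;> omega
  · rcases b with _ | b
    · simp
    · refine nsmul_mem ?_ _; convert mon_mem_Pd (k := k) a b c d g using 2 <;> push_cast <;> omega
  · rcases c with _ | c
    · simp
    · refine nsmul_mem ?_ _; convert mon_mem_Pd (k := k) a b c d g using 2 <;> push_cast <;> omega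
  · rcases d with _ | d
    · simp
    · refine nsmul_mem ?_ _; convert mon_mem_Pd (k := k) a b c d g using 2 <;> push_cast <;> omega
  · rcases g with _ | g
    · simp
    · refine nsmul_mem ?_ _; convert mon_mem_Pd (k := k) a b c d g using 2 <;> push_cast <;> omega

lemma Nf_dX (i : Fin 5) {p : Pol k} (hp : p ∈ Nf k) : pderiv i p ∈ Nf k := by
  have h := Nf_map (L := dX i) (S := Nf k) (fun a b c g => ?_) hp
  · exact h
  have e : dX i (mon k a b c 0 g) = pderiv i (mon k a b c 0 g) := rfl
  rw [e, pderiv_mon]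
  fin_cases i <;>
    simp only [Fin.isValue, Fin.zero_eta, Fin.mk_one, Fin.reduceFinMk, Matrix.cons_val_zero,
      Matrix.cons_val_one, Matrix.cons_val, zero_smul] <;>
    first
      | exact Submodule.zero_mem _
      | exact nsmul_mem (mon_mem_Nf _ _ _ _) _

lemma shift_mX (i : Fin 5) : Shift (mX i : Module.End k (Pol k)) 1 := fun j p hp => by
  rw [add_comm]; exact Pd_mul (X_mem_Pd i) hp

lemma sigma_Pd {j : ℤ} {p : Pol k} (hp : p ∈ Pd k j) : sigma p ∈ Pd k j := by
  have hh := Pd_map (L := (sigma (k := k)).toLinearMap) (S := Pd k j) (fun a b c d g h => ?_) hp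
  · exact hh
  rw [AlgHom.toLinearMap_apply, sigma_mon]
  have hs : ∀ b : ℕ, (X 1 - (X 4 + X 4) : Pol k) ^ b ∈ Pd k b := by
    intro b
    induction b with
    | zero => simpa [mon] using mon_mem_Pd (k := k) 0 0 0 0 0
    | succ b ih =>
      rw [pow_succ, Nat.cast_succ]
      exact Pd_mul ih (Submodule.sub_mem _ (X_mem_Pd 1)
        (Submodule.add_mem _ (X_mem_Pd 4) (X_mem_Pd 4)))
  have h1 : (X 0 : Pol k) ^ a ∈ Pd k a := by simpa [mon] using mon_mem_Pd (k := k) a 0 0 0 0
  have h2 : (X 2 : Pol k) ^ c ∈ Pd k c := by simpa [mon] using mon_mem_Pd (k := k) 0 0 c 0 0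
  have h3 : (X 3 : Pol k) ^ d ∈ Pd k d := by simpa [mon] using mon_mem_Pd (k := k) 0 0 0 d 0
  have h4 : (X 4 : Pol k) ^ g ∈ Pd k g := by simpa [mon] using mon_mem_Pd (k := k) 0 0 0 0 g
  subst h
  exact Pd_mul (Pd_mul (Pd_mul (Pd_mul h1 (hs b)) h2) h3) h4

lemma sigma_Nf {p : Pol k} (hp : p ∈ Nf k) : sigma p ∈ Nf k := by
  have hh := Nf_map (L := (sigma (k := k)).toLinearMap) (S := Nf k) (fun a b c g => ?_) hp
  · exact hh
  rw [AlgHom.toLinearMap_apply, sigma_mon]
  have hs : ∀ b : ℕ, (X 1 - (X 4 + X 4) : Pol k) ^ b ∈ Nf k := by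
    intro b
    induction b with
    | zero => simpa [mon] using mon_mem_Nf (k := k) 0 0 0 0
    | succ b ih =>
      rw [pow_succ]
      exact Nf_mul ih (Submodule.sub_mem _ (X_mem_Nf (by decide))
        (Submodule.add_mem _ (X_mem_Nf (by decide)) (X_mem_Nf (by decide))))
  have h1 : (X 0 : Pol k) ^ a ∈ Nf k := by simpa [mon] using mon_mem_Nf (k := k) a 0 0 0
  have h2 : (X 2 : Pol k) ^ c ∈ Nf k := by simpa [mon] using mon_mem_Nf (k := k) 0 0 c 0
  have h4 : (X 4 : Pol k) ^ g ∈ Nf k := by simpa [mon] using mon_mem_Nf (k := k) 0 0 0 g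
  simp only [pow_zero, mul_one]
  exact Nf_mul (Nf_mul (Nf_mul h1 (hs b)) h2) h4

lemma shift_op (i : Fin 5) : Shift (op k i) 1 := by
  fin_cases i
  · exact shift_mX 0
  · refine (shift_mX 1).sub (Shift.add ?_ ?_) <;>
      simpa using (((shift_mX (k := k) 4).mul (shift_mX 0)).mul (shift_dX 0))
  · have hs : Shift (sigma (k := k)).toLinearMap 0 := fun j p hp => by simpa using sigma_Pd hp
    refine Shift.sub (Shift.add ?_ ?_) ?_
    · simpa using (shift_mX (k := k) 2).mul hs
    · simpa using ((shift_mX (k := k) 4).mul (shift_mX 1)).mul (shift_dX 0)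
    · simpa using ((((shift_mX (k := k) 4).mul (shift_mX 4)).mul (shift_mX 0)).mul (shift_dX 0)).mul
        (shift_dX 0)
  · exact shift_mX 3
  · exact shift_mX 4

lemma op_Nf {i : Fin 5} (hi : i ≠ 3) {p : Pol k} (hp : p ∈ Nf k) : op k i p ∈ Nf k := by
  fin_cases i
  · exact Nf_mul (X_mem_Nf hi) hp
  · show opH p ∈ _
    rw [opH_apply]
    have := Nf_mul (X_mem_Nf (k := k) (i := 4) (by decide))
      (Nf_mul (X_mem_Nf (i := 0) (by decide)) (Nf_dX 0 hp))
    exact Submodule.sub_mem _ (Nf_mul (X_mem_Nf hi) hp) (Submodule.add_mem _ this this)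
  · show opE p ∈ _
    rw [opE_apply]
    refine Submodule.sub_mem _ (Submodule.add_mem _ (Nf_mul (X_mem_Nf hi) (sigma_Nf hp))
      (Nf_mul (X_mem_Nf (by decide)) (Nf_mul (X_mem_Nf (by decide)) (Nf_dX 0 hp)))) ?_
    exact Nf_mul (X_mem_Nf (by decide)) (Nf_mul (X_mem_Nf (by decide))
      (Nf_mul (X_mem_Nf (by decide)) (Nf_dX 0 (Nf_dX 0 hp))))
  · exact absurd rfl hi
  · exact Nf_mul (X_mem_Nf hi) hp

lemma rho_Pd {i j : ℤ} {p q : Pol k} (hp : p ∈ Pd k i) (hq : q ∈ Pd k j) :
    (polRep k).rho p q ∈ Pd k (i + j) := by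
  have hh := Pd_map (L := ((polRep k).rho).flip q) (S := Pd k (i + j))
    (fun a b c d g h => ?_) hp
  · exact hh
  rw [LinearMap.flip_apply, GRep.rho_mon]
  have hw := ((((shift_op (k := k) 0).pow a).mul ((shift_op (k := k) 1).pow b)).mul
    ((shift_op (k := k) 2).pow c)).mul ((shift_op (k := k) 3).pow d) |>.mul
    ((shift_op (k := k) 4).pow g)
  have := hw j q hq
  convert this using 2
  · omega
  · rfl

lemma rho_Nf {p q : Pol k} (hp : p ∈ Nf k) (hq : q ∈ Nf k) :
    (polRep k).rho p q ∈ Nf k := by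
  have hh := Nf_map (L := ((polRep k).rho).flip q) (S := Nf k) (fun a b c g => ?_) hp
  · exact hh
  rw [LinearMap.flip_apply, GRep.rho_mon]
  have hpow : ∀ i : Fin 5, i ≠ 3 → ∀ (m : ℕ) (q : Pol k), q ∈ Nf k → (op k i ^ m) q ∈ Nf k := by
    intro i hi m
    induction m with
    | zero => intro q hq; simpa using hq
    | succ m ih => intro q hq; rw [pow_succ']; exact op_Nf hi (ih q hq)
  simp only [GRep.word, pow_zero, mul_one, Module.End.mul_apply]
  exact hpow 0 (by decide) a _ (hpow 1 (by decide) b _ (hpow 2 (by decide) c _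
    (hpow 4 (by decide) g _ hq)))

lemma shift_rmul (i : Fin 5) : Shift (rmul k i) 1 := fun j p hp => by
  rw [rmul_apply]; exact rho_Pd hp (X_mem_Pd i)

lemma rmul_Nf {i : Fin 5} (hi : i ≠ 3) {p : Pol k} (hp : p ∈ Nf k) : rmul k i p ∈ Nf k :=
  by rw [rmul_apply]; exact rho_Nf hp (X_mem_Nf hi)

/-- Congruence of an operator with a multiplication modulo z. -/
def Cong (L : Module.End k (Pol k)) (x : Pol k) : Prop := ∀ q, (X 4 : Pol k) ∣ L q - x * q

lemma Cong.mul {L L' : Module.End k (Pol k)} {x x' : Pol k} (h : Cong L x) (h' : Cong L' x') :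
    Cong (L * L') (x * x') := fun q => by
  have := dvd_add (h (L' q)) ((h' q).mul_left x)
  rw [Module.End.mul_apply]
  convert this using 1
  ring

lemma Cong.pow {L : Module.End k (Pol k)} {x : Pol k} (h : Cong L x) :
    ∀ m : ℕ, Cong (L ^ m) (x ^ m)
  | 0 => fun q => by simp
  | m + 1 => by rw [pow_succ, pow_succ]; exact (Cong.pow h m).mul h

lemma dvd_sigma_sub (p : Pol k) : (X 4 : Pol k) ∣ sigma p - p := by
  induction p using MvPolynomial.induction_on with
  | C a => simp
  | add p q hp hq => rw [map_add]; convert dvd_add hp hq using 1; ring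
  | mul_X p j hp =>
    rw [map_mul, sigma_X]
    split_ifs with hj
    · subst hj
      convert dvd_sub (hp.mul_right (X 1)) ((dvd_mul_right (X 4 : Pol k) (sigma p + sigma p))) using 1
      ring
    · convert hp.mul_right (X j) using 1; ring

lemma cong_op (i : Fin 5) : Cong (op k i) (X i) := by
  intro q
  fin_cases i
  · simp [op, GRep.gen, polRep, mX_apply]
  · show X 4 ∣ opH q - X 1 * q
    rw [opH_apply]
    exact ⟨-(X 0 * pderiv 0 q + X 0 * pderiv 0 q), by ring⟩
  · show X 4 ∣ opE q - X 2 * q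
    rw [opE_apply]
    obtain ⟨w, hw⟩ := dvd_sigma_sub q
    exact ⟨X 2 * w + X 1 * pderiv 0 q - X 4 * (X 0 * pderiv 0 (pderiv 0 q)), by
      linear_combination (X 2 : Pol k) * hw⟩
  · simp [op, GRep.gen, polRep, mX_apply]
  · simp [op, GRep.gen, polRep, mX_apply]

lemma cong_rho (p q : Pol k) : (X 4 : Pol k) ∣ (polRep k).rho p q - p * q := by
  induction p using MvPolynomial.induction_on' with
  | monomial m a =>
    have hw := (((((cong_op (k := k) 0).pow (m 0)).mul ((cong_op (k := k) 1).pow (m 1))).mul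
      ((cong_op (k := k) 2).pow (m 2))).mul ((cong_op (k := k) 3).pow (m 3))).mul
      ((cong_op (k := k) 4).pow (m 4)) q
    rw [show monomial m a = a • monomial m (1 : k) by simp [smul_monomial], monomial_eq_mon,
      map_smul, GRep.rho_mon, LinearMap.smul_apply, smul_mul_assoc, ← smul_sub, smul_eq_C_mul]
    exact hw.mul_left _
  | add p p' hp hp' =>
    rw [map_add, LinearMap.add_apply]
    convert dvd_add hp hp' using 1
    ring

lemma cong_rmul (i : Fin 5) (p : Pol k) : (X 4 : Pol k) ∣ rmul k i p - p * X i := by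
  rw [rmul_apply]; exact cong_rho p (X i)

lemma euler {u : ℤ} {p : Pol k} (hp : p ∈ Pd k u) :
    X 0 * pderiv 0 p + X 1 * pderiv 1 p + X 2 * pderiv 2 p + X 3 * pderiv 3 p
      + X 4 * pderiv 4 p = (u : k) • p := by
  suffices Pd k u ≤ LinearMap.ker (mX 0 * dX 0 + mX 1 * dX 1 + mX 2 * dX 2 + mX 3 * dX 3
      + mX 4 * dX 4 - (u : k) • 1 : Module.End k (Pol k)) by
    have h := this hp
    simp only [LinearMap.mem_ker, LinearMap.sub_apply, sub_eq_zero, LinearMap.add_apply,
      Module.End.mul_apply, LinearMap.smul_apply, Module.End.one_apply, mX_apply, dX,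
      Derivation.coeFn_coe] at h
    exact h
  refine Pd_ind fun a b c d g h => ?_
  simp only [LinearMap.mem_ker, LinearMap.sub_apply, sub_eq_zero, LinearMap.add_apply,
    Module.End.mul_apply, LinearMap.smul_apply, Module.End.one_apply, mX_apply, dX,
    Derivation.coeFn_coe]
  subst h
  simp only [pderiv_mon, Matrix.cons_val_zero, Matrix.cons_val_one, Matrix.cons_val]
  have aux : ∀ (x : Pol k) (a : ℕ) (f : ℕ → Pol k), (∀ m, x * f m = f (m + 1)) →
      x * (a • f (a - 1)) = (a : Pol k) * f a := by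
    intro x a f hf
    rcases a with _ | a
    · simp
    · simp only [Nat.add_sub_cancel, nsmul_eq_mul]; rw [← hf]; ring
  rw [aux (X 0) a (fun m => mon k m b c d g) (fun m => by simp [mon]; ring),
    aux (X 1) b (fun m => mon k a m c d g) (fun m => by simp [mon]; ring),
    aux (X 2) c (fun m => mon k a b m d g) (fun m => by simp [mon]; ring),
    aux (X 3) d (fun m => mon k a b c m g) (fun m => by simp [mon]; ring),
    aux (X 4) g (fun m => mon k a b c d m) (fun m => by simp [mon]; ring)]
  rw [smul_eq_C_mul]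
  push_cast
  simp [map_add]
  ring

lemma dvd_pderiv {i : Fin 5} (hi : i ≠ 4) {p : Pol k} (h : (X 4 : Pol k) ∣ p) :
    (X 4 : Pol k) ∣ pderiv i p := by
  obtain ⟨q, rfl⟩ := h
  rw [Derivation.leibniz, pderiv_X_of_ne hi.symm]
  simp

lemma of_z_mul_mem_Pd {p : Pol k} {u : ℤ} (h : X 4 * p ∈ Pd k u) : p ∈ Pd k (u - 1) := by
  rw [Pd, mem_restrictSupport_iff] at h ⊢
  intro m hm
  have h2 : Finsupp.single 4 1 + m ∈ (X 4 * p).support := by
    rw [support_X_mul, Finset.mem_map]; exact ⟨m, hm, rfl⟩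
  have h3 := h h2
  simp only [Set.mem_setOf_eq, mdeg] at h3 ⊢
  simp [Finsupp.single_apply] at h3
  omega

lemma of_z_mul_mem_Nf {p : Pol k} (h : X 4 * p ∈ Nf k) : p ∈ Nf k := by
  rw [Nf, mem_restrictSupport_iff] at h ⊢
  intro m hm
  have h2 : Finsupp.single 4 1 + m ∈ (X 4 * p).support := by
    rw [support_X_mul, Finset.mem_map]; exact ⟨m, hm, rfl⟩
  have h3 := h h2
  simpa [Finsupp.single_apply] using h3

end Vale.Agent.P176
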