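import Vale.Agent.P176.Exact

/-!
The pair model of the bimodule: operators and cone exactness.
-/

namespace Vale.Agent.P176

open MvPolynomial

variable {k : Type} [Field k]

/-- Diagonal action on pairs. -/
noncomputable def dup (k : Type) [Field k] :
    Module.End k (Pol k) →+* Module.End k (Pol k × Pol k) where
  toFun u := u.prodMap u
  map_one' := rfl
  map_mul' _ _ := rfl
  map_zero' := rfl
  map_add' _ _ := rfl

/-- The matrix `A` with `L = N + A`. -/
noncomputable def opA (k : Type) [Field k] : Module.End k (Pol k × Pol k) :=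
  ((op k 1 + op k 4).coprod (op k 0 + op k 0)).prod ((op k 2 + op k 2).coprod (op k 4 - op k 1))

lemma opA_apply (x : Pol k × Pol k) : opA k x =
    (opH x.1 + X 4 * x.1 + (X 0 * x.2 + X 0 * x.2),
     opE x.1 + opE x.1 + (X 4 * x.2 - opH x.2)) := rfl

lemma opA_comm (i : Fin 5) : Commute (opA k) (dup k (rmul k i)) := by
  have c : ∀ (j : Fin 5) (p : Pol k), rmul k i (op k j p) = op k j (rmul k i p) :=
    fun j p => LinearMap.congr_fun (rmul_op i j) p
  refine LinearMap.ext fun x => ?_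
  show opA k (rmul k i x.1, rmul k i x.2) = (rmul k i (opA k x).1, rmul k i (opA k x).2)
  simp [opA, c]

/-- Right representation on pairs, with N acting by `-A`. -/
noncomputable def xRep (k : Type) [Field k] : GRep (Module.End k (Pol k × Pol k)) where
  f := dup k (rmul k 2)
  h := dup k (rmul k 1)
  e := dup k (rmul k 0)
  n := -opA k
  z := dup k (rmul k 4)
  hf := ((rightRep k).map (dup k)).hf
  he := ((rightRep k).map (dup k)).he
  ef := ((rightRep k).map (dup k)).ef
  zf := ((rightRep k).map (dup k)).zf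
  zh := ((rightRep k).map (dup k)).zh
  ze := ((rightRep k).map (dup k)).ze
  zn := ((opA_comm 4).symm.neg_right).eq
  nf := ((opA_comm 2).neg_left).eq
  nh := ((opA_comm 1).neg_left).eq
  ne := ((opA_comm 0).neg_left).eq

/-- Left operators on pairs (the twisted coproduct). -/
noncomputable def deltaOp (k : Type) [Field k] : Fin 5 → Module.End k (Pol k × Pol k) :=
  ![((op k 0).coprod 0).prod ((op k 4).coprod (op k 0)),
    (op k 1 + op k 4).prodMap (op k 1 - op k 4),
    ((op k 2).coprod (op k 4)).prod ((0 : Module.End k (Pol k)).coprod (op k 2)),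
    -opA k - dup k (op k 4),
    dup k (op k 4)]

lemma deltaOp_f (x : Pol k × Pol k) :
    deltaOp k 0 x = (X 0 * x.1, X 4 * x.1 + X 0 * x.2) := by
  show (X 0 * x.1 + 0, _) = _
  rw [add_zero]; rfl

lemma deltaOp_h (x : Pol k × Pol k) :
    deltaOp k 1 x = (opH x.1 + X 4 * x.1, opH x.2 - X 4 * x.2) := rfl

lemma deltaOp_e (x : Pol k × Pol k) :
    deltaOp k 2 x = (opE x.1 + X 4 * x.2, opE x.2) := by
  show (_, 0 + opE x.2) = _
  rw [zero_add]; rfl

lemma deltaOp_n (x : Pol k × Pol k) :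
    deltaOp k 3 x = -opA k x - (X 4 * x.1, X 4 * x.2) := rfl

lemma deltaOp_z (x : Pol k × Pol k) :
    deltaOp k 4 x = (X 4 * x.1, X 4 * x.2) := rfl

lemma opA_delta (i : Fin 5) (hi : i ≠ 3) : Commute (opA k) (deltaOp k i) := by
  have h1 := fun p : Pol k => LinearMap.congr_fun (polRep k).hf p
  have h2 := fun p : Pol k => LinearMap.congr_fun (polRep k).he p
  have h3 := fun p : Pol k => LinearMap.congr_fun (polRep k).ef p
  have z1 := fun p : Pol k => LinearMap.congr_fun (polRep k).zh p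
  have z2 := fun p : Pol k => LinearMap.congr_fun (polRep k).ze p
  simp only [polRep, Module.End.mul_apply, LinearMap.sub_apply, LinearMap.add_apply,
    mX_apply] at h1 h2 h3 z1 z2
  refine LinearMap.ext fun x => ?_
  fin_cases i
  · show opA k (deltaOp k 0 x) = deltaOp k 0 (opA k x)
    simp only [deltaOp_f, opA_apply, map_add, h1, h3, ← z1, ← z2, Prod.mk.injEq]
    constructor <;> ring
  · show opA k (deltaOp k 1 x) = deltaOp k 1 (opA k x)
    simp only [deltaOp_h, opA_apply, map_add, map_sub, h1, h2, ← z1, ← z2, Prod.mk.injEq]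
    constructor <;> ring
  · show opA k (deltaOp k 2 x) = deltaOp k 2 (opA k x)
    simp only [deltaOp_e, opA_apply, map_add, map_sub, h2, h3, ← z1, ← z2, Prod.mk.injEq]
    constructor <;> ring
  · exact absurd rfl hi
  · show opA k (deltaOp k 4 x) = deltaOp k 4 (opA k x)
    simp only [deltaOp_z, opA_apply, ← z1, ← z2, Prod.mk.injEq]
    constructor <;> ring

lemma deltaOp_z_comm (i : Fin 5) : Commute (deltaOp k 4) (deltaOp k i) := by
  have z1 := fun p : Pol k => LinearMap.congr_fun (polRep k).zh p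
  have z2 := fun p : Pol k => LinearMap.congr_fun (polRep k).ze p
  simp only [polRep, Module.End.mul_apply, mX_apply] at z1 z2
  refine LinearMap.ext fun x => ?_
  fin_cases i
  · show deltaOp k 4 (deltaOp k 0 x) = deltaOp k 0 (deltaOp k 4 x)
    simp only [deltaOp_f, deltaOp_z, Prod.mk.injEq]
    constructor <;> ring
  · show deltaOp k 4 (deltaOp k 1 x) = deltaOp k 1 (deltaOp k 4 x)
    simp only [deltaOp_h, deltaOp_z, ← z1, Prod.mk.injEq]
    constructor <;> ring
  · show deltaOp k 4 (deltaOp k 2 x) = deltaOp k 2 (deltaOp k 4 x)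
    simp only [deltaOp_e, deltaOp_z, ← z2, Prod.mk.injEq]
    exact ⟨by ring, trivial⟩
  · show deltaOp k 4 (deltaOp k 3 x) = deltaOp k 3 (deltaOp k 4 x)
    simp only [deltaOp_n, deltaOp_z, opA_apply, ← z1, ← z2, Prod.mk_sub_mk, Prod.neg_mk,
      Prod.mk.injEq]
    constructor <;> ring
  · rfl

/-- The left representation on pairs. -/
noncomputable def deltaRep (k : Type) [Field k] : GRep (Module.End k (Pol k × Pol k)) where
  f := deltaOp k 0
  h := deltaOp k 1
  e := deltaOp k 2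
  n := deltaOp k 3
  z := deltaOp k 4
  hf := by
    have h1 := fun p : Pol k => LinearMap.congr_fun (polRep k).hf p
    have z1 := fun p : Pol k => LinearMap.congr_fun (polRep k).zh p
    simp only [polRep, Module.End.mul_apply, LinearMap.sub_apply, LinearMap.add_apply,
      mX_apply] at h1 z1
    refine LinearMap.ext fun x => ?_
    simp only [Module.End.mul_apply, LinearMap.sub_apply, LinearMap.add_apply, deltaOp_f,
      deltaOp_h, deltaOp_z, map_add, h1, ← z1, Prod.mk_sub_mk, Prod.mk_add_mk, Prod.mk.injEq]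
    constructor <;> ring
  he := by
    have h2 := fun p : Pol k => LinearMap.congr_fun (polRep k).he p
    have z1 := fun p : Pol k => LinearMap.congr_fun (polRep k).zh p
    have z2 := fun p : Pol k => LinearMap.congr_fun (polRep k).ze p
    simp only [polRep, Module.End.mul_apply, LinearMap.add_apply, mX_apply] at h2 z1 z2
    refine LinearMap.ext fun x => ?_
    simp only [Module.End.mul_apply, LinearMap.add_apply, deltaOp_h, deltaOp_e, deltaOp_z,
      map_add, map_sub, h2, ← z1, ← z2, Prod.mk_add_mk, Prod.mk.injEq]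
    constructor <;> ring
  ef := by
    have h3 := fun p : Pol k => LinearMap.congr_fun (polRep k).ef p
    have z2 := fun p : Pol k => LinearMap.congr_fun (polRep k).ze p
    simp only [polRep, Module.End.mul_apply, LinearMap.add_apply, mX_apply] at h3 z2
    refine LinearMap.ext fun x => ?_
    simp only [Module.End.mul_apply, LinearMap.add_apply, deltaOp_f, deltaOp_h, deltaOp_e,
      deltaOp_z, map_add, h3, ← z2, Prod.mk_add_mk, Prod.mk.injEq]
    constructor <;> ring
  zf := (deltaOp_z_comm 0).eq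
  zh := (deltaOp_z_comm 1).eq
  ze := (deltaOp_z_comm 2).eq
  zn := (deltaOp_z_comm 3).eq
  nf := (((opA_delta 0 (by decide)).neg_left).sub_left (deltaOp_z_comm 0)).eq
  nh := (((opA_delta 1 (by decide)).neg_left).sub_left (deltaOp_z_comm 1)).eq
  ne := (((opA_delta 2 (by decide)).neg_left).sub_left (deltaOp_z_comm 2)).eq

variable {m : ℕ} (L : LRep k m)

/-- The twisted right representation on tuples of pairs. -/
noncomputable def Qx : GRep (Module.End k (Fin m → Pol k × Pol k)) := tw (xRep k) L.r L.hz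

lemma tw_inter {M M' : Type*} [AddCommGroup M] [Module k M] [AddCommGroup M'] [Module k M']
    {u : M →ₗ[k] M'} {Q : GRep (Module.End k M)} {Q' : GRep (Module.End k M')}
    (hu : Inter u Q Q') (g : GRep (Module.End k (Fin m → k))) (hz : g.z = 1) :
    Inter (u.compLeft (Fin m)) (tw Q g hz) (tw Q' g hz) := by
  refine ⟨fun φ => funext fun l => ?_, fun φ => funext fun l => ?_, fun φ => funext fun l => ?_,
    fun φ => funext fun l => hu.z (φ l)⟩
  · show u (Q.f (φ l) - Q.z (lift M m g.e φ l)) = Q'.f (u (φ l)) - Q'.z _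
    rw [map_sub, hu.f, hu.z]
    exact congrArg (fun y => _ - Q'.z y) (congrFun (lift_comm_map u g.e φ) l)
  · show u (Q.h (φ l) - Q.z (lift M m g.h φ l)) = Q'.h (u (φ l)) - Q'.z _
    rw [map_sub, hu.h, hu.z]
    exact congrArg (fun y => _ - Q'.z y) (congrFun (lift_comm_map u g.h φ) l)
  · show u (Q.e (φ l) - Q.z (lift M m g.f φ l)) = Q'.e (u (φ l)) - Q'.z _
    rw [map_sub, hu.e, hu.z]
    exact congrArg (fun y => _ - Q'.z y) (congrFun (lift_comm_map u g.f φ) l)

/-- First component. -/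
noncomputable def pf : (Fin m → Pol k × Pol k) →ₗ[k] (Fin m → Pol k) :=
  (LinearMap.fst k (Pol k) (Pol k)).compLeft (Fin m)

/-- Second component. -/
noncomputable def ps : (Fin m → Pol k × Pol k) →ₗ[k] (Fin m → Pol k) :=
  (LinearMap.snd k (Pol k) (Pol k)).compLeft (Fin m)

/-- Inclusion of the first component. -/
noncomputable def il : (Fin m → Pol k) →ₗ[k] (Fin m → Pol k × Pol k) :=
  (LinearMap.inl k (Pol k) (Pol k)).compLeft (Fin m)

/-- Inclusion of the second component. -/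
noncomputable def ir : (Fin m → Pol k) →ₗ[k] (Fin m → Pol k × Pol k) :=
  (LinearMap.inr k (Pol k) (Pol k)).compLeft (Fin m)

lemma inter_pf : Inter pf (Qx L) (Qm L) :=
  tw_inter (Q := xRep k) (Q' := rightRep k)
    ⟨fun _ => rfl, fun _ => rfl, fun _ => rfl, fun _ => rfl⟩ L.r L.hz

lemma inter_ps : Inter ps (Qx L) (Qm L) :=
  tw_inter (Q := xRep k) (Q' := rightRep k)
    ⟨fun _ => rfl, fun _ => rfl, fun _ => rfl, fun _ => rfl⟩ L.r L.hz

lemma dup_inl (u : Module.End k (Pol k)) (x : Pol k) : (u x, (0 : Pol k)) = dup k u (x, 0) := by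
  show (u x, (0 : Pol k)) = (u x, u 0)
  rw [map_zero]

lemma dup_inr (u : Module.End k (Pol k)) (x : Pol k) : ((0 : Pol k), u x) = dup k u (0, x) := by
  show ((0 : Pol k), u x) = (u 0, u x)
  rw [map_zero]

lemma inter_il : Inter il (Qm L) (Qx L) :=
  tw_inter (Q := rightRep k) (Q' := xRep k)
    ⟨fun x => dup_inl (rmul k 2) x, fun x => dup_inl (rmul k 1) x, fun x => dup_inl (rmul k 0) x, fun x => dup_inl (rmul k 4) x⟩
    L.r L.hz

lemma inter_ir : Inter ir (Qm L) (Qx L) :=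
  tw_inter (Q := rightRep k) (Q' := xRep k)
    ⟨fun x => dup_inr (rmul k 2) x, fun x => dup_inr (rmul k 1) x, fun x => dup_inr (rmul k 0) x, fun x => dup_inr (rmul k 4) x⟩
    L.r L.hz

lemma il_ir (φ : Fin m → Pol k × Pol k) : il (pf φ) + ir (ps φ) = φ := by
  funext l; simp [il, ir, pf, ps]

lemma il_ir3 (s : (Fin m → Pol k × Pol k) × (Fin m → Pol k × Pol k) × (Fin m → Pol k × Pol k)) :
    map3 il (map3 pf s) + map3 ir (map3 ps s) = s := by
  simp [map3_apply, il_ir]

/-- Tuples of pairs of N-free homogeneous polynomials. -/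
noncomputable def Lx (k : Type) [Field k] (m : ℕ) (i : ℤ) :
    Submodule k (Fin m → Pol k × Pol k) :=
  (Lv k m i).comap pf ⊓ (Lv k m i).comap ps

lemma mem_Lx {φ : Fin m → Pol k × Pol k} {i : ℤ} :
    φ ∈ Lx k m i ↔ pf φ ∈ Lv k m i ∧ ps φ ∈ Lv k m i := Iff.rfl

lemma il_mem {φ ψ : Fin m → Pol k} {i : ℤ} (h : φ ∈ Lv k m i) (h' : ψ ∈ Lv k m i) :
    il φ + ir ψ ∈ Lx k m i := by
  have e1 : pf (il φ + ir ψ) = φ := by funext l; simp [il, ir, pf]
  have e2 : ps (il φ + ir ψ) = ψ := by funext l; simp [il, ir, ps]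
  exact mem_Lx.2 ⟨e1.symm ▸ h, e2.symm ▸ h'⟩

/-- Evaluation on pairs. -/
noncomputable def eps2 : (Fin m → Pol k × Pol k) →ₗ[k] (Fin m → k) × (Fin m → k) :=
  (eps L ∘ₗ pf).prod (eps L ∘ₗ ps)

lemma eps2_d1 (s : (Fin m → Pol k × Pol k) × (Fin m → Pol k × Pol k) × (Fin m → Pol k × Pol k)) :
    eps2 L (d1 (Qx L) s) = 0 := by
  show (eps L (pf (d1 (Qx L) s)), eps L (ps (d1 (Qx L) s))) = 0
  rw [(inter_pf L).d1, (inter_ps L).d1, eps_d1, eps_d1]
  rfl

/-- The intertwiner on the representation. -/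
noncomputable def LV : Module.End k ((Fin m → k) × (Fin m → k)) :=
  ((L.r.h + 1 + L.c • 1).coprod (L.r.f + L.r.f)).prod
    ((L.r.e + L.r.e).coprod (1 - L.r.h + L.c • 1))

lemma eps2_n (φ : Fin m → Pol k × Pol k) : eps2 L ((Qx L).n φ) = -LV L (eps2 L φ) := by
  have hn : ∀ l, (Qx L).n φ l = -opA k (φ l) - L.c • (X 4 * (φ l).1, X 4 * (φ l).2) := by
    intro l
    show -opA k (φ l) - dup k (rmul k 4) (lift (Pol k × Pol k) m L.r.n φ l) = _
    have h : lift (Pol k × Pol k) m L.r.n φ l = L.c • φ l := by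
      simp [lift_apply, L.hn, Pi.single_apply]
    rw [h, map_smul, rmul_X4]
    rfl
  have h1 : pf ((Qx L).n φ) =
      -((fun l => op k 1 (pf φ l)) + (fun l => op k 4 (pf φ l))
        + ((fun l => op k 0 (ps φ l)) + (fun l => op k 0 (ps φ l))))
      - L.c • (fun l => op k 4 (pf φ l)) := by
    funext l
    show ((Qx L).n φ l).1 = _
    rw [hn]
    rfl
  have h2 : ps ((Qx L).n φ) =
      -((fun l => op k 2 (pf φ l)) + (fun l => op k 2 (pf φ l))
        + ((fun l => op k 4 (ps φ l)) - (fun l => op k 1 (ps φ l))))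
      - L.c • (fun l => op k 4 (ps φ l)) := by
    funext l
    show ((Qx L).n φ l).2 = _
    rw [hn]
    rfl
  show (eps L (pf ((Qx L).n φ)), eps L (ps ((Qx L).n φ))) = _
  rw [h1, h2]
  simp only [map_sub, map_neg, map_add, map_smul, eps_op]
  simp [LV, eps2, GRep.gen, L.hz]
  constructor <;> abel

variable [CharZero k]

omit [CharZero k] in
lemma eps2_surj {i : ℤ} (hi : 0 ≤ i) (v : (Fin m → k) × (Fin m → k)) :
    ∃ φ ∈ Lx k m i, eps2 L φ = v := by
  obtain ⟨a, ha, ea⟩ := eps_surj L hi v.1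
  obtain ⟨b, hb, eb⟩ := eps_surj L hi v.2
  refine ⟨il a + ir b, il_mem ha hb, ?_⟩
  have e1 : pf (il a + ir b) = a := by funext l; simp [il, ir, pf]
  have e2 : ps (il a + ir b) = b := by funext l; simp [il, ir, ps]
  show (eps L (pf _), eps L (ps _)) = v
  rw [e1, e2, ea, eb]

lemma xex0 {i : ℤ} {φ : Fin m → Pol k × Pol k} (h : φ ∈ Lx k m i) (he : eps2 L φ = 0) :
    ∃ y ∈ tri (Lx k m (i - 1)), d1 (Qx L) y = φ := by
  obtain ⟨y, hy, ey⟩ := ex0 L i _ (mem_Lx.1 h).1 (congrArg Prod.fst he)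
  obtain ⟨w, hw, ew⟩ := ex0 L i _ (mem_Lx.1 h).2 (congrArg Prod.snd he)
  refine ⟨map3 il y + map3 ir w, ?_, ?_⟩
  · obtain ⟨a, b, c⟩ := mem_tri.1 hy
    obtain ⟨a', b', c'⟩ := mem_tri.1 hw
    exact mem_tri.2 ⟨il_mem a a', il_mem b b', il_mem c c'⟩
  · rw [map_add, ← (inter_il L).d1, ← (inter_ir L).d1, ey, ew, il_ir]

omit [CharZero k] in
lemma map3_pf_mem {i : ℤ}
    {s : (Fin m → Pol k × Pol k) × (Fin m → Pol k × Pol k) × (Fin m → Pol k × Pol k)}
    (h : s ∈ tri (Lx k m i)) : map3 pf s ∈ tri (Lv k m i) ∧ map3 ps s ∈ tri (Lv k m i) := by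
  obtain ⟨a, b, c⟩ := mem_tri.1 h
  exact ⟨mem_tri.2 ⟨(mem_Lx.1 a).1, (mem_Lx.1 b).1, (mem_Lx.1 c).1⟩,
    mem_tri.2 ⟨(mem_Lx.1 a).2, (mem_Lx.1 b).2, (mem_Lx.1 c).2⟩⟩

lemma xex1 {i : ℤ}
    {s : (Fin m → Pol k × Pol k) × (Fin m → Pol k × Pol k) × (Fin m → Pol k × Pol k)}
    (h : s ∈ tri (Lx k m i)) (hd : d1 (Qx L) s = 0) :
    ∃ y ∈ tri (Lx k m (i - 1)), d2 (Qx L) y = s := by
  obtain ⟨hp, hq⟩ := map3_pf_mem h
  obtain ⟨y, hy, ey⟩ := ex1 L i _ hp (by rw [← (inter_pf L).d1, hd, map_zero])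
  obtain ⟨w, hw, ew⟩ := ex1 L i _ hq (by rw [← (inter_ps L).d1, hd, map_zero])
  refine ⟨map3 il y + map3 ir w, ?_, ?_⟩
  · obtain ⟨a, b, c⟩ := mem_tri.1 hy
    obtain ⟨a', b', c'⟩ := mem_tri.1 hw
    exact mem_tri.2 ⟨il_mem a a', il_mem b b', il_mem c c'⟩
  · rw [map_add, ← (inter_il L).d2, ← (inter_ir L).d2, ey, ew, il_ir3]

lemma xex2 {i : ℤ}
    {s : (Fin m → Pol k × Pol k) × (Fin m → Pol k × Pol k) × (Fin m → Pol k × Pol k)}
    (h : s ∈ tri (Lx k m i)) (hd : d2 (Qx L) s = 0) :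
    ∃ y ∈ Lx k m (i - 1), d3 (Qx L) y = s := by
  obtain ⟨hp, hq⟩ := map3_pf_mem h
  obtain ⟨y, hy, ey⟩ := ex2 L i _ hp (by rw [← (inter_pf L).d2, hd, map_zero])
  obtain ⟨w, hw, ew⟩ := ex2 L i _ hq (by rw [← (inter_ps L).d2, hd, map_zero])
  refine ⟨il y + ir w, il_mem hy hw, ?_⟩
  rw [map_add, ← (inter_il L).d3, ← (inter_ir L).d3, ey, ew, il_ir3]

lemma xex3 {i : ℤ} {t : Fin m → Pol k × Pol k} (h : t ∈ Lx k m i) (hd : d3 (Qx L) t = 0) :
    t = 0 := by
  have h1 := ex3 L i _ (mem_Lx.1 h).1 (by rw [← (inter_pf L).d3, hd, map_zero])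
  have h2 := ex3 L i _ (mem_Lx.1 h).2 (by rw [← (inter_ps L).d3, hd, map_zero])
  rw [← il_ir t, h1, h2, map_zero, map_zero, add_zero]

end Vale.Agent.P176
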