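import Mathlib.Algebra.MvPolynomial.PDeriv
import Mathlib.RingTheory.MvPolynomial.Basic
import Mathlib.LinearAlgebra.Basis.Basic
import Mathlib.Tactic.NoncommRing
import Mathlib.Tactic.Abel
import Mathlib.Tactic.LinearCombination

/-!
Ordered-monomial model of the homogenized enveloping algebra of `gl₂`.
Variables: 0 = f, 1 = h, 2 = e, 3 = N, 4 = z.
-/

namespace Vale.Agent.P176

open MvPolynomial

/-- Five elements of an algebra satisfying the homogenized `gl₂` relations. -/
structure GRep (A : Type*) [Ring A] where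
  f : A
  h : A
  e : A
  n : A
  z : A
  hf : h * f = f * h - (z * f + z * f)
  he : h * e = e * h + (z * e + z * e)
  ef : e * f = f * e + z * h
  zf : z * f = f * z
  zh : z * h = h * z
  ze : z * e = e * z
  zn : z * n = n * z
  nf : n * f = f * n
  nh : n * h = h * n
  ne : n * e = e * n

variable {k : Type} [Field k]

/-- Polynomials in f, h, e, N, z. -/
abbrev Pol (k : Type) [Field k] := MvPolynomial (Fin 5) k

/-- Ordered monomial. -/
noncomputable def mon (k : Type) [Field k] (a b c d g : ℕ) : Pol k :=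
  X 0 ^ a * X 1 ^ b * X 2 ^ c * X 3 ^ d * X 4 ^ g

lemma monomial_eq_mon (m : Fin 5 →₀ ℕ) :
    (monomial m (1 : k)) = mon k (m 0) (m 1) (m 2) (m 3) (m 4) := by
  rw [monomial_eq, Finsupp.prod_fintype _ _ (by intro i; exact pow_zero _),
    Fin.prod_univ_five]
  simp [mon]

lemma polExt {M : Type*} [AddCommGroup M] [Module k M] {φ ψ : Pol k →ₗ[k] M}
    (H : ∀ a b c d g, φ (mon k a b c d g) = ψ (mon k a b c d g)) : φ = ψ := by
  refine (MvPolynomial.basisMonomials (Fin 5) k).ext fun m => ?_
  simpa [monomial_eq_mon] using H (m 0) (m 1) (m 2) (m 3) (m 4)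

lemma polInd {p : Pol k} (S : Submodule k (Pol k)) (H : ∀ a b c d g, mon k a b c d g ∈ S) :
    p ∈ S := by
  have hp : p ∈ Submodule.span k (Set.range (MvPolynomial.basisMonomials (Fin 5) k)) := by
    rw [Module.Basis.span_eq]; trivial
  refine Submodule.span_le.2 ?_ hp
  rintro _ ⟨m, rfl⟩
  simpa [monomial_eq_mon] using H (m 0) (m 1) (m 2) (m 3) (m 4)

namespace GRep

variable {A : Type*} [Ring A] [Algebra k A] (r : GRep A)

/-- Ordered word. -/
def word (a b c d g : ℕ) : A := r.f ^ a * r.h ^ b * r.e ^ c * r.n ^ d * r.z ^ g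

/-- Evaluation on ordered monomials. -/
noncomputable def rho : Pol k →ₗ[k] A :=
  (MvPolynomial.basisMonomials (Fin 5) k).constr k
    (fun m => r.word (m 0) (m 1) (m 2) (m 3) (m 4))

lemma rho_mon (a b c d g : ℕ) : r.rho (mon k a b c d g) = r.word a b c d g := by
  let m : Fin 5 →₀ ℕ := Finsupp.equivFunOnFinite.symm ![a, b, c, d, g]
  have h := monomial_eq_mon (k := k) m
  have h2 : r.rho (monomial m (1 : k)) = r.word (m 0) (m 1) (m 2) (m 3) (m 4) := by
    have := (MvPolynomial.basisMonomials (Fin 5) k).constr_basis k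
      (fun m => r.word (m 0) (m 1) (m 2) (m 3) (m 4)) m
    simpa [rho] using this
  have e0 : m 0 = a := rfl
  have e1 : m 1 = b := rfl
  have e2 : m 2 = c := rfl
  have e3 : m 3 = d := rfl
  have e4 : m 4 = g := rfl
  rw [h, e0, e1, e2, e3, e4] at h2
  exact h2

lemma rho_one : r.rho (1 : Pol k) = 1 := by
  have := r.rho_mon (k := k) 0 0 0 0 0
  simpa [mon, word] using this

lemma z_comm : Commute r.z r.f ∧ Commute r.z r.h ∧ Commute r.z r.e ∧ Commute r.z r.n :=
  ⟨r.zf, r.zh, r.ze, r.zn⟩

lemma rho_mulX4 (p : Pol k) : r.rho (X 4 * p) = r.z * r.rho p := by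
  suffices r.rho ∘ₗ LinearMap.mulLeft k (X 4 : Pol k) = LinearMap.mulLeft k r.z ∘ₗ r.rho from
    LinearMap.congr_fun this p
  refine polExt fun a b c d g => ?_
  simp only [LinearMap.comp_apply, LinearMap.mulLeft_apply]
  rw [show (X 4 : Pol k) * mon k a b c d g = mon k a b c d (g + 1) by unfold mon; ring,
    rho_mon, rho_mon]
  obtain ⟨h1, h2, h3, h4⟩ := r.z_comm
  unfold word
  rw [pow_succ, ← mul_assoc]
  exact ((((h1.pow_right a).mul_right (h2.pow_right b)).mul_right (h3.pow_right c)).mul_right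
    (h4.pow_right d) |>.mul_right ((Commute.refl r.z).pow_right g)).symm.eq

lemma rho_mulX3 (p : Pol k) : r.rho (X 3 * p) = r.n * r.rho p := by
  suffices r.rho ∘ₗ LinearMap.mulLeft k (X 3 : Pol k) = LinearMap.mulLeft k r.n ∘ₗ r.rho from
    LinearMap.congr_fun this p
  refine polExt fun a b c d g => ?_
  simp only [LinearMap.comp_apply, LinearMap.mulLeft_apply]
  rw [show (X 3 : Pol k) * mon k a b c d g = mon k a b c (d + 1) g by unfold mon; ring,
    rho_mon, rho_mon]
  have h1 : Commute r.n (r.f ^ a * r.h ^ b * r.e ^ c * r.n ^ d) :=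
    (((Commute.pow_right r.nf a).mul_right (Commute.pow_right r.nh b)).mul_right
      (Commute.pow_right r.ne c)).mul_right ((Commute.refl r.n).pow_right d)
  unfold word
  rw [pow_succ, ← mul_assoc, ← mul_assoc r.n, h1.eq]

lemma rho_mulX0 (p : Pol k) : r.rho (X 0 * p) = r.f * r.rho p := by
  suffices r.rho ∘ₗ LinearMap.mulLeft k (X 0 : Pol k) = LinearMap.mulLeft k r.f ∘ₗ r.rho from
    LinearMap.congr_fun this p
  refine polExt fun a b c d g => ?_
  simp only [LinearMap.comp_apply, LinearMap.mulLeft_apply]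
  rw [show (X 0 : Pol k) * mon k a b c d g = mon k (a + 1) b c d g by unfold mon; ring,
    rho_mon, rho_mon]
  simp only [word, pow_succ', mul_assoc]

/-- Commuting h past a power of f. -/
lemma h_f_pow (a : ℕ) :
    r.h * r.f ^ a = r.f ^ a * r.h - (2 * a : ℕ) • (r.z * r.f ^ a) := by
  induction a with
  | zero => simp
  | succ a ih =>
    have hz : Commute r.z r.f := r.zf
    calc r.h * r.f ^ (a + 1) = (r.h * r.f ^ a) * r.f := by rw [pow_succ, mul_assoc]
      _ = r.f ^ a * (r.h * r.f) - (2 * a : ℕ) • (r.z * r.f ^ (a + 1)) := by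
          rw [ih, sub_mul, smul_mul_assoc, mul_assoc, mul_assoc, pow_succ]
      _ = _ := by
          rw [r.hf, mul_sub, mul_add, ← mul_assoc, ← mul_assoc, ← (hz.pow_right a).eq,
            mul_assoc r.z, ← pow_succ, show 2 * (a + 1) = 2 * a + 2 from rfl, add_smul,
            two_smul]
          abel

/-- Commuting e past a power of f. -/
lemma e_f_pow (a : ℕ) :
    r.e * r.f ^ a = r.f ^ a * r.e + a • (r.z * r.f ^ (a - 1) * r.h) -
      (a * (a - 1)) • (r.z * r.z * r.f ^ (a - 1)) := by
  induction a with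
  | zero => simp
  | succ a ih =>
    have hz : Commute r.z r.f := r.zf
    rw [pow_succ, ← mul_assoc, ih]
    rcases a with _ | a
    · simp [r.ef]
    · simp only [Nat.add_sub_cancel]
      have hh : r.f ^ a * r.f = r.f ^ (a + 1) := (pow_succ _ _).symm
      have hzz : r.f ^ (a+1) * r.z = r.z * r.f ^ (a+1) := ((hz.pow_right _).eq).symm
      have e1 : r.f ^ (a + 1) * r.e * r.f
          = r.f ^ (a + 1) * r.f * r.e + r.z * r.f ^ (a + 1) * r.h := by
        rw [mul_assoc, r.ef, mul_add, ← mul_assoc, ← mul_assoc, hzz]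
      have e2 : r.z * r.f ^ a * r.h * r.f
          = r.z * r.f ^ (a + 1) * r.h - (r.z * r.z * r.f ^ (a + 1) + r.z * r.z * r.f ^ (a + 1)) := by
        rw [mul_assoc _ r.h r.f, r.hf, mul_sub, mul_add, ← mul_assoc, mul_assoc r.z _ r.f, hh]
        have : r.z * r.f ^ a * (r.z * r.f) = r.z * r.z * r.f ^ (a + 1) := by
          rw [← hh, ← mul_assoc, mul_assoc r.z _ r.z, ← (hz.pow_right a).eq, ← mul_assoc,
            mul_assoc _ _ r.f]
        rw [this]
      have e3 : r.z * r.z * r.f ^ a * r.f = r.z * r.z * r.f ^ (a + 1) := by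
        rw [mul_assoc _ _ r.f, hh]
      rw [sub_mul, add_mul, smul_mul_assoc, smul_mul_assoc, e1, e2, e3, smul_sub, smul_add]
      simp only [add_smul, mul_add, add_mul, one_mul, mul_one, mul_smul, one_smul]
      abel

lemma e_h_pow (b : ℕ) : r.e * r.h ^ b = (r.h - (r.z + r.z)) ^ b * r.e := by
  have h1 : r.e * r.h = (r.h - (r.z + r.z)) * r.e := by
    rw [sub_mul, r.he, add_mul]; abel
  induction b with
  | zero => simp
  | succ b ih => rw [pow_succ, ← mul_assoc, ih, mul_assoc, h1, ← mul_assoc, ← pow_succ]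

lemma rho_shift : ∀ (b i a c d g : ℕ),
    r.rho ((X 0 : Pol k) ^ a * X 1 ^ i * (X 1 - (X 4 + X 4)) ^ b * X 2 ^ c * X 3 ^ d * X 4 ^ g)
      = r.f ^ a * r.h ^ i * (r.h - (r.z + r.z)) ^ b * r.e ^ c * r.n ^ d * r.z ^ g := by
  intro b
  induction b with
  | zero =>
    intro i a c d g
    simpa [mon, word] using r.rho_mon (k := k) a i c d g
  | succ b ih =>
    intro i a c d g
    set s : Pol k := X 1 - (X 4 + X 4)
    set t : A := r.h - (r.z + r.z)
    have hp : (X 0 : Pol k) ^ a * X 1 ^ i * s ^ (b + 1) * X 2 ^ c * X 3 ^ d * X 4 ^ g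
        = X 0 ^ a * X 1 ^ (i + 1) * s ^ b * X 2 ^ c * X 3 ^ d * X 4 ^ g
          - (X 4 * (X 0 ^ a * X 1 ^ i * s ^ b * X 2 ^ c * X 3 ^ d * X 4 ^ g)
            + X 4 * (X 0 ^ a * X 1 ^ i * s ^ b * X 2 ^ c * X 3 ^ d * X 4 ^ g)) := by
      simp only [s]; ring
    rw [hp, map_sub, map_add, rho_mulX4, ih, ih]
    have hz : Commute r.z (r.f ^ a * r.h ^ i) :=
      ((r.z_comm.1).pow_right a).mul_right ((r.z_comm.2.1).pow_right i)
    rw [pow_succ' t, pow_succ r.h]
    have : r.f ^ a * r.h ^ i * (t * t ^ b)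
        = r.f ^ a * (r.h ^ i * r.h) * t ^ b - (r.z * (r.f ^ a * r.h ^ i * t ^ b)
          + r.z * (r.f ^ a * r.h ^ i * t ^ b)) := by
      rw [← mul_assoc r.z, hz.eq, ← mul_assoc (r.f ^ a * r.h ^ i) t, ← sub_eq_zero]
      noncomm_ring [t]
    rw [this]
    noncomm_ring

end GRep

/-- The substitution h ↦ h - 2z. -/
noncomputable def sigma : Pol k →ₐ[k] Pol k :=
  aeval (Function.update X 1 (X 1 - (X 4 + X 4)))

lemma sigma_X (i : Fin 5) :
    sigma (X i : Pol k) = if i = 1 then X 1 - (X 4 + X 4) else X i := by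
  rw [sigma, aeval_X, Function.update_apply]

lemma sigma_pderiv (i : Fin 5) (hi : i = 0 ∨ i = 2) (p : Pol k) :
    pderiv i (sigma p) = sigma (pderiv i p) := by
  induction p using MvPolynomial.induction_on with
  | C a => simp
  | add p q hp hq => simp [hp, hq]
  | mul_X p j hp =>
    rw [map_mul, Derivation.leibniz, Derivation.leibniz, hp]
    rcases hi with rfl | rfl <;> fin_cases j <;>
      simp [sigma_X, pderiv_X, Pi.single_apply, map_add, map_mul] <;> ring

/-- Multiplication by a variable. -/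
noncomputable def mX (i : Fin 5) : Module.End k (Pol k) := LinearMap.mulLeft k (X i)

/-- Partial derivative. -/
noncomputable def dX (i : Fin 5) : Module.End k (Pol k) := (pderiv i).toLinearMap

/-- Left multiplication by h. -/
noncomputable def opH : Module.End k (Pol k) :=
  mX 1 - (mX 4 * mX 0 * dX 0 + mX 4 * mX 0 * dX 0)

/-- Left multiplication by e. -/
noncomputable def opE : Module.End k (Pol k) :=
  mX 2 * sigma.toLinearMap + mX 4 * mX 1 * dX 0 - mX 4 * mX 4 * mX 0 * dX 0 * dX 0

lemma opH_apply (p : Pol k) :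
    opH p = X 1 * p - (X 4 * (X 0 * pderiv 0 p) + X 4 * (X 0 * pderiv 0 p)) := rfl

lemma opE_apply (p : Pol k) :
    opE p = X 2 * sigma p + X 4 * (X 1 * pderiv 0 p)
      - X 4 * (X 4 * (X 0 * pderiv 0 (pderiv 0 p))) := rfl

lemma mX_apply (i : Fin 5) (p : Pol k) : mX i p = X i * p := rfl

lemma pderiv_swap01 (p : Pol k) :
    pderiv 0 ((X 1 : Pol k) * p) = X 1 * pderiv 0 p := by
  rw [Derivation.leibniz, pderiv_X_of_ne (by decide)]; simp

/-- The left regular representation. -/
noncomputable def polRep (k : Type) [Field k] : GRep (Module.End k (Pol k)) where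
  f := mX 0
  h := opH
  e := opE
  n := mX 3
  z := mX 4
  hf := by
    refine LinearMap.ext fun p => ?_
    simp [opH_apply, mX_apply, Derivation.leibniz, pderiv_X_self, smul_eq_mul]
    ring
  he := by
    refine LinearMap.ext fun p => ?_
    simp [opH_apply, opE_apply, mX_apply, Derivation.leibniz, pderiv_X,
      Pi.single_apply, sigma_X, smul_eq_mul, sigma_pderiv 0 (Or.inl rfl), map_sub, map_add, map_mul]
    ring
  ef := by
    refine LinearMap.ext fun p => ?_
    simp [opH_apply, opE_apply, mX_apply, Derivation.leibniz, pderiv_X,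
      Pi.single_apply, sigma_X, smul_eq_mul, map_sub, map_add, map_mul]
    ring
  zf := by refine LinearMap.ext fun p => ?_; simp [mX_apply]; ring
  zh := by
    refine LinearMap.ext fun p => ?_
    simp [mX_apply, opH_apply, Derivation.leibniz, pderiv_X, Pi.single_apply]
    ring
  ze := by
    refine LinearMap.ext fun p => ?_
    simp [mX_apply, opE_apply, Derivation.leibniz, pderiv_X, Pi.single_apply, sigma_X, map_mul]
    ring
  zn := by refine LinearMap.ext fun p => ?_; simp [mX_apply]; ring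
  nf := by refine LinearMap.ext fun p => ?_; simp [mX_apply]; ring
  nh := by
    refine LinearMap.ext fun p => ?_
    simp [mX_apply, opH_apply, Derivation.leibniz, pderiv_X, Pi.single_apply]
    ring
  ne := by
    refine LinearMap.ext fun p => ?_
    simp [mX_apply, opE_apply, Derivation.leibniz, pderiv_X, Pi.single_apply, sigma_X, map_mul]
    ring

lemma pderiv0_mon (a b c d g : ℕ) :
    pderiv 0 (mon k a b c d g) = a • mon k (a - 1) b c d g := by
  simp [mon, Derivation.leibniz, pderiv_X, Pi.single_apply, pderiv_pow, smul_eq_mul, nsmul_eq_mul]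
  ring

lemma sigma_mon (a b c d g : ℕ) : sigma (mon k a b c d g)
    = X 0 ^ a * (X 1 - (X 4 + X 4)) ^ b * X 2 ^ c * X 3 ^ d * X 4 ^ g := by
  simp [mon, sigma_X]

namespace GRep

variable {A : Type*} [Ring A] [Algebra k A] (r : GRep A)

lemma rho_opH (p : Pol k) : r.rho (opH p) = r.h * r.rho p := by
  suffices r.rho ∘ₗ opH = LinearMap.mulLeft k r.h ∘ₗ r.rho from LinearMap.congr_fun this p
  refine polExt fun a b c d g => ?_
  simp only [LinearMap.comp_apply, LinearMap.mulLeft_apply]
  have hp : opH (mon k a b c d g)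
      = mon k a (b + 1) c d g - (2 * a) • mon k a b c d (g + 1) := by
    rw [opH_apply, pderiv0_mon]
    rcases a with _ | a
    · simp [mon]; ring
    · simp [mon, nsmul_eq_mul]; ring
  rw [hp, map_sub, map_nsmul, rho_mon, rho_mon, rho_mon]
  have hw : r.word a b c d (g + 1) = r.z * r.word a b c d g := by
    have := r.rho_mulX4 (k := k) (mon k a b c d g)
    rw [show (X 4 : Pol k) * mon k a b c d g = mon k a b c d (g + 1) by unfold mon; ring,
      rho_mon, rho_mon] at this
    exact this
  rw [hw]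
  simp only [word, ← mul_assoc, r.h_f_pow a, sub_mul, smul_mul_assoc, pow_succ']

lemma rho_opE (p : Pol k) : r.rho (opE p) = r.e * r.rho p := by
  suffices r.rho ∘ₗ opE = LinearMap.mulLeft k r.e ∘ₗ r.rho from LinearMap.congr_fun this p
  refine polExt fun a b c d g => ?_
  simp only [LinearMap.comp_apply, LinearMap.mulLeft_apply]
  have hp : opE (mon k a b c d g)
      = X 0 ^ a * X 1 ^ 0 * (X 1 - (X 4 + X 4)) ^ b * X 2 ^ (c + 1) * X 3 ^ d * X 4 ^ g
        + a • (X 4 * mon k (a - 1) (b + 1) c d g)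
        - (a * (a - 1)) • (X 4 * (X 4 * mon k (a - 1) b c d g)) := by
    rw [opE_apply, sigma_mon, pderiv0_mon, map_nsmul, pderiv0_mon]
    rcases a with _ | _ | a
    · simp [mon]; ring
    · simp [mon]; ring
    · simp [mon, nsmul_eq_mul]; ring
  rw [hp, map_sub, map_add, map_nsmul, map_nsmul, rho_shift, rho_mulX4, rho_mulX4, rho_mulX4,
    rho_mon, rho_mon, rho_mon]
  simp only [word, ← mul_assoc, r.e_f_pow a, sub_mul, add_mul, smul_mul_assoc, pow_zero, mul_one]
  rw [mul_assoc (r.f ^ a) r.e (r.h ^ b), r.e_h_pow b, ← mul_assoc]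
  simp only [pow_succ' r.h, pow_succ' r.e, mul_assoc]

end GRep

end Vale.Agent.P176
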