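import Vale.Agent.P176.Pairs

/-!
Homology of the cone on pairs.
-/

namespace Vale.Agent.P176

open MvPolynomial

variable {k : Type} [Field k] {m : ℕ} (L : LRep k m)

/-- Tuples of pairs. -/
abbrev PP (k : Type) [Field k] (m : ℕ) := Fin m → Pol k × Pol k

lemma opA_mem {i : ℤ} {x : Pol k × Pol k} (h1 : x.1 ∈ Pd k i ⊓ Nf k) (h2 : x.2 ∈ Pd k i ⊓ Nf k) :
    (opA k x).1 ∈ Pd k (i + 1) ⊓ Nf k ∧ (opA k x).2 ∈ Pd k (i + 1) ⊓ Nf k := by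
  have a : ∀ j : Fin 5, j ≠ 3 → op k j x.1 ∈ Pd k (i + 1) ⊓ Nf k :=
    fun j hj => ⟨shift_op j i _ h1.1, op_Nf hj h1.2⟩
  have b : ∀ j : Fin 5, j ≠ 3 → op k j x.2 ∈ Pd k (i + 1) ⊓ Nf k :=
    fun j hj => ⟨shift_op j i _ h2.1, op_Nf hj h2.2⟩
  exact ⟨Submodule.add_mem _ (Submodule.add_mem _ (a 1 (by decide)) (a 4 (by decide)))
      (Submodule.add_mem _ (b 0 (by decide)) (b 0 (by decide))),
    Submodule.add_mem _ (Submodule.add_mem _ (a 2 (by decide)) (a 2 (by decide)))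
      (Submodule.sub_mem _ (b 4 (by decide)) (b 1 (by decide)))⟩

lemma Qx_n_apply (φ : PP k m) (l : Fin m) :
    (Qx L).n φ l = -opA k (φ l) - L.c • (X 4 * (φ l).1, X 4 * (φ l).2) := by
  show -opA k (φ l) - dup k (rmul k 4) (lift (Pol k × Pol k) m L.r.n φ l) = _
  have h : lift (Pol k × Pol k) m L.r.n φ l = L.c • φ l := by
    simp [lift_apply, L.hn, Pi.single_apply]
  rw [h, map_smul, rmul_X4]
  rfl

lemma Qx_n_mem {i : ℤ} {φ : PP k m} (h : φ ∈ Lx k m i) : (Qx L).n φ ∈ Lx k m (i + 1) := by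
  obtain ⟨h1, h2⟩ := mem_Lx.1 h
  have p1 := fun l => mem_Lv.1 h1 l
  have p2 := fun l => mem_Lv.1 h2 l
  have hz4 : ((4 : Fin 5) ≠ 3) := by decide
  refine mem_Lx.2 ⟨mem_Lv.2 fun l => ?_, mem_Lv.2 fun l => ?_⟩
  · show ((Qx L).n φ l).1 ∈ Pd k (i + 1) ⊓ Nf k
    rw [Qx_n_apply]
    exact Submodule.sub_mem _ (Submodule.neg_mem _ (opA_mem (p1 l) (p2 l)).1)
      (Submodule.smul_mem _ _ ⟨X4_mul_mem_Pd (p1 l).1, Nf_mul (X_mem_Nf hz4) (p1 l).2⟩)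
  · show ((Qx L).n φ l).2 ∈ Pd k (i + 1) ⊓ Nf k
    rw [Qx_n_apply]
    exact Submodule.sub_mem _ (Submodule.neg_mem _ (opA_mem (p1 l) (p2 l)).2)
      (Submodule.smul_mem _ _ ⟨X4_mul_mem_Pd (p2 l).1, Nf_mul (X_mem_Nf hz4) (p2 l).2⟩)

lemma map3_n_mem {i : ℤ} {s : PP k m × PP k m × PP k m} (h : s ∈ tri (Lx k m i)) :
    map3 (Qx L).n s ∈ tri (Lx k m (i + 1)) := by
  obtain ⟨a, b, c⟩ := mem_tri.1 h
  exact mem_tri.2 ⟨Qx_n_mem L a, Qx_n_mem L b, Qx_n_mem L c⟩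

lemma eps2_D1 (x : (PP k m × PP k m × PP k m) × PP k m) :
    eps2 L (D1 (Qx L) x) = -LV L (eps2 L x.2) := by
  rw [D1_apply, map_add, eps2_d1, eps2_n, zero_add]

variable [CharZero k]

lemma xcone0 {i : ℤ} (hi : 0 ≤ i) {φ : PP k m} (h : φ ∈ Lx k m (i + 1))
    (v : (Fin m → k) × (Fin m → k)) (he : eps2 L φ = LV L v) :
    ∃ y : (PP k m × PP k m × PP k m) × PP k m,
      y.1 ∈ tri (Lx k m i) ∧ y.2 ∈ Lx k m i ∧ D1 (Qx L) y = φ := by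
  obtain ⟨t, ht, et⟩ := eps2_surj L hi (-v)
  have hn : eps2 L (φ - (Qx L).n t) = 0 := by
    rw [map_sub, he, eps2_n, et, map_neg, neg_neg, sub_self]
  obtain ⟨s, hs, es⟩ := xex0 L (Submodule.sub_mem _ h (Qx_n_mem L ht)) hn
  refine ⟨(s, t), by simpa using hs, ht, ?_⟩
  rw [D1_apply, es, sub_add_cancel]

lemma xcone1_surj {i : ℤ} (hi : 0 ≤ i) (c : (Fin m → k) × (Fin m → k)) (hc : LV L c = 0) :
    ∃ x : (PP k m × PP k m × PP k m) × PP k m,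
      x.1 ∈ tri (Lx k m i) ∧ x.2 ∈ Lx k m i ∧ D1 (Qx L) x = 0 ∧ eps2 L x.2 = c := by
  obtain ⟨t, ht, et⟩ := eps2_surj L hi c
  have hn : eps2 L ((Qx L).n t) = 0 := by rw [eps2_n, et, hc, neg_zero]
  obtain ⟨s, hs, es⟩ := xex0 L (Qx_n_mem L ht) hn
  refine ⟨(-s, t), ?_, ht, ?_, et⟩
  · exact Submodule.neg_mem _ (by simpa using hs)
  · rw [D1_apply, map_neg, es, neg_add_cancel]

lemma xcone1 {i : ℤ} {x : (PP k m × PP k m × PP k m) × PP k m}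
    (h1 : x.1 ∈ tri (Lx k m i)) (h2 : x.2 ∈ Lx k m i) (hd : D1 (Qx L) x = 0)
    (he : eps2 L x.2 = 0) :
    ∃ y : (PP k m × PP k m × PP k m) × (PP k m × PP k m × PP k m),
      y.1 ∈ tri (Lx k m (i - 1)) ∧ y.2 ∈ tri (Lx k m (i - 1)) ∧ D2 (Qx L) y = x := by
  obtain ⟨s, t⟩ := x
  obtain ⟨t1, ht1, rfl⟩ := xex0 L h2 he
  rw [D1_apply, (inter_n (Qx L)).d1, ← map_add] at hd
  have hm : s + map3 (Qx L).n t1 ∈ tri (Lx k m i) := by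
    refine Submodule.add_mem _ h1 ?_
    simpa using map3_n_mem L ht1
  obtain ⟨y, hy, ey⟩ := xex1 L hm hd
  refine ⟨(y, -t1), hy, Submodule.neg_mem _ ht1, ?_⟩
  rw [D2_apply]
  simp [ey]

lemma xcone2 {i : ℤ} {x : (PP k m × PP k m × PP k m) × (PP k m × PP k m × PP k m)}
    (h1 : x.1 ∈ tri (Lx k m i)) (h2 : x.2 ∈ tri (Lx k m i)) (hd : D2 (Qx L) x = 0) :
    ∃ y : PP k m × (PP k m × PP k m × PP k m),
      y.1 ∈ Lx k m (i - 1) ∧ y.2 ∈ tri (Lx k m (i - 1)) ∧ D3 (Qx L) y = x := by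
  obtain ⟨s, t⟩ := x
  rw [D2_apply] at hd
  have hA : d2 (Qx L) s + map3 (Qx L).n t = 0 := congrArg Prod.fst hd
  have hB : d1 (Qx L) t = 0 := neg_eq_zero.1 (congrArg Prod.snd hd)
  obtain ⟨t1, ht1, rfl⟩ := xex1 L h2 hB
  rw [(inter_n (Qx L)).d2, ← map_add] at hA
  have hm : s + map3 (Qx L).n t1 ∈ tri (Lx k m i) := by
    refine Submodule.add_mem _ h1 ?_
    simpa using map3_n_mem L ht1
  obtain ⟨y, hy, ey⟩ := xex2 L hm hA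
  refine ⟨(y, -t1), hy, Submodule.neg_mem _ ht1, ?_⟩
  rw [D3_apply]
  simp [ey]

lemma xcone3 {i : ℤ} {x : PP k m × (PP k m × PP k m × PP k m)}
    (h1 : x.1 ∈ Lx k m i) (h2 : x.2 ∈ tri (Lx k m i)) (hd : D3 (Qx L) x = 0) :
    ∃ t ∈ Lx k m (i - 1), D4 (Qx L) t = x := by
  obtain ⟨s, t⟩ := x
  rw [D3_apply] at hd
  have hA : d3 (Qx L) s + map3 (Qx L).n t = 0 := congrArg Prod.fst hd
  have hB : d2 (Qx L) t = 0 := neg_eq_zero.1 (congrArg Prod.snd hd)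
  obtain ⟨t1, ht1, rfl⟩ := xex2 L h2 hB
  rw [(inter_n (Qx L)).d3, ← map_add] at hA
  have hm : s + (Qx L).n t1 ∈ Lx k m i := by
    refine Submodule.add_mem _ h1 ?_
    simpa using Qx_n_mem L ht1
  have hs := xex3 L hm hA
  refine ⟨-t1, Submodule.neg_mem _ ht1, ?_⟩
  rw [D4_apply, map_neg, map_neg, neg_neg, neg_eq_of_add_eq_zero_left hs]

lemma xcone4 {i : ℤ} {t : PP k m} (h : t ∈ Lx k m i) (hd : D4 (Qx L) t = 0) : t = 0 :=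
  xex3 L h (neg_eq_zero.1 (congrArg Prod.snd hd))

end Vale.Agent.P176
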